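import Mathlib
import Crest.Prelude.Def_FinProb
import Crest.Agent.Lib.BiasedCube.Basic

/-!
Basic tools for the embedding proof of S0073: probabilities of events on the biased cube,
push-forward along injections, product structure, a discrete layer-cake lemma and a finite
minimax lemma.
-/

set_option autoImplicit false

namespace Crest.Agent.R052.Emb

open Finset Crest.FinProb Crest.Agent.Lib.BiasedCube

open Classical in
/-- Indicator of a proposition. -/
noncomputable def ind (a : Prop) : ℝ := if a then 1 else 0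

lemma ind_pos {a : Prop} (h : a) : ind a = 1 := by simp [ind, h]
lemma ind_neg {a : Prop} (h : ¬ a) : ind a = 0 := by simp [ind, h]
lemma ind_nonneg (a : Prop) : 0 ≤ ind a := by unfold ind; split_ifs <;> norm_num
lemma ind_le_one (a : Prop) : ind a ≤ 1 := by unfold ind; split_ifs <;> norm_num
lemma ind_mono {a b : Prop} (h : a → b) : ind a ≤ ind b := by
  by_cases ha : a
  · rw [ind_pos ha, ind_pos (h ha)]
  · rw [ind_neg ha]; exact ind_nonneg b
lemma ind_not (a : Prop) : ind (¬ a) = 1 - ind a := by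
  by_cases ha : a
  · rw [ind_pos ha, ind_neg (not_not.2 ha)]; norm_num
  · rw [ind_neg ha, ind_pos ha]; norm_num
lemma ind_congr {a b : Prop} (h : a ↔ b) : ind a = ind b := by rw [propext h]
lemma ind_and (a b : Prop) : ind (a ∧ b) = ind a * ind b := by
  by_cases ha : a <;> by_cases hb : b <;> simp [ind, ha, hb]
lemma ind_le_of {a : Prop} {x : ℝ} (h0 : 0 ≤ x) (h1 : a → 1 ≤ x) : ind a ≤ x := by
  by_cases ha : a
  · rw [ind_pos ha]; exact h1 ha
  · rw [ind_neg ha]; exact h0
lemma ind_eq_ite (a : Prop) [Decidable a] : ind a = if a then 1 else 0 := by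
  by_cases ha : a <;> simp [ind, ha]

lemma sum_ind_eq_card {α : Type*} (s : Finset α) (q : α → Prop) [DecidablePred q] :
    ∑ a ∈ s, ind (q a) = ((s.filter q).card : ℝ) := by
  simp_rw [ind_eq_ite]
  rw [Finset.sum_boole]

variable {ι : Type*} [Fintype ι] [DecidableEq ι]

/-- Probability of an event on the biased cube. -/
noncomputable def Pr (p : ℝ) (E : (ι → Bool) → Prop) : ℝ := Ex p (fun x => ind (E x))

lemma Pr_nonneg {p : ℝ} (h0 : 0 ≤ p) (h1 : p ≤ 1) (E : (ι → Bool) → Prop) : 0 ≤ Pr p E :=
  Ex_nonneg h0 h1 fun _ => ind_nonneg _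

lemma Pr_le_one {p : ℝ} (h0 : 0 ≤ p) (h1 : p ≤ 1) (E : (ι → Bool) → Prop) : Pr p E ≤ 1 := by
  have := Ex_mono (ι := ι) h0 h1 (g := fun x => ind (E x)) (h := fun _ => 1)
    fun _ => ind_le_one _
  rwa [Ex_one] at this

lemma Pr_mono {p : ℝ} (h0 : 0 ≤ p) (h1 : p ≤ 1) {E F : (ι → Bool) → Prop}
    (h : ∀ x, E x → F x) : Pr p E ≤ Pr p F :=
  Ex_mono h0 h1 fun x => ind_mono (h x)

lemma Pr_not (p : ℝ) (E : (ι → Bool) → Prop) : Pr p (fun x => ¬ E x) = 1 - Pr p E := by
  unfold Pr
  simp_rw [ind_not]
  rw [Ex_sub, Ex_one]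

lemma bernoulliProb_eq_Pr (p : ℝ) (E : Set (ι → Bool)) :
    bernoulliProb p E = Pr p (fun x => x ∈ E) := by
  classical
  unfold bernoulliProb Pr Ex
  rw [Finset.sum_filter]
  refine Finset.sum_congr rfl fun x _ => ?_
  by_cases hx : x ∈ E
  · simp [hx, ind]
  · simp [hx, ind]

lemma Ex_swap {κ : Type*} [Fintype κ] [DecidableEq κ] (p : ℝ)
    (g : (ι → Bool) → (κ → Bool) → ℝ) :
    Ex p (fun x => Ex p (fun y => g x y)) = Ex p (fun y => Ex p (fun x => g x y)) := by
  unfold Ex
  simp_rw [Finset.mul_sum]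
  rw [Finset.sum_comm]
  exact Finset.sum_congr rfl fun y _ => Finset.sum_congr rfl fun x _ => by ring

lemma Ex_prod_inj {κ : Type*} [Fintype κ] [DecidableEq κ] (p : ℝ) (φ : κ → ι)
    (hφ : Function.Injective φ) (F : κ → Bool → ℝ) :
    Ex p (fun x : ι → Bool => ∏ k, F k (x (φ k)))
      = ∏ k, (p * F k true + (1 - p) * F k false) := by
  have h1 : (fun x : ι → Bool => ∏ k, F k (x (φ k))) = fun x => ∏ i,
      (fun i b => ∏ k ∈ univ.filter (fun k => φ k = i), F k b) i (x i) := by
    funext x
    rw [← Finset.prod_fiberwise (s := univ) (g := φ) (f := fun k => F k (x (φ k)))]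
    refine Finset.prod_congr rfl fun i _ => Finset.prod_congr rfl fun k hk => ?_
    rw [(Finset.mem_filter.1 hk).2]
  rw [h1, Ex_prod p (fun i b => ∏ k ∈ univ.filter (fun k => φ k = i), F k b),
    ← Finset.prod_fiberwise (s := univ) (g := φ)
      (f := fun k => p * F k true + (1 - p) * F k false)]
  refine Finset.prod_congr rfl fun i _ => ?_
  by_cases hi : ∃ k, φ k = i
  · obtain ⟨k, rfl⟩ := hi
    have : univ.filter (fun k' => φ k' = φ k) = {k} := by
      ext k'; simp [hφ.eq_iff]
    simp [this]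
  · have : univ.filter (fun k' => φ k' = i) = ∅ := by
      ext k'; simp only [Finset.mem_filter, Finset.mem_univ, true_and, Finset.notMem_empty,
        iff_false]; exact fun h => hi ⟨k', h⟩
    simp [this]

/-- Push-forward along an injection of the coordinates. -/
lemma Ex_comp_inj {κ : Type*} [Fintype κ] [DecidableEq κ] (p : ℝ) (φ : κ → ι)
    (hφ : Function.Injective φ) (g : (κ → Bool) → ℝ) :
    Ex p (fun x : ι → Bool => g (fun k => x (φ k))) = Ex p g := by
  have h1 : (fun x : ι → Bool => g (fun k => x (φ k))) = fun x => ∑ z : κ → Bool,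
      g z * ∏ k, (fun k b => if b = z k then (1 : ℝ) else 0) k (x (φ k)) := by
    funext x
    rw [Finset.sum_eq_single (fun k => x (φ k))]
    · simp
    · intro z _ hz
      obtain ⟨k, hk⟩ := Function.ne_iff.1 hz
      rw [Finset.prod_eq_zero (mem_univ k) (by simp [Ne.symm hk]), mul_zero]
    · simp
  rw [h1, Ex_sum]
  conv_rhs => unfold Ex
  refine Finset.sum_congr rfl fun z _ => ?_
  rw [Ex_const_mul, Ex_prod_inj p φ hφ (fun k b => if b = z k then (1 : ℝ) else 0), bw_eq,
    mul_comm]
  congr 1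
  refine Finset.prod_congr rfl fun k _ => ?_
  cases z k <;> simp

lemma Pr_comp_inj {κ : Type*} [Fintype κ] [DecidableEq κ] (p : ℝ) (φ : κ → ι)
    (hφ : Function.Injective φ) (E : (κ → Bool) → Prop) :
    Pr p (fun x : ι → Bool => E (fun k => x (φ k))) = Pr p E :=
  Ex_comp_inj p φ hφ (fun z => ind (E z))

/-- The rows of a random matrix are independent. -/
lemma Ex_rows_prod {A B : Type*} [Fintype A] [DecidableEq A] [Fintype B] [DecidableEq B] (p : ℝ)
    (h : A → (B → Bool) → ℝ) :
    Ex p (fun ξ : A × B → Bool => ∏ a, h a (fun b => ξ (a, b))) = ∏ a, Ex p (h a) := by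
  unfold Ex
  rw [Finset.prod_univ_sum, Fintype.piFinset_univ,
    ← Equiv.sum_comp (Equiv.curry A B Bool)]
  refine Finset.sum_congr rfl fun ξ _ => ?_
  rw [Finset.prod_mul_distrib]
  congr 1
  simp only [bw_eq]
  rw [Fintype.prod_prod_type]
  rfl

/-- Probability that a fixed set of coins all show heads. -/
lemma Ex_ind_subset (p : ℝ) (S : Finset ι) :
    Ex p (fun Y : ι → Bool => ind (∀ x ∈ S, Y x = true)) = p ^ S.card := by
  have h1 : (fun Y : ι → Bool => ind (∀ x ∈ S, Y x = true)) = fun Y => ∏ i,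
      (fun i b => if i ∈ S then (if b = true then (1 : ℝ) else 0) else 1) i (Y i) := by
    funext Y
    by_cases h : ∀ x ∈ S, Y x = true
    · rw [ind_pos h]
      refine (Finset.prod_eq_one fun i _ => ?_).symm
      by_cases hi : i ∈ S
      · simp [hi, h i hi]
      · simp [hi]
    · rw [ind_neg h]
      push Not at h
      obtain ⟨i, hi, hY⟩ := h
      exact (Finset.prod_eq_zero (mem_univ i) (by simp [hi, hY])).symm
  rw [h1, Ex_prod p (fun i b => if i ∈ S then (if b = true then (1 : ℝ) else 0) else 1)]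
  have : ∀ i, p * (if i ∈ S then (if true = true then (1 : ℝ) else 0) else 1)
      + (1 - p) * (if i ∈ S then (if false = true then (1 : ℝ) else 0) else 1)
      = if i ∈ S then p else 1 := by
    intro i; by_cases hi : i ∈ S <;> simp [hi]
  rw [Finset.prod_congr rfl (fun i _ => this i), Finset.prod_ite_mem]
  simp

/-- Discrete layer-cake lemma with signed weights. -/
lemma layer_cake {I : Type*} (s : Finset I) (w : I → ℝ) :
    ∀ (k : ℕ) (a : I → ℝ), (s.filter (fun i => 0 < a i)).card ≤ k → (∀ i ∈ s, 0 ≤ a i) →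
      (∀ t : ℝ, 0 ≤ t → ∑ i ∈ s, w i * ind (t < a i) ≤ 0) → ∑ i ∈ s, w i * a i ≤ 0 := by
  classical
  intro k
  induction k with
  | zero =>
    intro a hk ha _
    have h0 : s.filter (fun i => 0 < a i) = ∅ := Finset.card_eq_zero.1 (Nat.le_zero.1 hk)
    refine le_of_eq (Finset.sum_eq_zero fun i hi => ?_)
    have : ¬ 0 < a i := fun h => by
      have : i ∈ s.filter (fun i => 0 < a i) := Finset.mem_filter.2 ⟨hi, h⟩
      rw [h0] at this; simp at this
    rw [le_antisymm (not_lt.1 this) (ha i hi), mul_zero]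
  | succ k ih =>
    intro a hk ha ht
    by_cases hne : (s.filter (fun i => 0 < a i)).Nonempty
    · obtain ⟨i0, hi0, hmin⟩ := Finset.exists_min_image _ a hne
      obtain ⟨hi0s, hi0p⟩ := Finset.mem_filter.1 hi0
      set m := a i0 with hm
      have hsplit : ∀ i ∈ s, a i = max (a i - m) 0 + m * ind (0 < a i) := by
        intro i hi
        by_cases hp : 0 < a i
        · have := hmin i (Finset.mem_filter.2 ⟨hi, hp⟩)
          rw [ind_pos hp, max_eq_left (by linarith)]; ring
        · have h0 : a i = 0 := le_antisymm (not_lt.1 hp) (ha i hi)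
          rw [ind_neg hp, h0, max_eq_right (by linarith)]; ring
      have h1 : ∑ i ∈ s, w i * max (a i - m) 0 ≤ 0 := by
        refine ih (fun i => max (a i - m) 0) ?_ (fun i _ => le_max_right _ _) ?_
        · have hsub : s.filter (fun i => 0 < max (a i - m) 0)
              ⊆ (s.filter (fun i => 0 < a i)).erase i0 := by
            intro i hi
            obtain ⟨his, hip⟩ := Finset.mem_filter.1 hi
            have hlt : 0 < a i - m := by
              rcases lt_max_iff.1 hip with h | h
              · exact h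
              · exact absurd h (lt_irrefl _)
            refine Finset.mem_erase.2 ⟨?_, Finset.mem_filter.2 ⟨his, by linarith⟩⟩
            rintro rfl
            simp [hm] at hlt
          have := Finset.card_le_card hsub
          rw [Finset.card_erase_of_mem hi0] at this
          omega
        · intro t ht0
          have := ht (t + m) (by linarith)
          refine le_of_eq_of_le (Finset.sum_congr rfl fun i _ => ?_) this
          congr 1
          refine ind_congr ⟨fun h => ?_, fun h => lt_max_iff.2 (Or.inl (by linarith))⟩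
          rcases lt_max_iff.1 h with h | h
          · linarith
          · linarith
      have h2 := ht 0 le_rfl
      calc ∑ i ∈ s, w i * a i
          = ∑ i ∈ s, w i * max (a i - m) 0 + m * ∑ i ∈ s, w i * ind (0 < a i) := by
            rw [Finset.mul_sum, ← Finset.sum_add_distrib]
            refine Finset.sum_congr rfl fun i hi => ?_
            conv_lhs => rw [hsplit i hi]
            ring
        _ ≤ 0 := by nlinarith
    · refine ih a ?_ ha ht
      rw [Finset.not_nonempty_iff_eq_empty.1 hne]; simp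

/-- Finite minimax / theorem of the alternative. -/
lemma minimax {O K : Type*} [Fintype O] [Fintype K] [Nonempty O] (A : O → K → ℝ)
    (h : ∀ q : K → ℝ, (∀ k, 0 ≤ q k) → ∃ o, ∑ k, q k * A o k ≤ 0) :
    ∃ w : O → ℝ, (∀ o, 0 ≤ w o) ∧ ∑ o, w o = 1 ∧ ∀ k, ∑ o, w o * A o k ≤ 0 := by
  classical
  by_contra hcon
  push Not at hcon
  let L : (O → ℝ) →ₗ[ℝ] (K → ℝ) :=
    { toFun := fun w k => ∑ o, w o * A o k
      map_add' := fun w w' => by funext k; simp [add_mul, Finset.sum_add_distrib]
      map_smul' := fun c w => by funext k; simp [Finset.mul_sum, mul_assoc] }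
  have hS1 : Convex ℝ (L '' stdSimplex ℝ O) := (convex_stdSimplex ℝ O).linear_image L
  have hS2 : IsCompact (L '' stdSimplex ℝ O) :=
    (isCompact_stdSimplex ℝ O).image L.continuous_of_finiteDimensional
  have hT1 : Convex ℝ (Set.Iic (0 : K → ℝ)) := convex_Iic _
  have hT2 : IsClosed (Set.Iic (0 : K → ℝ)) := isClosed_Iic
  have hdisj : Disjoint (L '' stdSimplex ℝ O) (Set.Iic (0 : K → ℝ)) := by
    rw [Set.disjoint_left]
    rintro _ ⟨w, hw, rfl⟩ hle
    obtain ⟨k, hk⟩ := hcon w hw.1 hw.2
    exact absurd (hle k) (not_le.2 hk)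
  obtain ⟨f, u, v, hu, huv, hv⟩ := geometric_hahn_banach_compact_closed hS1 hS2 hT1 hT2 hdisj
  have hv0 : v < 0 := by simpa using hv 0 (Set.mem_Iic.2 le_rfl)
  let q : K → ℝ := fun k => - f (Pi.single k 1)
  have hq : ∀ k, 0 ≤ q k := by
    intro k
    by_contra hneg
    have hpos : 0 < f (Pi.single k 1) := by simp only [q] at hneg; linarith
    have hmem : ((v / f (Pi.single k 1)) • Pi.single k (1 : ℝ) : K → ℝ) ∈ Set.Iic (0 : K → ℝ) := by
      intro k'
      by_cases hk : k' = k
      · subst hk
        simp only [Pi.smul_apply, Pi.single_eq_same, smul_eq_mul, mul_one, Pi.zero_apply]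
        exact (div_neg_of_neg_of_pos hv0 hpos).le
      · simp [hk]
    have := hv _ hmem
    rw [map_smul, smul_eq_mul, div_mul_cancel₀ _ hpos.ne'] at this
    exact lt_irrefl _ this
  obtain ⟨o, ho⟩ := h q hq
  have hmem : A o ∈ L '' stdSimplex ℝ O := by
    refine ⟨Pi.single o 1, single_mem_stdSimplex ℝ o, ?_⟩
    funext k
    simp [L, Pi.single_apply]
  have h1 := hu _ hmem
  have h2 : f (A o) = - ∑ k, q k * A o k := by
    conv_lhs => rw [← Finset.univ_sum_single (A o), map_sum]
    rw [← Finset.sum_neg_distrib]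
    refine Finset.sum_congr rfl fun k _ => ?_
    have : (Pi.single k (A o k) : K → ℝ) = A o k • Pi.single k (1 : ℝ) := by
      funext k'; by_cases hk : k' = k
      · subst hk; simp
      · simp [hk]
    rw [this, map_smul]; simp [q, mul_comm]
  linarith

lemma exp_neg_le {x : ℝ} (h0 : 0 ≤ x) (h1 : x ≤ 1) : Real.exp (-x) ≤ 1 - x / 2 := by
  have h2 : 1 + x ≤ Real.exp x := by linarith [Real.add_one_le_exp x]
  rw [Real.exp_neg, inv_le_comm₀ (Real.exp_pos x) (by linarith)]
  refine le_trans ?_ h2
  rw [inv_le_iff_one_le_mul₀ (by linarith)]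
  nlinarith

lemma exp_le_one_add {x : ℝ} (h0 : 0 ≤ x) (h1 : x ≤ 1) : Real.exp x ≤ 1 + 2 * x := by
  have := Real.abs_exp_sub_one_le (x := x) (by rw [abs_of_nonneg h0]; exact h1)
  rw [abs_of_nonneg h0] at this
  linarith [le_abs_self (Real.exp x - 1)]

end Crest.Agent.R052.Emb
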