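import Crest.Agent.R052.EmbLayers
import Crest.Prelude.Def_CopyThreshold

/-!
Covers of the family of copies of `H` by all copies of a fixed edge set, and the sparsity
consequences of not having a cheap cover.
-/

set_option autoImplicit false

namespace Crest.Agent.R052.Emb

open Finset Crest.FinProb Crest.CombinatoricsR.RandomGraph

variable {W : Type*} [Fintype W] [DecidableEq W]

/-- The copies of `H` in `K_n` have a cover of cost at most one half at `p`. -/
def Small (n : ℕ) (H : SimpleGraph W) (p : ℝ) : Prop :=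
  ∃ C : Finset (Finset (EdgeSlot n)),
    (∀ A : Finset (EdgeSlot n), H.IsContained (edgeGraph A) → ∃ S ∈ C, S ⊆ A) ∧
    ∑ S ∈ C, p ^ S.card ≤ 1 / 2

/-- The slots of a set of ordered pairs. -/
def slots {n : ℕ} (E : Finset (Fin n × Fin n)) : Finset (EdgeSlot n) :=
  univ.filter (fun z => ∃ e ∈ E, z.1 = s(e.1, e.2))

omit [Fintype W] [DecidableEq W] in
lemma small_of_family {n : ℕ} {H : SimpleGraph W} {p : ℝ} (h0 : 0 ≤ p) (h1 : p ≤ 1)
    (D : Finset (W × W)) (hD : ∀ e ∈ D, H.Adj e.1 e.2) (hanti : ∀ e ∈ D, (e.2, e.1) ∉ D)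
    (𝒜 : Finset (Finset (Fin n × Fin n)))
    (h𝒜 : ∀ f : W → Fin n, Function.Injective f → D.image (Prod.map f f) ∈ 𝒜)
    (hcost : 𝒜.card * p ^ D.card ≤ 1 / 2) : Small n H p := by
  refine ⟨(𝒜.image slots).filter (fun S => D.card ≤ S.card), ?_, ?_⟩
  · rintro A ⟨f⟩
    have hinj : Function.Injective f.toHom := f.injective'
    refine ⟨slots (D.image (Prod.map f.toHom f.toHom)), Finset.mem_filter.2
      ⟨Finset.mem_image_of_mem _ (h𝒜 _ hinj), ?_⟩, ?_⟩
    · rw [← Finset.card_attach (s := D)]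
      refine Finset.card_le_card_of_injOn
        (fun e : D => mkSlot (f.toHom e.1.1) (f.toHom e.1.2)
          (fun h => (hD e.1 e.2).ne (hinj h))) (fun e _ => ?_) (fun e _ e' _ h => ?_)
      · simp only [slots, Finset.coe_filter, Finset.mem_univ, true_and, Set.mem_ofPred_eq]
        exact ⟨_, Finset.mem_image_of_mem _ e.2, rfl⟩
      · have h2 : s(f.toHom e.1.1, f.toHom e.1.2) = s(f.toHom e'.1.1, f.toHom e'.1.2) :=
          congrArg Subtype.val h
        rw [Sym2.eq_iff] at h2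
        rcases h2 with ⟨h3, h4⟩ | ⟨h3, h4⟩
        · exact Subtype.ext (Prod.ext (hinj h3) (hinj h4))
        · refine absurd ?_ (hanti e.1 e.2)
          rw [hinj h3, hinj h4]; exact e'.2
    · intro z hz
      obtain ⟨e, he, hze⟩ := (Finset.mem_filter.1 hz).2
      obtain ⟨e', he', rfl⟩ := Finset.mem_image.1 he
      have h2 := f.toHom.map_rel (hD e' he')
      unfold edgeGraph at h2
      rw [SimpleGraph.fromEdgeSet_adj] at h2
      obtain ⟨⟨h3, h4⟩, _⟩ := h2
      have : z = ⟨_, h3⟩ := Subtype.ext hze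
      rw [this]; exact h4
  · refine le_trans ?_ hcost
    calc ∑ S ∈ (𝒜.image slots).filter (fun S => D.card ≤ S.card), p ^ S.card
        ≤ ∑ S ∈ (𝒜.image slots).filter (fun S => D.card ≤ S.card), p ^ D.card :=
          Finset.sum_le_sum fun S hS => pow_le_pow_of_le_one h0 h1 (Finset.mem_filter.1 hS).2
      _ ≤ 𝒜.card * p ^ D.card := by
          rw [Finset.sum_const, nsmul_eq_mul]
          gcongr
          exact (Finset.card_filter_le _ _).trans Finset.card_image_le

omit [Fintype W] in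
lemma small_single {n : ℕ} {H : SimpleGraph W} (hH : H ≠ ⊥) {p : ℝ} (h0 : 0 ≤ p) (h1 : p ≤ 1)
    (hp : (n : ℝ) ^ 2 * p ≤ 1 / 2) : Small n H p := by
  obtain ⟨u, w, huw⟩ : ∃ u w, H.Adj u w := by
    by_contra hc
    push Not at hc
    exact hH (by ext u w; simp [hc])
  refine small_of_family h0 h1 {(u, w)} (by simpa using huw) ?_
    (univ.image (fun e : Fin n × Fin n => ({e} : Finset _))) (fun f _ => by simp) ?_
  · simp only [Finset.mem_singleton, forall_eq, Prod.mk.injEq, not_and]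
    intro h; exact absurd h huw.ne'
  · refine le_trans ?_ hp
    rw [Finset.card_singleton, pow_one]
    gcongr
    have : (univ.image (fun e : Fin n × Fin n => ({e} : Finset _))).card ≤ n ^ 2 :=
      Finset.card_image_le.trans (by simp [sq])
    exact_mod_cast this

lemma card_piFinset_restrict {n : ℕ} (U : Finset W) (z : Fin n) :
    (Fintype.piFinset (fun w => if w ∈ U then (univ : Finset (Fin n)) else {z})).card
      = n ^ U.card := by
  rw [Fintype.card_piFinset]
  have : ∀ w, (if w ∈ U then (univ : Finset (Fin n)) else {z}).card = if w ∈ U then n else 1 := by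
    intro w; split_ifs <;> simp
  simp_rw [this]
  rw [Finset.prod_ite_mem]; simp

lemma restrict_mem_piFinset {n : ℕ} (U : Finset W) (z : Fin n) (f : W → Fin n) :
    (fun w => if w ∈ U then f w else z)
      ∈ Fintype.piFinset (fun w => if w ∈ U then (univ : Finset (Fin n)) else {z}) := by
  rw [Fintype.mem_piFinset]
  intro w; split_ifs <;> simp

/-- Sparsity of induced subgraphs. -/
lemma sparse_induced {n : ℕ} (hn : 0 < n) {H : SimpleGraph W} [DecidableRel H.Adj] {r : ℝ}
    (h0 : 0 ≤ r) (h1 : r ≤ 1) (hns : ¬ Small n H r) (U : Finset W) :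
    ∃ e : ℕ, ∑ u ∈ U, (U.filter (fun w => H.Adj u w)).card ≤ 2 * e ∧
      1 / 2 < (n : ℝ) ^ U.card * r ^ e := by
  let ε := Fintype.equivFin W
  let D : Finset (W × W) := (U ×ˢ U).filter (fun e => H.Adj e.1 e.2 ∧ ε e.1 < ε e.2)
  refine ⟨D.card, ?_, ?_⟩
  · have h2 : ∑ u ∈ U, (U.filter (fun w => H.Adj u w)).card
        = ((U ×ˢ U).filter (fun e => H.Adj e.1 e.2)).card := by
      rw [Finset.card_filter, Finset.sum_product]
      exact Finset.sum_congr rfl fun u _ => Finset.card_filter _ _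
    have h3 : (U ×ˢ U).filter (fun e => H.Adj e.1 e.2) ⊆ D ∪ D.image Prod.swap := by
      rintro ⟨u, w⟩ he
      obtain ⟨h4, h5⟩ := Finset.mem_filter.1 he
      obtain ⟨h6, h7⟩ := Finset.mem_product.1 h4
      rcases lt_or_gt_of_ne (fun h => h5.ne (ε.injective h)) with h | h
      · exact Finset.mem_union_left _ (Finset.mem_filter.2 ⟨h4, h5, h⟩)
      · exact Finset.mem_union_right _ (Finset.mem_image.2 ⟨(w, u),
          Finset.mem_filter.2 ⟨Finset.mem_product.2 ⟨h7, h6⟩, h5.symm, h⟩, rfl⟩)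
    have h4 := (Finset.card_le_card h3).trans (Finset.card_union_le _ _)
    have h5 : (D.image Prod.swap).card ≤ D.card := Finset.card_image_le
    omega
  · by_contra hc
    refine hns (small_of_family h0 h1 D (fun e he => (Finset.mem_filter.1 he).2.1)
      (fun e he he' => ?_)
      ((Fintype.piFinset (fun w => if w ∈ U then (univ : Finset (Fin n)) else {⟨0, hn⟩})).image
        (fun g => D.image (Prod.map g g))) (fun f _ => ?_) ?_)
    · exact lt_asymm (Finset.mem_filter.1 he).2.2 (Finset.mem_filter.1 he').2.2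
    · refine Finset.mem_image.2 ⟨_, restrict_mem_piFinset U ⟨0, hn⟩ f, ?_⟩
      refine Finset.image_congr fun e he => ?_
      obtain ⟨h6, h7⟩ := Finset.mem_product.1 (Finset.mem_filter.1 he).1
      simp [Prod.map, h6, h7]
    · refine le_trans ?_ (not_lt.1 hc)
      gcongr
      have := (Finset.card_image_le (f := fun g : W → Fin n => D.image (Prod.map g g))).trans
        (card_piFinset_restrict U ⟨0, hn⟩).le
      exact_mod_cast this

/-- Sparsity of complete bipartite subgraphs. -/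
lemma sparse_codeg {n : ℕ} (hn : 0 < n) {H : SimpleGraph W} {r : ℝ}
    (h0 : 0 ≤ r) (h1 : r ≤ 1) (hns : ¬ Small n H r) (S Z : Finset W)
    (hadj : ∀ u ∈ Z, ∀ x ∈ S, H.Adj u x) :
    1 / 2 < (n : ℝ) ^ S.card * (n.choose Z.card * (r ^ S.card) ^ Z.card) := by
  by_contra hc
  refine hns (small_of_family h0 h1 (Z ×ˢ S)
    (fun e he => hadj _ (Finset.mem_product.1 he).1 _ (Finset.mem_product.1 he).2)
    (fun e he he' => ?_)
    (((Fintype.piFinset (fun w => if w ∈ S then (univ : Finset (Fin n)) else {⟨0, hn⟩})) ×ˢ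
      (univ : Finset (Fin n)).powersetCard Z.card).image
      (fun a => (a.2 ×ˢ S).image (fun e => (e.1, a.1 e.2)))) (fun f hf => ?_) ?_)
  · exact (hadj _ (Finset.mem_product.1 he).1 _ (Finset.mem_product.1 he').2).ne rfl
  · refine Finset.mem_image.2 ⟨(_, Z.image f), Finset.mem_product.2
      ⟨restrict_mem_piFinset S ⟨0, hn⟩ f, ?_⟩, ?_⟩
    · rw [Finset.mem_powersetCard]
      exact ⟨Finset.subset_univ _, Finset.card_image_of_injective _ hf⟩
    · ext ⟨a, b⟩
      simp only [Finset.mem_image, Finset.mem_product, Prod.mk.injEq, Prod.exists, Prod.map]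
      constructor
      · rintro ⟨a', x, ⟨⟨u, hu, rfl⟩, hx⟩, rfl, rfl⟩
        exact ⟨u, x, ⟨hu, hx⟩, rfl, (if_pos hx).symm⟩
      · rintro ⟨u, x, ⟨hu, hx⟩, rfl, rfl⟩
        exact ⟨f u, x, ⟨⟨u, hu, rfl⟩, hx⟩, rfl, if_pos hx⟩
  · refine le_trans ?_ (not_lt.1 hc)
    rw [Finset.card_product, ← pow_mul, mul_comm S.card, ← mul_assoc]
    gcongr
    have := (Finset.card_image_le (s := ((Fintype.piFinset (fun w => if w ∈ S then
      (univ : Finset (Fin n)) else {⟨0, hn⟩})) ×ˢ (univ : Finset (Fin n)).powersetCard Z.card))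
      (f := fun a => (a.2 ×ˢ S).image (fun e => (e.1, a.1 e.2))))
    rw [Finset.card_product, card_piFinset_restrict, Finset.card_powersetCard, Finset.card_univ,
      Fintype.card_fin] at this
    exact_mod_cast this

omit [Fintype W] in
/-- Sparsity of star forests. -/
lemma sparse_stars {n : ℕ} {H : SimpleGraph W} {r : ℝ}
    (h0 : 0 ≤ r) (h1 : r ≤ 1) (hns : ¬ Small n H r) (X : Finset W) (lv : W → Finset W) (d : ℕ)
    (hd : ∀ x ∈ X, (lv x).card = d) (hX : ∀ x ∈ X, Disjoint X (lv x))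
    (hadj : ∀ x ∈ X, ∀ u ∈ lv x, H.Adj x u) :
    1 / 2 < ((n * n.choose d).choose X.card : ℝ) * (r ^ d) ^ X.card := by
  by_contra hc
  let D : Finset (W × W) := X.biUnion (fun x => (lv x).image (fun u => (x, u)))
  have hDm : ∀ e, e ∈ D ↔ e.1 ∈ X ∧ e.2 ∈ lv e.1 := by
    rintro ⟨a, b⟩
    simp only [D, Finset.mem_biUnion, Finset.mem_image, Prod.mk.injEq]
    constructor
    · rintro ⟨x, hx, u, hu, rfl, rfl⟩; exact ⟨hx, hu⟩
    · rintro ⟨hx, hu⟩; exact ⟨a, hx, b, hu, rfl, rfl⟩
  have hDc : D.card = d * X.card := by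
    rw [Finset.card_biUnion]
    · rw [Finset.sum_congr rfl (g := fun _ => d) (fun x hx => by
        rw [Finset.card_image_of_injective _ (fun u u' h => by simpa using h), hd x hx])]
      simp [mul_comm]
    · intro x _ x' _ hne
      simp only [Function.onFun]
      rw [Finset.disjoint_left]
      intro e he he'
      obtain ⟨u, _, rfl⟩ := Finset.mem_image.1 he
      obtain ⟨u', _, h⟩ := Finset.mem_image.1 he'
      exact hne (Prod.mk.inj h).1.symm
  refine hns (small_of_family h0 h1 D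
    (fun e he => hadj _ ((hDm e).1 he).1 _ ((hDm e).1 he).2) (fun e he he' => ?_)
    ((((univ : Finset (Fin n)) ×ˢ (univ : Finset (Fin n)).powersetCard d).powersetCard
      X.card).image (fun a => a.biUnion (fun c => c.2.image (fun z => (c.1, z)))))
      (fun f hf => ?_) ?_)
  · exact Finset.disjoint_left.1 (hX _ ((hDm e).1 he).1) ((hDm _).1 he').1 ((hDm e).1 he).2
  · refine Finset.mem_image.2 ⟨X.image (fun x => (f x, (lv x).image f)), ?_, ?_⟩
    · rw [Finset.mem_powersetCard]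
      refine ⟨fun c hc => ?_, Finset.card_image_of_injective _
        (fun x x' h => hf (Prod.mk.inj h).1)⟩
      obtain ⟨x, hx, rfl⟩ := Finset.mem_image.1 hc
      refine Finset.mem_product.2 ⟨mem_univ _, Finset.mem_powersetCard.2
        ⟨Finset.subset_univ _, ?_⟩⟩
      rw [Finset.card_image_of_injective _ hf, hd x hx]
    · ext ⟨a, b⟩
      simp only [Finset.mem_biUnion, Finset.mem_image, Prod.mk.injEq, Prod.exists, Prod.map, hDm]
      constructor
      · rintro ⟨_, _, ⟨x, hx, rfl, rfl⟩, z, hz, rfl, rfl⟩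
        obtain ⟨u, hu, rfl⟩ := Finset.mem_image.1 hz
        exact ⟨x, u, ⟨hx, hu⟩, rfl, rfl⟩
      · rintro ⟨x, u, ⟨hx, hu⟩, rfl, rfl⟩
        exact ⟨_, _, ⟨x, hx, rfl, rfl⟩, f u, Finset.mem_image_of_mem _ hu, rfl, rfl⟩
  · refine le_trans ?_ (not_lt.1 hc)
    rw [hDc, pow_mul]
    gcongr
    have := (Finset.card_image_le (s := (((univ : Finset (Fin n)) ×ˢ
      (univ : Finset (Fin n)).powersetCard d).powersetCard X.card))
      (f := fun a => a.biUnion (fun c => c.2.image (fun z => (c.1, z)))))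
    rw [Finset.card_powersetCard, Finset.card_product, Finset.card_powersetCard, Finset.card_univ,
      Fintype.card_fin] at this
    exact_mod_cast this

lemma choose_mul_pow_le (N m : ℕ) (hm : 0 < m) {x : ℝ} (hx : 0 ≤ x) :
    (N.choose m : ℝ) * x ^ m ≤ (Real.exp 1 * N * x / m) ^ m := by
  have h1 : (N.choose m : ℝ) ≤ (N : ℝ) ^ m / m.factorial := Nat.choose_le_pow_div m N
  have h2 : (m : ℝ) ^ m / m.factorial ≤ Real.exp 1 ^ m := by
    rw [← Real.exp_nat_mul, mul_one]
    exact Real.pow_div_factorial_le_exp _ (Nat.cast_nonneg _) m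
  have hmr : (0 : ℝ) < m := by exact_mod_cast hm
  calc (N.choose m : ℝ) * x ^ m ≤ (N : ℝ) ^ m / m.factorial * x ^ m := by gcongr
    _ = ((m : ℝ) ^ m / m.factorial) * (N * x / m) ^ m := by
        rw [div_pow, mul_pow]; field_simp
    _ ≤ Real.exp 1 ^ m * (N * x / m) ^ m := by gcongr
    _ = _ := by rw [← mul_pow]; congr 1; ring

omit [Fintype W] in
lemma stars_count {n : ℕ} {H : SimpleGraph W} {r : ℝ}
    (h0 : 0 ≤ r) (h1 : r ≤ 1) (hns : ¬ Small n H r) (X : Finset W) (lv : W → Finset W) (d : ℕ)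
    (hd : ∀ x ∈ X, (lv x).card = d) (hX : ∀ x ∈ X, Disjoint X (lv x))
    (hadj : ∀ x ∈ X, ∀ u ∈ lv x, H.Adj x u) :
    (X.card : ℝ) ≤ 6 * n * (n.choose d * r ^ d) := by
  have h2 := sparse_stars h0 h1 hns X lv d hd hX hadj
  rcases Nat.eq_zero_or_pos X.card with h | hm
  · rw [h]; simp only [Nat.cast_zero]; positivity
  by_contra hc
  push Not at hc
  have hmr : (0 : ℝ) < X.card := by exact_mod_cast hm
  have h3 := choose_mul_pow_le (n * n.choose d) X.card hm (x := r ^ d) (by positivity)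
  have h4 : Real.exp 1 * ((n * n.choose d : ℕ) : ℝ) * r ^ d / X.card ≤ 1 / 2 := by
    rw [div_le_iff₀ hmr]
    push_cast
    have h5 : 0 ≤ (n : ℝ) * (n.choose d * r ^ d) := by positivity
    nlinarith [Real.exp_one_lt_three]
  have h6 : (Real.exp 1 * ((n * n.choose d : ℕ) : ℝ) * r ^ d / X.card) ^ X.card ≤ 1 / 2 := by
    calc _ ≤ (1 / 2 : ℝ) ^ X.card := by gcongr
      _ ≤ (1 / 2) ^ 1 := pow_le_pow_of_le_one (by norm_num) (by norm_num) hm
      _ = 1 / 2 := pow_one _
  linarith

lemma codeg_count {n : ℕ} (hn : 0 < n) {H : SimpleGraph W} {r : ℝ}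
    (h0 : 0 ≤ r) (h1 : r ≤ 1) (hns : ¬ Small n H r) (S Z : Finset W)
    (hadj : ∀ u ∈ Z, ∀ x ∈ S, H.Adj u x)
    (hbig : 2 * (n : ℝ) ^ S.card ≤ Real.exp (n * r ^ S.card)) :
    (Z.card : ℝ) ≤ 9 * n * r ^ S.card := by
  have h2 := sparse_codeg hn h0 h1 hns S Z hadj
  rcases Nat.eq_zero_or_pos Z.card with h | hm
  · rw [h]; simp only [Nat.cast_zero]; positivity
  by_contra hc
  push Not at hc
  have hmr : (0 : ℝ) < Z.card := by exact_mod_cast hm
  have h3 := choose_mul_pow_le n Z.card hm (x := r ^ S.card) (by positivity)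
  have h5 : 0 ≤ (n : ℝ) * r ^ S.card := by positivity
  have h4 : Real.exp 1 * n * r ^ S.card / Z.card ≤ (Real.exp 1)⁻¹ := by
    rw [div_le_iff₀ hmr, ← div_eq_inv_mul, le_div_iff₀ (Real.exp_pos 1)]
    have h6 : Real.exp 1 * Real.exp 1 ≤ 9 := by
      nlinarith [Real.exp_one_lt_three, Real.exp_pos 1]
    nlinarith
  have h6 : (Real.exp 1 * n * r ^ S.card / Z.card) ^ Z.card ≤ (Real.exp (n * r ^ S.card))⁻¹ := by
    calc _ ≤ ((Real.exp 1)⁻¹) ^ Z.card := by gcongr
      _ = Real.exp (-(Z.card : ℝ)) := by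
          rw [← Real.exp_neg, ← Real.exp_nat_mul]; congr 1; ring
      _ ≤ Real.exp (-(n * r ^ S.card)) := Real.exp_le_exp.2 (by linarith)
      _ = _ := Real.exp_neg _
  have h7 : (n : ℝ) ^ S.card * (Real.exp (n * r ^ S.card))⁻¹ ≤ 1 / 2 := by
    rw [← div_eq_mul_inv, div_le_iff₀ (Real.exp_pos _)]; linarith
  have h8 : (n : ℝ) ^ S.card * (n.choose Z.card * (r ^ S.card) ^ Z.card)
      ≤ (n : ℝ) ^ S.card * (Real.exp (n * r ^ S.card))⁻¹ :=
    mul_le_mul_of_nonneg_left (h3.trans h6) (by positivity)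
  linarith

end Crest.Agent.R052.Emb
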