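import Crest.Agent.R052.EmbOneStep
import Crest.Prelude.Def_RandomGraph

/-!
Layer-by-layer embedding of an oriented graph in the random graph, using disjoint pools.
-/

set_option autoImplicit false

namespace Crest.Agent.R052.Emb

open Finset Crest.FinProb Crest.Agent.Lib.BiasedCube Crest.CombinatoricsR.RandomGraph

variable {W : Type*} [Fintype W] [DecidableEq W]

/-- The slot of a pair of distinct vertices. -/
def mkSlot {n : ℕ} (a b : Fin n) (h : a ≠ b) : EdgeSlot n := ⟨s(a, b), by simpa using h⟩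

lemma graphOf_adj {n : ℕ} (ω : EdgeSlot n → Bool) (a b : Fin n) :
    (graphOf ω).Adj a b ↔ ∃ h : a ≠ b, ω (mkSlot a b h) = true := by
  unfold graphOf
  rw [SimpleGraph.fromEdgeSet_adj]
  constructor
  · rintro ⟨⟨h, hω⟩, hne⟩
    exact ⟨hne, hω⟩
  · rintro ⟨hne, hω⟩
    exact ⟨⟨by simpa using hne, hω⟩, hne⟩

/-- The oriented graph `τ` on the support `V` embeds in the graph of `ω`. -/
def EmbEv (n : ℕ) (V : Finset W) (τ : W → Finset W) (ω : EdgeSlot n → Bool) : Prop :=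
  ∃ f : W → Fin n, Set.InjOn f V ∧ ∀ u ∈ V, ∀ w ∈ τ u, (graphOf ω).Adj (f u) (f w)

/-- Embedding of `V` into the first `o` vertices. -/
def EmbLt (n o : ℕ) (V : Finset W) (τ : W → Finset W) (ω : EdgeSlot n → Bool) : Prop :=
  ∃ f : W → Fin n, Set.InjOn f V ∧ (∀ u ∈ V, (f u : ℕ) < o) ∧
    ∀ u ∈ V, ∀ w ∈ τ u, (graphOf ω).Adj (f u) (f w)

lemma extend_step {p : ℝ} (h0 : 0 ≤ p) (h1 : p ≤ 1) (n o N : ℕ) (hoN : o + N ≤ n)
    (B T : Finset W) (τ : W → Finset W) (hBT : Disjoint B T)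
    (hB : ∀ u ∈ B, τ u ⊆ B) (hT : ∀ u ∈ T, τ u ⊆ B) :
    Pr p (fun ω => ¬ EmbLt n (o + N) (B ∪ T) τ ω)
      ≤ Pr p (fun ω => ¬ EmbLt n o B τ ω) + Pr p (fun ξ => ¬ MatchEv T τ N ξ) := by
  classical
  let J : Finset (EdgeSlot n) := univ.filter (fun z => ∃ a ∈ z.1, o ≤ (a : ℕ))
  let EB : (Fin N × B → Bool) → Prop := fun ζ =>
    ∃ h : T → Fin N, Function.Injective h ∧ ∀ u : T, ∀ w : B, w.1 ∈ τ u → ζ (h u, w) = true
  have hEB : Pr p (fun ζ => ¬ EB ζ) = Pr p (fun ξ => ¬ MatchEv T τ N ξ) := by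
    rw [← Pr_comp_inj p (fun z : Fin N × B => ((z.1, z.2.1) : Fin N × W))
      (fun z z' h => by
        simp only [Prod.mk.injEq] at h
        exact Prod.ext h.1 (Subtype.ext h.2)) (fun ζ => ¬ EB ζ)]
    congr 1
    funext ξ
    refine propext (not_congr ⟨?_, ?_⟩)
    · rintro ⟨h, hinj, hh⟩
      exact ⟨h, hinj, fun u w hw => hh u ⟨w, hT u u.2 hw⟩ hw⟩
    · rintro ⟨h, hinj, hh⟩
      exact ⟨h, hinj, fun u w hw => hh u w hw⟩
  unfold Pr at hEB ⊢
  rw [← Ex_Ex_piecewise p J, ← hEB,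
    ← Ex_const (ι := EdgeSlot n) p (Ex p (fun ζ => ind (¬ EB ζ))), ← Ex_add]
  refine Ex_mono h0 h1 fun x => ?_
  have hE0 : 0 ≤ Ex p (fun ζ => ind (¬ EB ζ)) := Ex_nonneg h0 h1 fun _ => ind_nonneg _
  by_cases hx : EmbLt n o B τ x
  swap
  · rw [ind_pos hx]
    have := Pr_le_one h0 h1 (fun y => ¬ EmbLt n (o + N) (B ∪ T) τ (J.piecewise y x))
    unfold Pr at this
    linarith
  rw [ind_neg (not_not.2 hx), zero_add]
  obtain ⟨f, hfinj, hflt, hfadj⟩ := hx
  let g : Fin N → Fin n := fun v => ⟨o + v, by omega⟩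
  have hgf : ∀ (v : Fin N) (w : B), g v ≠ f w := by
    intro v w h
    have h2 := hflt w w.2
    have h3 : (g v : ℕ) = f w := congrArg _ h
    simp only [g] at h3
    omega
  let φ : Fin N × B → EdgeSlot n := fun z => mkSlot (g z.1) (f z.2) (hgf z.1 z.2)
  have hφ : Function.Injective φ := by
    rintro ⟨v, w⟩ ⟨v', w'⟩ h
    have h2 : s(g v, f w) = s(g v', f w') := congrArg Subtype.val h
    rw [Sym2.eq_iff] at h2
    rcases h2 with ⟨h3, h4⟩ | ⟨h3, _⟩
    · have h5 : (g v : ℕ) = g v' := congrArg _ h3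
      simp only [g] at h5
      exact Prod.ext (Fin.ext (by simpa using h5)) (Subtype.ext (hfinj w.2 w'.2 h4))
    · exact absurd h3 (hgf v w')
  rw [← Ex_comp_inj p φ hφ (fun ζ => ind (¬ EB ζ))]
  refine Ex_mono h0 h1 fun y => ind_mono fun hno hEBy => hno ?_
  obtain ⟨h, hinj, hh⟩ := hEBy
  let f' : W → Fin n := fun u => if hu : u ∈ T then g (h ⟨u, hu⟩) else f u
  have hf'B : ∀ u ∈ B, f' u = f u := fun u hu => by
    simp only [f']; rw [dif_neg (Finset.disjoint_left.1 hBT hu)]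
  have hf'T : ∀ u (hu : u ∈ T), f' u = g (h ⟨u, hu⟩) := fun u hu => by
    simp only [f']; rw [dif_pos hu]
  refine ⟨f', ?_, ?_, ?_⟩
  · intro u hu u' hu' he
    rcases Finset.mem_union.1 hu with hu | hu <;> rcases Finset.mem_union.1 hu' with hu' | hu'
    · rw [hf'B u hu, hf'B u' hu'] at he; exact hfinj hu hu' he
    · rw [hf'B u hu, hf'T u' hu'] at he; exact absurd he.symm (hgf _ ⟨u, hu⟩)
    · rw [hf'T u hu, hf'B u' hu'] at he; exact absurd he (hgf _ ⟨u', hu'⟩)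
    · rw [hf'T u hu, hf'T u' hu'] at he
      have h5 : (g (h ⟨u, hu⟩) : ℕ) = g (h ⟨u', hu'⟩) := congrArg _ he
      simp only [g] at h5
      have h6 : h ⟨u, hu⟩ = h ⟨u', hu'⟩ := Fin.ext (by omega)
      exact congrArg Subtype.val (hinj h6)
  · intro u hu
    rcases Finset.mem_union.1 hu with hu | hu
    · rw [hf'B u hu]; have := hflt u hu; omega
    · rw [hf'T u hu]; simp only [g]; have := (h ⟨u, hu⟩).2; omega
  · intro u hu w hw
    rcases Finset.mem_union.1 hu with hu | hu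
    · have hwB := hB u hu hw
      rw [hf'B u hu, hf'B w hwB, graphOf_adj]
      obtain ⟨hne, hω⟩ := (graphOf_adj _ _ _).1 (hfadj u hu w hw)
      refine ⟨hne, ?_⟩
      rw [Finset.piecewise_eq_of_notMem]
      · exact hω
      · simp only [J, Finset.mem_filter, Finset.mem_univ, true_and, mkSlot, Sym2.mem_iff]
        rintro ⟨a, rfl | rfl, ha⟩
        · have := hflt u hu; omega
        · have := hflt w hwB; omega
    · have hwB := hT u hu hw
      rw [hf'T u hu, hf'B w hwB, graphOf_adj]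
      refine ⟨hgf _ ⟨w, hwB⟩, ?_⟩
      rw [Finset.piecewise_eq_of_mem]
      · exact hh ⟨u, hu⟩ ⟨w, hwB⟩ hw
      · simp only [J, Finset.mem_filter, Finset.mem_univ, true_and, mkSlot, Sym2.mem_iff]
        exact ⟨_, Or.inl rfl, by simp [g]⟩

/-- Layered embedding. -/
lemma layered {p : ℝ} (h0 : 0 ≤ p) (h1 : p ≤ 1) (n : ℕ) (hn : 0 < n) (V : Finset W)
    (τ : W → Finset W) (lay : W → ℕ) (N : ℕ → ℕ)
    (hτ : ∀ u ∈ V, ∀ w ∈ τ u, w ∈ V ∧ lay w < lay u) (s : ℕ) (hs : ∑ j ∈ range s, N j ≤ n) :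
    Pr p (fun ω => ¬ EmbLt n (∑ j ∈ range s, N j) (V.filter (fun u => lay u < s)) τ ω)
      ≤ ∑ j ∈ range s, Pr p (fun ξ => ¬ MatchEv (V.filter (fun u => lay u = j)) τ (N j) ξ) := by
  induction s with
  | zero =>
    simp only [Finset.range_zero, Finset.sum_empty]
    have : ∀ ω, EmbLt n 0 (V.filter (fun u => lay u < 0)) τ ω := fun ω =>
      ⟨fun _ => ⟨0, hn⟩, by simp, by simp, by simp⟩
    unfold Pr
    simp_rw [ind_neg (not_not.2 (this _))]
    rw [Ex_const]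
  | succ s ih =>
    rw [Finset.sum_range_succ] at hs ⊢
    rw [Finset.sum_range_succ]
    have he : V.filter (fun u => lay u < s + 1)
        = V.filter (fun u => lay u < s) ∪ V.filter (fun u => lay u = s) := by
      ext u; simp only [Finset.mem_filter, Finset.mem_union]; constructor
      · rintro ⟨h, h'⟩; rcases Nat.lt_succ_iff_lt_or_eq.1 h' with h' | h'
        · exact Or.inl ⟨h, h'⟩
        · exact Or.inr ⟨h, h'⟩
      · rintro (⟨h, h'⟩ | ⟨h, h'⟩)
        · exact ⟨h, by omega⟩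
        · exact ⟨h, by omega⟩
    rw [he]
    refine (extend_step h0 h1 n _ (N s) hs _ _ τ ?_ ?_ ?_).trans ?_
    · rw [Finset.disjoint_left]
      intro u hu hu'
      have := (Finset.mem_filter.1 hu).2
      have := (Finset.mem_filter.1 hu').2
      omega
    · intro u hu w hw
      obtain ⟨hu1, hu2⟩ := Finset.mem_filter.1 hu
      obtain ⟨h2, h3⟩ := hτ u hu1 w hw
      exact Finset.mem_filter.2 ⟨h2, by omega⟩
    · intro u hu w hw
      obtain ⟨hu1, hu2⟩ := Finset.mem_filter.1 hu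
      obtain ⟨h2, h3⟩ := hτ u hu1 w hw
      exact Finset.mem_filter.2 ⟨h2, by omega⟩
    · have := ih (by omega)
      linarith

lemma layered' {p : ℝ} (h0 : 0 ≤ p) (h1 : p ≤ 1) (n : ℕ) (hn : 0 < n) (V : Finset W)
    (τ : W → Finset W) (lay : W → ℕ) (N : ℕ → ℕ)
    (hτ : ∀ u ∈ V, ∀ w ∈ τ u, w ∈ V ∧ lay w < lay u) (s : ℕ) (hs : ∑ j ∈ range s, N j ≤ n)
    (hlay : ∀ u ∈ V, lay u < s) :
    Pr p (fun ω => ¬ EmbEv n V τ ω)
      ≤ ∑ j ∈ range s, Pr p (fun ξ => ¬ MatchEv (V.filter (fun u => lay u = j)) τ (N j) ξ) := by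
  refine le_trans ?_ (layered h0 h1 n hn V τ lay N hτ s hs)
  refine Pr_mono h0 h1 fun ω hno hyes => hno ?_
  rw [Finset.filter_true_of_mem hlay] at hyes
  obtain ⟨f, h1, _, h3⟩ := hyes
  exact ⟨f, h1, h3⟩

end Crest.Agent.R052.Emb
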