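import Crest.Agent.R052.EmbCover

/-!
Peeling a sparse graph into layers, and packaging embeddings of labelled pieces.
-/

set_option autoImplicit false

namespace Crest.Agent.R052.Emb

open Finset Crest.FinProb Crest.CombinatoricsR.RandomGraph

variable {W : Type*} [Fintype W] [DecidableEq W]

omit [Fintype W] in
lemma peel_rounds (H : SimpleGraph W) [DecidableRel H.Adj] (M : ℕ) (hM : 0 < M)
    (hdeg : ∀ U : Finset W, 2 * ∑ u ∈ U, (U.filter (fun w => H.Adj u w)).card ≤ M * U.card) :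
    ∀ (R : ℕ) (U : Finset W), U.card < 2 ^ R → ∃ ρ : W → ℕ, (∀ u ∈ U, ρ u < R) ∧
      ∀ u ∈ U, (U.filter (fun w => H.Adj u w ∧ ρ w ≤ ρ u)).card < M := by
  intro R
  induction R with
  | zero =>
    intro U hU
    have : U = ∅ := Finset.card_eq_zero.1 (by omega)
    subst this
    exact ⟨fun _ => 0, by simp, by simp⟩
  | succ R ih =>
    intro U hU
    set U' := U.filter (fun u => M ≤ (U.filter (fun w => H.Adj u w)).card) with hU'
    have h1 : U'.card * M ≤ ∑ u ∈ U, (U.filter (fun w => H.Adj u w)).card := by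
      have h2 := Finset.card_nsmul_le_sum U' (fun u => (U.filter (fun w => H.Adj u w)).card) M
        fun u hu => (Finset.mem_filter.1 hu).2
      rw [smul_eq_mul] at h2
      exact h2.trans (Finset.sum_le_sum_of_subset (Finset.filter_subset _ _))
    have h2 : 2 * U'.card ≤ U.card := by
      refine Nat.le_of_mul_le_mul_left (c := M) ?_ hM
      have := hdeg U
      nlinarith
    obtain ⟨ρ, hρ1, hρ2⟩ := ih U' (by rw [pow_succ] at hU; omega)
    refine ⟨fun u => if u ∈ U' then ρ u else R, fun u _ => ?_, fun u hu => ?_⟩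
    · by_cases h : u ∈ U'
      · simp only [h, if_true]; have := hρ1 u h; omega
      · simp only [h, if_false]; omega
    · by_cases h : u ∈ U'
      · refine lt_of_le_of_lt (Finset.card_le_card fun w hw => ?_) (hρ2 u h)
        obtain ⟨_, h3, h4⟩ := Finset.mem_filter.1 hw
        simp only [h, if_true] at h4
        by_cases hw' : w ∈ U'
        · simp only [hw', if_true] at h4
          exact Finset.mem_filter.2 ⟨hw', h3, h4⟩
        · simp only [hw', if_false] at h4
          have := hρ1 u h; omega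
      · have h3 : (U.filter (fun w => H.Adj u w)).card < M := by
          by_contra hc
          exact h (Finset.mem_filter.2 ⟨hu, not_lt.1 hc⟩)
        refine lt_of_le_of_lt (Finset.card_le_card fun w hw => ?_) h3
        obtain ⟨h4, h5, _⟩ := Finset.mem_filter.1 hw
        exact Finset.mem_filter.2 ⟨h4, h5⟩

omit [Fintype W] in
lemma peel_colour (H : SimpleGraph W) [DecidableRel H.Adj] (M : ℕ) (hM : 0 < M)
    (hdeg : ∀ U : Finset W, 2 * ∑ u ∈ U, (U.filter (fun w => H.Adj u w)).card ≤ M * U.card) :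
    ∀ (k : ℕ) (U : Finset W), U.card = k → ∃ χ : W → ℕ, (∀ u, χ u < M) ∧
      ∀ u ∈ U, ∀ w ∈ U, H.Adj u w → χ u ≠ χ w := by
  intro k
  induction k with
  | zero =>
    intro U hU
    have : U = ∅ := Finset.card_eq_zero.1 hU
    subst this
    exact ⟨fun _ => 0, fun _ => hM, by simp⟩
  | succ k ih =>
    intro U hU
    obtain ⟨v, hv, hvd⟩ : ∃ v ∈ U, (U.filter (fun w => H.Adj v w)).card < M := by
      by_contra hc
      push Not at hc
      have h2 := Finset.card_nsmul_le_sum U (fun u => (U.filter (fun w => H.Adj u w)).card) M hc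
      rw [smul_eq_mul] at h2
      have := hdeg U
      rw [hU] at h2 this
      nlinarith
    obtain ⟨χ, hχ1, hχ2⟩ := ih (U.erase v) (by rw [Finset.card_erase_of_mem hv]; omega)
    obtain ⟨c, hc, hcn⟩ := Finset.exists_mem_notMem_of_card_lt_card
      (s := (U.filter (fun w => H.Adj v w)).image χ) (t := range M)
      (by rw [Finset.card_range]; exact lt_of_le_of_lt Finset.card_image_le hvd)
    have key : ∀ w ∈ U, H.Adj v w → c ≠ χ w := fun w hw hadj h =>
      hcn (Finset.mem_image.2 ⟨w, Finset.mem_filter.2 ⟨hw, hadj⟩, h.symm⟩)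
    refine ⟨Function.update χ v c, fun u => ?_, fun u hu w hw hadj => ?_⟩
    · by_cases h : u = v
      · subst h; simpa using hc
      · rw [Function.update_of_ne h]; exact hχ1 u
    · by_cases h : u = v
      · subst h
        rw [Function.update_self, Function.update_of_ne hadj.ne']
        exact key w hw hadj
      · by_cases h' : w = v
        · subst h'
          rw [Function.update_self, Function.update_of_ne h]
          exact (key u hu hadj.symm).symm
        · rw [Function.update_of_ne h, Function.update_of_ne h']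
          exact hχ2 u (Finset.mem_erase.2 ⟨h, hu⟩) w (Finset.mem_erase.2 ⟨h', hw⟩) hadj

theorem exists_layers (H : SimpleGraph W) [DecidableRel H.Adj] (M R : ℕ) (hM : 0 < M)
    (hdeg : ∀ U : Finset W, 2 * ∑ u ∈ U, (U.filter (fun w => H.Adj u w)).card ≤ M * U.card)
    (hR : Fintype.card W < 2 ^ R) :
    ∃ χ lay : W → ℕ, (∀ u, χ u < M) ∧ (∀ u, lay u < R * M) ∧
      (∀ u w, H.Adj u w → χ u ≠ χ w ∧ lay u ≠ lay w) ∧
      ∀ u, (univ.filter (fun w => H.Adj u w ∧ lay w < lay u)).card < M := by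
  obtain ⟨ρ, hρ1, hρ2⟩ := peel_rounds H M hM hdeg R univ hR
  obtain ⟨χ, hχ1, hχ2⟩ := peel_colour H M hM hdeg _ univ rfl
  refine ⟨χ, fun u => χ u + M * ρ u, hχ1, fun u => ?_, fun u w hadj => ?_, fun u => ?_⟩
  · have h1 := hρ1 u (mem_univ _)
    have h2 := hχ1 u
    have h3 : M * (ρ u + 1) ≤ M * R := Nat.mul_le_mul_left _ h1
    nlinarith
  · have h1 := hχ2 u (mem_univ _) w (mem_univ _) hadj
    refine ⟨h1, fun h => h1 ?_⟩
    have := congrArg (· % M) h
    simpa [Nat.mod_eq_of_lt (hχ1 u), Nat.mod_eq_of_lt (hχ1 w)] using this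
  · refine lt_of_le_of_lt (Finset.card_le_card fun w hw => ?_) (hρ2 u (mem_univ _))
    obtain ⟨h1, h2, h3⟩ := Finset.mem_filter.1 hw
    refine Finset.mem_filter.2 ⟨h1, h2, ?_⟩
    by_contra hc
    have h4 : M * (ρ u + 1) ≤ M * ρ w := Nat.mul_le_mul_left _ (not_le.1 hc)
    have h5 := hχ1 u
    nlinarith

lemma exists_inj_extend {n : ℕ} (hW : Fintype.card W ≤ n) (V : Finset W) (f : W → Fin n)
    (hf : Set.InjOn f V) : ∃ g : W → Fin n, Function.Injective g ∧ ∀ u ∈ V, g u = f u := by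
  obtain ⟨e⟩ : Nonempty (W ↪ Fin n) := Function.Embedding.nonempty_of_card_le (by simpa using hW)
  obtain ⟨τ, hτ⟩ := Equiv.Perm.exists_extending_pair (f := fun u : V => e u)
    (g := fun u : V => f u) (fun a b h => Subtype.ext (e.injective h))
    (fun a b h => Subtype.ext (hf a.2 b.2 h))
  exact ⟨fun u => τ (e u), τ.injective.comp e.injective, fun u hu => hτ ⟨u, hu⟩⟩

theorem wrap {Λ : Type*} [Fintype Λ] [DecidableEq Λ] {n : ℕ} (H : SimpleGraph W)
    (hW : Fintype.card W ≤ n) (P : ℝ) (h0 : 0 ≤ P) (h1 : P ≤ 1) (σ : W → Finset W)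
    (hσ : ∀ u w, H.Adj u w → w ∈ σ u ∨ u ∈ σ w) (lab : W → W → Λ)
    (hemb : ∀ l : Λ, ∃ V : Finset W, (∀ u, ∀ w ∈ σ u, lab u w = l → u ∈ V ∧ w ∈ V) ∧
      Pr P (fun ω => ¬ EmbEv n V (fun u => (σ u).filter (fun w => lab u w = l)) ω) ≤ 1 / 2) :
    ∃ c : H.edgeSet → Fin (Fintype.card Λ),
      ∀ i, 1 / 2 ≤ gnpProb n P {G | (pieceGraph H c i).IsContained G} := by
  have hor : ∀ e : H.edgeSet, ∃ z : W × W, e.1 = s(z.1, z.2) ∧ z.2 ∈ σ z.1 := by
    rintro ⟨e, he⟩
    induction e using Sym2.ind with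
    | _ u w =>
      rcases hσ u w he with h | h
      · exact ⟨(u, w), rfl, h⟩
      · exact ⟨(w, u), Sym2.eq_swap, h⟩
  choose z hz1 hz2 using hor
  refine ⟨fun e => Fintype.equivFin Λ (lab (z e).1 (z e).2), fun i => ?_⟩
  obtain ⟨V, hV, hP⟩ := hemb ((Fintype.equivFin Λ).symm i)
  rw [Pr_not] at hP
  unfold gnpProb
  rw [bernoulliProb_eq_Pr]
  refine le_trans (by linarith) (Pr_mono h0 h1 (E := EmbEv n V
    (fun u => (σ u).filter (fun w => lab u w = (Fintype.equivFin Λ).symm i))) ?_)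
  rintro ω ⟨f, hf, hadj⟩
  obtain ⟨g, hg, hgf⟩ := exists_inj_extend hW V f hf
  refine ⟨SimpleGraph.Hom.toCopy ⟨g, fun {a b} hab => ?_⟩ hg⟩
  unfold pieceGraph at hab
  rw [SimpleGraph.fromEdgeSet_adj] at hab
  obtain ⟨⟨he, hc⟩, -⟩ := hab
  have hl : lab (z ⟨_, he⟩).1 (z ⟨_, he⟩).2 = (Fintype.equivFin Λ).symm i := by
    rw [← hc]; simp
  obtain ⟨hu, hw⟩ := hV _ _ (hz2 ⟨_, he⟩) hl
  have h3 := hadj _ hu _ (Finset.mem_filter.2 ⟨hz2 ⟨_, he⟩, hl⟩)
  rw [← hgf _ hu, ← hgf _ hw] at h3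
  rcases Sym2.eq_iff.1 (hz1 ⟨_, he⟩) with ⟨h4, h5⟩ | ⟨h4, h5⟩
  · rw [← h4, ← h5] at h3; exact h3
  · rw [← h4, ← h5] at h3; exact h3.symm

theorem trivial_case {n k : ℕ} (hk : 0 < k) (H : SimpleGraph W) (hW : Fintype.card W ≤ n) :
    ∃ c : H.edgeSet → Fin k,
      ∀ i, 1 / 2 ≤ gnpProb n 1 {G | (pieceGraph H c i).IsContained G} := by
  refine ⟨fun _ => ⟨0, hk⟩, fun i => ?_⟩
  obtain ⟨e⟩ : Nonempty (W ↪ Fin n) := Function.Embedding.nonempty_of_card_le (by simpa using hW)
  unfold gnpProb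
  rw [bernoulliProb_eq_Pr]
  have h1 : Pr 1 (fun ω : EdgeSlot n → Bool => ∀ x ∈ (univ : Finset (EdgeSlot n)), ω x = true)
      = 1 := by
    unfold Pr
    rw [Ex_ind_subset, one_pow]
  refine le_trans (by rw [h1]; norm_num) (Pr_mono zero_le_one le_rfl
    (E := fun ω : EdgeSlot n → Bool => ∀ x ∈ (univ : Finset (EdgeSlot n)), ω x = true) ?_)
  intro ω hω
  refine ⟨SimpleGraph.Hom.toCopy ⟨e, fun {a b} hab => ?_⟩ e.injective⟩
  exact (graphOf_adj ω _ _).2 ⟨fun h => hab.ne (e.injective h), hω _ (mem_univ _)⟩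

end Crest.Agent.R052.Emb
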