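import Crest.Agent.R052.EmbPieces
import Crest.Agent.R052.Peel

/-!
Assembly of the decomposition of `H` into pieces.
-/

set_option autoImplicit false

namespace Crest.Agent.R052.Emb

open Finset Crest.FinProb Crest.Agent.Lib.BiasedCube Crest.CombinatoricsR.RandomGraph

variable {W : Type*} [Fintype W] [DecidableEq W]

/-- The labels: slot, kind, class of the tail, class of the head. -/
abbrev Lab : Type := Fin 64 × Fin 64 × Fin 4096 × Fin 4096

lemma sparse_case {P r : ℝ} {n : ℕ} (hn : 4096 ≤ n) (h0 : 0 < P) (h1 : P < 1) (hr0 : 0 ≤ r)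
    (hr : 2 ^ 36 * r ≤ P) {H : SimpleGraph W} (hns : ¬ Small n H r)
    (σ : W → Finset W) (hσ : ∀ u, ∀ w ∈ σ u, H.Adj u w) (χ : W → ℕ) (hχ : ∀ u, χ u < 64)
    (hχ' : ∀ u w, H.Adj u w → χ u ≠ χ w) (sl : W → W → Fin 64)
    (hsl : ∀ u a, ((σ u).filter (fun w => sl u w = a)).card ≤ 1) (cl : W → Fin 4096)
    (hcl : ∀ a, (univ.filter (fun w => cl w = a)).card ≤ n / 4096 + 1) :
    ∃ lab : W → W → Lab, ∀ l : Lab, ∃ V : Finset W,
      (∀ u, ∀ w ∈ σ u, lab u w = l → u ∈ V ∧ w ∈ V) ∧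
      Pr P (fun ω => ¬ EmbEv n V (fun u => (σ u).filter (fun w => lab u w = l)) ω) ≤ 1 / 2 := by
  refine ⟨fun u w => (sl u w, ⟨χ u, hχ u⟩, cl u, cl w), ?_⟩
  rintro ⟨a, k, i, j⟩
  obtain ⟨V, hV1, hV2⟩ := piece_star (by omega) h0 h1 hr0 hr hns
    (fun u => (σ u).filter (fun w => ((sl u w, ⟨χ u, hχ u⟩, cl u, cl w) : Lab) = (a, k, i, j)))
    (univ.filter (fun u => cl u = i ∧ χ u = k)) (univ.filter (fun w => cl w = j ∧ χ w ≠ k))
    (fun u w hw => by
      obtain ⟨h2, h3⟩ := Finset.mem_filter.1 hw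
      simp only [Prod.mk.injEq] at h3
      obtain ⟨_, h4, h5, h6⟩ := h3
      have h7 : χ u = k := congrArg Fin.val h4
      exact ⟨hσ u w h2, Finset.mem_filter.2 ⟨mem_univ _, h5, h7⟩,
        Finset.mem_filter.2 ⟨mem_univ _, h6, h7 ▸ (hχ' u w (hσ u w h2)).symm⟩⟩)
    (by
      rw [Finset.disjoint_left]
      intro u hu hu'
      exact (Finset.mem_filter.1 hu').2.2 (Finset.mem_filter.1 hu).2.2)
    (fun u => le_trans (Finset.card_le_card fun w hw => by
      obtain ⟨h2, h3⟩ := Finset.mem_filter.1 hw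
      exact Finset.mem_filter.2 ⟨h2, (Prod.mk.inj h3).1⟩) (hsl u a))
    (by
      have h2 : (univ.filter (fun u => cl u = i ∧ χ u = k)).card
          ≤ (univ.filter (fun w => cl w = i)).card :=
        Finset.card_le_card fun u hu =>
          Finset.mem_filter.2 ⟨mem_univ _, (Finset.mem_filter.1 hu).2.1⟩
      have := hcl i
      omega)
    (by
      have h2 : (univ.filter (fun u => cl u = j ∧ χ u ≠ k)).card
          ≤ (univ.filter (fun w => cl w = j)).card :=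
        Finset.card_le_card fun u hu =>
          Finset.mem_filter.2 ⟨mem_univ _, (Finset.mem_filter.1 hu).2.1⟩
      have := hcl j
      omega)
  exact ⟨V, fun u w hw hl => hV1 u w (Finset.mem_filter.2 ⟨hw, hl⟩), hV2⟩

lemma dense_case {P r t : ℝ} {n κ s : ℕ} (hn : 8192 ≤ n) (h0 : 0 < P) (h1 : P < 1) (hr0 : 0 ≤ r)
    (hr : 2 ^ 36 * r ≤ P) (ht : 16 ≤ t) (htn : t ^ 64 = n) (hκ : (κ : ℝ) ≤ t)
    (hκ2 : (2 : ℝ) ^ κ ≤ 2 * t) (hQ : 1 ≤ t ^ 16 * r ^ κ) (hs : (s : ℝ) ≤ 8192 * t ^ 2)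
    (hW : Fintype.card W ≤ n) {H : SimpleGraph W} (hns : ¬ Small n H r)
    (σ : W → Finset W) (hσ : ∀ u, ∀ w ∈ σ u, H.Adj u w) (hσc : ∀ u, (σ u).card ≤ 64 * κ)
    (lay : W → ℕ) (hlay : ∀ u, lay u < s) (hlay' : ∀ u, ∀ w ∈ σ u, lay w < lay u)
    (sl : W → W → Fin 64)
    (hsl : ∀ u a, ((σ u).filter (fun w => sl u w = a)).card ≤ κ) (cl : W → Fin 4096)
    (hcl : ∀ a, (univ.filter (fun w => cl w = a)).card ≤ n / 4096 + 1) :
    ∃ lab : W → W → Lab, ∀ l : Lab, ∃ V : Finset W,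
      (∀ u, ∀ w ∈ σ u, lab u w = l → u ∈ V ∧ w ∈ V) ∧
      Pr P (fun ω => ¬ EmbEv n V (fun u => (σ u).filter (fun w => lab u w = l)) ω) ≤ 1 / 2 := by
  classical
  have ht0 : 0 < t := by linarith
  have ht1 : 1 ≤ t := by linarith
  have hrP : r ≤ P := by nlinarith
  let huge : W → Prop := fun w => t ^ 40 < ((univ.filter (fun u => w ∈ σ u)).card : ℝ)
  have hhuge : ((univ.filter huge).card : ℝ) ≤ t ^ 40 := by
    have h2 : ((univ.filter huge).card : ℝ) * t ^ 40
        ≤ ∑ w, ((univ.filter (fun u => w ∈ σ u)).card : ℝ) := by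
      rw [← nsmul_eq_mul]
      refine le_trans (Finset.card_nsmul_le_sum _ _ _ fun w hw => (Finset.mem_filter.1 hw).2.le)
        (Finset.sum_le_sum_of_subset_of_nonneg (Finset.subset_univ _) fun _ _ _ =>
          Nat.cast_nonneg _)
    have h3 : ∑ w, ((univ.filter (fun u => w ∈ σ u)).card : ℝ) = ∑ u, ((σ u).card : ℝ) := by
      simp_rw [← sum_ind_eq_card]
      rw [Finset.sum_comm]
      refine Finset.sum_congr rfl fun u _ => ?_
      rw [sum_ind_eq_card]; simp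
    have h4 : ∑ u, ((σ u).card : ℝ) ≤ t ^ 64 * (64 * t) := by
      calc ∑ u, ((σ u).card : ℝ) ≤ ∑ u : W, 64 * t := Finset.sum_le_sum fun u _ => by
            have : ((σ u).card : ℝ) ≤ 64 * κ := by exact_mod_cast hσc u
            linarith
        _ = Fintype.card W * (64 * t) := by simp
        _ ≤ _ := by
            gcongr; rw [htn]; exact_mod_cast hW
    have h5 : t ^ 64 * (64 * t) ≤ t ^ 40 * t ^ 40 := by
      have h6 : (16 : ℝ) ^ 15 ≤ t ^ 15 := by gcongr
      calc t ^ 64 * (64 * t) = t ^ 65 * 64 := by ring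
        _ ≤ t ^ 65 * t ^ 15 := by gcongr; linarith
        _ = _ := by ring
    exact le_of_mul_le_mul_right (by linarith) (show 0 < t ^ 40 by positivity)
  let T : Fin 4096 → Finset W := fun i => univ.filter (fun u => cl u = i ∧ ¬ huge u)
  let B : Fin 4096 → Finset W := fun j => univ.filter (fun w => cl w = j ∧ huge w)
  let σ' : Fin 64 → Fin 4096 → W → Finset W := fun a j u =>
    (σ u).filter (fun w => sl u w = a ∧ w ∈ B j)
  have hTc : ∀ i, (T i).card ≤ n / 4096 + 1 := fun i =>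
    le_trans (Finset.card_le_card fun u hu =>
      Finset.mem_filter.2 ⟨mem_univ _, (Finset.mem_filter.1 hu).2.1⟩) (hcl i)
  have hBc : ∀ i, (B i).card ≤ n / 4096 + 1 := fun i =>
    le_trans (Finset.card_le_card fun u hu =>
      Finset.mem_filter.2 ⟨mem_univ _, (Finset.mem_filter.1 hu).2.1⟩) (hcl i)
  have hsplit : ∀ (a : Fin 64) (i j : Fin 4096), ∃ ρ : W → Finset W,
      Pr P (fun ξ => ¬ MatchEv (T i) (fun u => σ' a j u ∩ ρ u) (n / 2) ξ) ≤ 1 / 2 ∧
      Pr P (fun ξ => ¬ MatchEv (T i) (fun u => σ' a j u \ ρ u) (n / 2) ξ) ≤ 1 / 2 := by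
    intro a i j
    refine piece_split h0 h1 hr0 hr ht htn hκ hκ2 hQ hns (T i) (σ' a j)
      (fun u _ w hw => hσ u w (Finset.mem_filter.1 hw).1) (fun u _ => ?_) ?_
    · exact le_trans (Finset.card_le_card fun w hw => Finset.mem_filter.2
        ⟨(Finset.mem_filter.1 hw).1, (Finset.mem_filter.1 hw).2.1⟩) (hsl u a)
    · have := hTc i; omega
  choose ρ hρ1 hρ2 using hsplit
  let kind : W → W → Fin 64 := fun u w =>
    if huge w ∧ ¬ huge u then (if w ∈ ρ (sl u w) (cl u) (cl w) u then 1 else 2) else 0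
  refine ⟨fun u w => (sl u w, kind u w, cl u, cl w), ?_⟩
  rintro ⟨a, k, i, j⟩
  set τ : W → Finset W := fun u =>
    (σ u).filter (fun w => ((sl u w, kind u w, cl u, cl w) : Lab) = (a, k, i, j)) with hτdef
  have hτ : ∀ u w, w ∈ τ u ↔ w ∈ σ u ∧ sl u w = a ∧ kind u w = k ∧ cl u = i ∧ cl w = j := by
    intro u w; simp only [hτdef, Finset.mem_filter, Prod.mk.injEq]
  by_cases hk : k = 0
  · refine ⟨univ.filter (fun u => cl u = i ∨ cl u = j), fun u w hw hl => ?_, ?_⟩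
    · simp only [Prod.mk.injEq] at hl
      simp [hl.2.2.1, hl.2.2.2]
    · refine piece_indeg h0 h1.le n κ s ht htn hκ (hQ.trans (by gcongr)) hs _ τ lay
        (fun u _ w hw => ?_) (fun u _ => hlay u) (fun u _ => ?_) (fun w => ?_) ?_
      · obtain ⟨h2, _, _, _, h6⟩ := (hτ u w).1 hw
        exact ⟨by simp [h6], hlay' u w h2⟩
      · exact le_trans (Finset.card_le_card fun w hw => Finset.mem_filter.2
          ⟨((hτ u w).1 hw).1, ((hτ u w).1 hw).2.1⟩) (hsl u a)
      · by_cases hw : huge w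
        · refine le_trans ?_ hhuge
          refine Nat.cast_le.2 (Finset.card_le_card fun u hu => ?_)
          obtain ⟨_, _, h4, _⟩ := (hτ u w).1 (Finset.mem_filter.1 hu).2
          refine Finset.mem_filter.2 ⟨mem_univ _, ?_⟩
          by_contra hu'
          simp only [kind, hw, hu', not_false_eq_true, and_self, if_true, hk] at h4
          split_ifs at h4 <;> exact absurd h4 (by decide)
        · refine le_trans ?_ (not_lt.1 hw)
          refine Nat.cast_le.2 (Finset.card_le_card fun u hu => ?_)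
          exact Finset.mem_filter.2 ⟨mem_univ _, ((hτ u w).1 (Finset.mem_filter.1 hu).2).1⟩
      · rw [Finset.filter_or]
        have := Finset.card_union_le (univ.filter (fun u => cl u = i))
          (univ.filter (fun u => cl u = j))
        have := hcl i
        have := hcl j
        omega
  · have hkind : ∀ u w, w ∈ τ u → u ∈ T i ∧ w ∈ B j ∧
        (if w ∈ ρ a i j u then (1 : Fin 64) else 2) = k := by
      intro u w hw
      obtain ⟨_, h3, h4, h5, h6⟩ := (hτ u w).1 hw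
      by_cases hc : huge w ∧ ¬ huge u
      · refine ⟨Finset.mem_filter.2 ⟨mem_univ _, h5, hc.2⟩,
          Finset.mem_filter.2 ⟨mem_univ _, h6, hc.1⟩, ?_⟩
        simp only [kind] at h4
        rw [if_pos hc, h3, h5, h6] at h4
        exact h4
      · simp only [kind] at h4
        rw [if_neg hc] at h4
        exact absurd h4.symm hk
    have hBT : Disjoint (B j) (T i) := by
      rw [Finset.disjoint_left]
      intro u hu hu'
      exact (Finset.mem_filter.1 hu').2.2 (Finset.mem_filter.1 hu).2.2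
    refine ⟨B j ∪ T i, fun u w hw hl => ?_, ?_⟩
    · have := hkind u w (Finset.mem_filter.2 ⟨hw, hl⟩)
      exact ⟨Finset.mem_union_right _ this.1, Finset.mem_union_left _ this.2.1⟩
    · refine (piece_bip h0.le h1.le n (n / 2) (by omega) (B j) (T i) τ hBT (fun u hu => ?_)
        (fun u _ w hw => (hkind u w hw).2.1) (by have := hBc j; omega)).trans ?_
      · refine Finset.eq_empty_of_forall_notMem fun w hw => ?_
        exact Finset.disjoint_left.1 hBT hu (hkind u w hw).1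
      · have hσ' : ∀ u w, w ∈ τ u → w ∈ σ' a j u := fun u w hw =>
          Finset.mem_filter.2 ⟨((hτ u w).1 hw).1, ((hτ u w).1 hw).2.1, (hkind u w hw).2.1⟩
        by_cases hk1 : k = 1
        · refine le_trans ?_ (hρ1 a i j)
          refine Pr_mono h0.le h1.le fun ξ hno hyes => hno ?_
          refine MatchEv.mono (fun u _ w hw => Finset.mem_inter.2 ⟨hσ' u w hw, ?_⟩) hyes
          have h2 := (hkind u w hw).2.2
          by_contra hc
          rw [if_neg hc, hk1] at h2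
          exact absurd h2 (by decide)
        · refine le_trans ?_ (hρ2 a i j)
          refine Pr_mono h0.le h1.le fun ξ hno hyes => hno ?_
          refine MatchEv.mono (fun u _ w hw => Finset.mem_sdiff.2 ⟨hσ' u w hw, fun hc => ?_⟩) hyes
          have h2 := (hkind u w hw).2.2
          rw [if_pos hc] at h2
          exact hk1 h2.symm

theorem main_case {P r : ℝ} {n : ℕ} (hn : 16 ^ 64 ≤ n) (h0 : 0 < P) (h1 : P < 1) (hr0 : 0 ≤ r)
    (hr : 2 ^ 36 * r ≤ P) (hW : Fintype.card W ≤ n) {H : SimpleGraph W} (hns : ¬ Small n H r) :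
    ∃ c : H.edgeSet → Fin (Fintype.card Lab), ∀ i,
      1 / 2 ≤ gnpProb n P {G | (pieceGraph H c i).IsContained G} := by
  classical
  obtain ⟨t, ht0, htn⟩ : ∃ t : ℝ, 0 ≤ t ∧ t ^ 64 = n :=
    ⟨(n : ℝ) ^ ((64 : ℕ) : ℝ)⁻¹, by positivity,
      Real.rpow_inv_natCast_pow (Nat.cast_nonneg _) (by norm_num)⟩
  have ht : 16 ≤ t := by
    refine le_of_pow_le_pow_left₀ (n := 64) (by norm_num) ht0 ?_
    rw [htn]; exact_mod_cast hn
  have ht1 : 1 ≤ t := by linarith
  have hn' : 8192 ≤ n := le_trans (by norm_num) hn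
  have hr1 : r ≤ 1 / 2 ^ 8 := by
    rw [le_div_iff₀ (by norm_num)]; nlinarith
  have hex : ∃ k : ℕ, r ^ (k + 1) * t ^ 8 ≤ 1 := by
    obtain ⟨k, hk⟩ := exists_pow_lt_of_lt_one (show 0 < (t ^ 8)⁻¹ by positivity)
      (show r < 1 by linarith [show (1 : ℝ) / 2 ^ 8 < 1 by norm_num])
    refine ⟨k, ?_⟩
    have h2 : r ^ (k + 1) ≤ r ^ k :=
      pow_le_pow_of_le_one hr0 (by linarith [show (1 : ℝ) / 2 ^ 8 < 1 by norm_num]) (by omega)
    rw [← le_div_iff₀ (by positivity), one_div]; linarith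
  set k := Nat.find hex with hk
  have hk1 : r ^ (k + 1) * t ^ 8 ≤ 1 := Nat.find_spec hex
  have hr1' : r ≤ 1 := by linarith [show (1 : ℝ) / 2 ^ 8 < 1 by norm_num]
  have hdeg : ∀ U : Finset W, 2 * ∑ u ∈ U, (U.filter (fun w => H.Adj u w)).card
      ≤ (64 * (k + 1)) * U.card := by
    intro U
    rcases U.eq_empty_or_nonempty with rfl | hU
    · simp
    obtain ⟨e, he1, he2⟩ := sparse_induced (by omega) hr0 hr1' hns U
    have he3 : e ≤ 16 * (k + 1) * U.card := by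
      by_contra hc
      have h2 : r ^ e ≤ ((r ^ (k + 1)) ^ 16) ^ U.card := by
        rw [← pow_mul, ← pow_mul]
        exact pow_le_pow_of_le_one hr0 hr1' (by nlinarith)
      have h3 : (n : ℝ) * (r ^ (k + 1)) ^ 16 ≤ 1 / 2 := by
        have h4 : (r ^ (k + 1) * t ^ 8) ^ 16 ≤ 1 := pow_le_one₀ (by positivity) hk1
        have h5 : (r ^ (k + 1) * t ^ 8) ^ 16 = n * (n * (r ^ (k + 1)) ^ 16) := by
          rw [← htn]; ring
        have h6 : (2 : ℝ) ≤ n := by exact_mod_cast (show 2 ≤ n by omega)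
        have h7 : 0 ≤ (n : ℝ) * (r ^ (k + 1)) ^ 16 := by positivity
        nlinarith
      have h4 : (n : ℝ) ^ U.card * r ^ e ≤ 1 / 2 := by
        calc (n : ℝ) ^ U.card * r ^ e ≤ (n : ℝ) ^ U.card * ((r ^ (k + 1)) ^ 16) ^ U.card := by
              gcongr
          _ = ((n : ℝ) * (r ^ (k + 1)) ^ 16) ^ U.card := by rw [mul_pow]
          _ ≤ (1 / 2) ^ U.card := by gcongr
          _ ≤ (1 / 2) ^ 1 := pow_le_pow_of_le_one (by norm_num) (by norm_num) hU.card_pos
          _ = 1 / 2 := pow_one _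
      linarith
    nlinarith
  have hR : Fintype.card W < 2 ^ (64 * ⌈t⌉₊) := by
    have h2 : t < 2 ^ ⌈t⌉₊ := by
      have h3 : ⌈t⌉₊ < 2 ^ ⌈t⌉₊ := Nat.lt_two_pow_self
      have h4 : (⌈t⌉₊ : ℝ) < 2 ^ ⌈t⌉₊ := by exact_mod_cast h3
      exact lt_of_le_of_lt (Nat.le_ceil t) h4
    have h5 : (n : ℝ) < 2 ^ (64 * ⌈t⌉₊) := by
      rw [← htn, mul_comm, pow_mul]
      exact pow_lt_pow_left₀ h2 ht0 (by norm_num)
    have h6 : n < 2 ^ (64 * ⌈t⌉₊) := by exact_mod_cast h5
    omega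
  obtain ⟨χ, lay, hχ, hlay, hadj, hout⟩ :=
    exists_layers H (64 * (k + 1)) (64 * ⌈t⌉₊) (by omega) hdeg hR
  let σ : W → Finset W := fun u => univ.filter (fun w => H.Adj u w ∧ lay w < lay u)
  have hσ : ∀ u, ∀ w ∈ σ u, H.Adj u w := fun u w hw => (Finset.mem_filter.1 hw).2.1
  have hσ2 : ∀ u w, H.Adj u w → w ∈ σ u ∨ u ∈ σ w := by
    intro u w h
    rcases lt_or_gt_of_ne (hadj u w h).2 with h2 | h2
    · exact Or.inr (Finset.mem_filter.2 ⟨mem_univ _, h.symm, h2⟩)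
    · exact Or.inl (Finset.mem_filter.2 ⟨mem_univ _, h, h2⟩)
  have hsl : ∀ u, ∃ c : W → Fin 64, ∀ a, ((σ u).filter (fun w => c w = a)).card ≤ k + 1 :=
    fun u => exists_classes (σ u) 64 (k + 1) (by norm_num) (by omega) (hout u).le
  choose sl hsl using hsl
  obtain ⟨cl, hcl⟩ := exists_classes (univ : Finset W) 4096 (n / 4096 + 1) (by norm_num) (by omega)
    (by rw [Finset.card_univ]; omega)
  suffices h : ∃ lab : W → W → Lab, ∀ l : Lab, ∃ V : Finset W,
      (∀ u, ∀ w ∈ σ u, lab u w = l → u ∈ V ∧ w ∈ V) ∧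
      Pr P (fun ω => ¬ EmbEv n V (fun u => (σ u).filter (fun w => lab u w = l)) ω) ≤ 1 / 2 by
    obtain ⟨lab, hlab⟩ := h
    exact wrap H hW P h0.le h1.le σ hσ2 lab hlab
  rcases Nat.eq_zero_or_pos k with hk0 | hkpos
  · rw [hk0] at hχ hsl
    exact sparse_case (by omega) h0 h1 hr0 hr hns σ hσ χ hχ (fun u w h => (hadj u w h).1) sl
      hsl cl hcl
  · have h2 : 1 < r ^ k * t ^ 8 := by
      have := Nat.find_min hex (m := k - 1) (by omega)
      rw [Nat.sub_add_cancel hkpos] at this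
      exact not_le.1 this
    have h3 : (2 : ℝ) ^ k ≤ t := by
      refine le_of_pow_le_pow_left₀ (n := 8) (by norm_num) ht0 ?_
      have h4 : r ^ k ≤ (1 / 2 ^ 8) ^ k := by gcongr
      have h5 : ((2 : ℝ) ^ k) ^ 8 * (1 / 2 ^ 8) ^ k = 1 := by
        rw [← pow_mul, mul_comm k, pow_mul, ← mul_pow]; norm_num
      have h6 : 0 < ((2 : ℝ) ^ k) ^ 8 := by positivity
      have h7 : 0 ≤ t ^ 8 := by positivity
      calc ((2 : ℝ) ^ k) ^ 8 = ((2 : ℝ) ^ k) ^ 8 * 1 := (mul_one _).symm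
        _ ≤ ((2 : ℝ) ^ k) ^ 8 * ((1 / 2 ^ 8) ^ k * t ^ 8) := by
            gcongr; exact h2.le.trans (by gcongr)
        _ = t ^ 8 := by rw [← mul_assoc, h5, one_mul]
    have h4 : ((k + 1 : ℕ) : ℝ) ≤ t := by
      have h5 : k + 1 ≤ 2 ^ k := Nat.lt_two_pow_self
      have h6 : ((k + 1 : ℕ) : ℝ) ≤ 2 ^ k := by exact_mod_cast h5
      linarith
    have h5 : 1 ≤ r * t ^ 8 := by
      have h6 : r ^ k ≤ r ^ 1 := pow_le_pow_of_le_one hr0 hr1' hkpos
      rw [pow_one] at h6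
      exact h2.le.trans (by gcongr)
    refine dense_case (κ := k + 1) (s := 64 * ⌈t⌉₊ * (64 * (k + 1))) hn' h0 h1 hr0 hr ht htn h4
      (by rw [pow_succ]; linarith) ?_ ?_ hW hns σ hσ (fun u => (hout u).le) lay hlay
      (fun u w hw => (Finset.mem_filter.1 hw).2.2) sl hsl cl hcl
    · calc (1 : ℝ) = 1 * 1 := (mul_one _).symm
        _ ≤ (r ^ k * t ^ 8) * (r * t ^ 8) := mul_le_mul h2.le h5 (by norm_num) (by positivity)
        _ = _ := by ring
    · have h6 : (⌈t⌉₊ : ℝ) ≤ 2 * t := by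
        have := (Nat.ceil_lt_add_one ht0).le
        linarith
      rw [Nat.cast_mul, Nat.cast_mul, Nat.cast_mul]
      calc ((64 : ℕ) : ℝ) * (⌈t⌉₊ : ℝ) * (((64 : ℕ) : ℝ) * ((k + 1 : ℕ) : ℝ))
          ≤ ((64 : ℕ) : ℝ) * (2 * t) * (((64 : ℕ) : ℝ) * t) := by gcongr
        _ = _ := by push_cast; ring

end Crest.Agent.R052.Emb
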