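import Crest.Agent.R052.EmbBasic

/-!
One embedding step: matching new vertices into a pool of fresh vertices whose adjacency to the
old vertices is random (fractional Hall + exponential moments), and the bounded in-degree case.
-/

set_option autoImplicit false

namespace Crest.Agent.R052.Emb

open Finset Crest.FinProb Crest.Agent.Lib.BiasedCube

variable {W : Type*} [Fintype W] [DecidableEq W]

/-- The vertices of `T` can be sent injectively to rows of the matrix `ξ` such that the row of `u`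
shows heads on all of `τ u`. -/
def MatchEv (T : Finset W) (τ : W → Finset W) (N : ℕ) (ξ : Fin N × W → Bool) : Prop :=
  ∃ h : T → Fin N, Function.Injective h ∧ ∀ u : T, ∀ w ∈ τ u, ξ (h u, w) = true

omit [Fintype W] [DecidableEq W] in
lemma matchEv_of_frac (T : Finset W) (τ : W → Finset W) (N : ℕ) (ξ : Fin N × W → Bool)
    (y : W → Fin N → ℝ) (hy0 : ∀ u ∈ T, ∀ v, 0 ≤ y u v)
    (hload : ∀ v, ∑ u ∈ T, y u v ≤ 1) (hrow : ∀ u ∈ T, 1 ≤ ∑ v, y u v)
    (hsupp : ∀ u ∈ T, ∀ v, y u v ≠ 0 → ∀ w ∈ τ u, ξ (v, w) = true) : MatchEv T τ N ξ := by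
  classical
  let t : T → Finset (Fin N) := fun u => univ.filter (fun v => y u v ≠ 0)
  have hall : ∀ s : Finset T, s.card ≤ (s.biUnion t).card := by
    intro s
    have h1 : (s.card : ℝ) ≤ ∑ u ∈ s, ∑ v ∈ s.biUnion t, y u v := by
      rw [Finset.card_eq_sum_ones, Nat.cast_sum]
      refine Finset.sum_le_sum fun u hu => ?_
      rw [Nat.cast_one]
      refine (hrow u u.2).trans (le_of_eq ?_)
      symm
      refine Finset.sum_subset (Finset.subset_univ _) fun v _ hv => ?_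
      by_contra hne
      exact hv (Finset.mem_biUnion.2 ⟨u, hu, Finset.mem_filter.2 ⟨mem_univ _, hne⟩⟩)
    have h2 : ∑ u ∈ s, ∑ v ∈ s.biUnion t, y u v ≤ ((s.biUnion t).card : ℝ) := by
      rw [Finset.sum_comm, Finset.card_eq_sum_ones, Nat.cast_sum]
      refine Finset.sum_le_sum fun v _ => ?_
      rw [Nat.cast_one]
      refine le_trans ?_ (hload v)
      rw [← Finset.sum_coe_sort T (fun u => y u v)]
      exact Finset.sum_le_sum_of_subset_of_nonneg (Finset.subset_univ _)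
        fun u _ _ => hy0 u u.2 v
    exact_mod_cast h1.trans h2
  obtain ⟨f, hf, hft⟩ := (Finset.all_card_le_biUnion_card_iff_exists_injective t).1 hall
  exact ⟨f, hf, fun u w hw => hsupp u u.2 (f u) (Finset.mem_filter.1 (hft u)).2 w hw⟩

/-- The one-step lemma. -/
lemma oneStep {p : ℝ} (h0 : 0 ≤ p) (h1 : p ≤ 1) (T : Finset W) (τ : W → Finset W) (N : ℕ)
    (y : W → (W → Bool) → ℝ) (η : ℝ) (hη : 0 < η)
    (hy0 : ∀ u ∈ T, ∀ Y, 0 ≤ y u Y) (hyη : ∀ u ∈ T, ∀ Y, y u Y ≤ η)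
    (hsupp : ∀ u ∈ T, ∀ Y, y u Y ≠ 0 → ∀ w ∈ τ u, Y w = true)
    (hmean : ∀ u ∈ T, 4 ≤ N * Ex p (fun Y => y u Y * ind (∑ v ∈ T, y v Y ≤ 1))) :
    Pr p (fun ξ => ¬ MatchEv T τ N ξ) ≤ T.card * Real.exp (-(1 / η)) := by
  set θ : ℝ := 1 / η with hθ
  have hθ0 : 0 < θ := by positivity
  let y' : W → (W → Bool) → ℝ := fun u Y => y u Y * ind (∑ v ∈ T, y v Y ≤ 1)
  have hy'0 : ∀ u ∈ T, ∀ Y, 0 ≤ y' u Y := fun u hu Y => mul_nonneg (hy0 u hu Y) (ind_nonneg _)
  have hy'η : ∀ u ∈ T, ∀ Y, θ * y' u Y ≤ 1 := by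
    intro u hu Y
    have h2 : y' u Y ≤ η :=
      (mul_le_of_le_one_right (hy0 u hu Y) (ind_le_one _)).trans (hyη u hu Y)
    calc θ * y' u Y ≤ θ * η := mul_le_mul_of_nonneg_left h2 hθ0.le
      _ = 1 := by rw [hθ]; field_simp
  have hpt : ∀ ξ : Fin N × W → Bool, ind (¬ MatchEv T τ N ξ) ≤
      ∑ u ∈ T, Real.exp θ * ∏ v : Fin N, Real.exp (-(θ * y' u (fun w => ξ (v, w)))) := by
    intro ξ
    refine ind_le_of (Finset.sum_nonneg fun u _ => by positivity) fun hno => ?_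
    have : ∃ u ∈ T, ∑ v : Fin N, y' u (fun w => ξ (v, w)) < 1 := by
      by_contra hc
      push Not at hc
      refine hno (matchEv_of_frac T τ N ξ (fun u v => y' u (fun w => ξ (v, w)))
        (fun u hu v => hy'0 u hu _) (fun v => ?_) hc (fun u hu v hne w hw => ?_))
      · simp only [y']
        rw [← Finset.sum_mul]
        by_cases hl : ∑ v_1 ∈ T, y v_1 (fun w => ξ (v, w)) ≤ 1
        · rw [ind_pos hl, mul_one]; exact hl
        · rw [ind_neg hl]; norm_num
      · exact hsupp u hu _ (left_ne_zero_of_mul hne) w hw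
    obtain ⟨u, hu, hlt⟩ := this
    refine le_trans ?_ (Finset.single_le_sum (f := fun u => Real.exp θ *
      ∏ v : Fin N, Real.exp (-(θ * y' u (fun w => ξ (v, w))))) (fun u _ => by positivity) hu)
    rw [← Real.exp_sum, ← Real.exp_add]
    refine Real.one_le_exp ?_
    rw [Finset.sum_neg_distrib, ← Finset.mul_sum]
    nlinarith
  refine (Ex_mono h0 h1 hpt).trans ?_
  rw [Ex_sum, Finset.card_eq_sum_ones, Nat.cast_sum, Finset.sum_mul]
  refine Finset.sum_le_sum fun u hu => ?_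
  rw [Ex_const_mul, Ex_rows_prod p (fun (_ : Fin N) Y => Real.exp (-(θ * y' u Y))),
    Finset.prod_const, Finset.card_univ, Fintype.card_fin]
  have h2 : Ex p (fun Y => Real.exp (-(θ * y' u Y))) ≤ Real.exp (-(θ * Ex p (y' u) / 2)) := by
    have h3 : Ex p (fun Y => Real.exp (-(θ * y' u Y))) ≤ Ex p (fun Y => 1 - (θ / 2) * y' u Y) :=
      Ex_mono h0 h1 fun Y => by
        have := exp_neg_le (mul_nonneg hθ0.le (hy'0 u hu Y)) (hy'η u hu Y)
        linarith
    rw [Ex_sub, Ex_one, Ex_const_mul] at h3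
    have h4 := Real.add_one_le_exp (-(θ * Ex p (y' u) / 2))
    linarith
  have h5 : 0 ≤ Ex p (fun Y => Real.exp (-(θ * y' u Y))) :=
    Ex_nonneg h0 h1 fun Y => (Real.exp_pos _).le
  calc Real.exp θ * Ex p (fun Y => Real.exp (-(θ * y' u Y))) ^ N
      ≤ Real.exp θ * Real.exp (-(θ * Ex p (y' u) / 2)) ^ N := by gcongr
    _ = Real.exp (θ + N * (-(θ * Ex p (y' u) / 2))) := by
        rw [← Real.exp_nat_mul, ← Real.exp_add]
    _ ≤ ((1 : ℕ) : ℝ) * Real.exp (-θ) := by
        rw [Nat.cast_one, one_mul]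
        refine Real.exp_le_exp.2 ?_
        have h6 : 4 ≤ N * Ex p (y' u) := hmean u hu
        nlinarith

/-- The bounded in-degree case: small out-sets, bounded in-degree and a pool that is large. -/
lemma match_of_indeg {p : ℝ} (h0 : 0 < p) (h1 : p ≤ 1) (T : Finset W) (τ : W → Finset W)
    (N κ : ℕ) (Δ Q : ℝ) (hN : 0 < N) (hκ : ∀ u ∈ T, (τ u).card ≤ κ)
    (hΔ : ∀ w, ((T.filter (fun u => w ∈ τ u)).card : ℝ) ≤ Δ) (hQ : 1 ≤ Q * p ^ κ)
    (hpool : 16 * (T.card + κ * Δ * Q) ≤ N) :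
    Pr p (fun ξ => ¬ MatchEv T τ N ξ) ≤ T.card * Real.exp (-(N / (8 * Q))) := by
  have hNr : (0 : ℝ) < N := by exact_mod_cast hN
  have hQ0 : 0 < Q := by
    by_contra hc
    have : Q * p ^ κ ≤ 0 := mul_nonpos_of_nonpos_of_nonneg (not_lt.1 hc) (by positivity)
    linarith
  have hinv : ∀ j ≤ κ, (p ^ j)⁻¹ ≤ Q := by
    intro j hj
    rw [inv_le_iff_one_le_mul₀ (by positivity)]
    have : p ^ κ ≤ p ^ j := pow_le_pow_of_le_one h0.le h1 hj
    nlinarith
  set a : ℝ := 8 / N with ha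
  have ha0 : 0 < a := by positivity
  let y : W → (W → Bool) → ℝ := fun u Y =>
    a * (p ^ (τ u).card)⁻¹ * ind (∀ x ∈ τ u, Y x = true)
  have hy0 : ∀ u Y, 0 ≤ y u Y := fun u Y => mul_nonneg (by positivity) (ind_nonneg _)
  have hmean : ∀ u, Ex p (y u) = a := by
    intro u
    simp only [y]
    rw [Ex_const_mul, Ex_ind_subset]
    field_simp
  have hpair : ∀ u ∈ T, ∀ v, Ex p (fun Y => y u Y * y v Y)
      ≤ a ^ 2 * (1 + Q * ∑ w ∈ τ u, ind (w ∈ τ v)) := by
    intro u hu v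
    have e1 : (fun Y => y u Y * y v Y) = fun Y : W → Bool =>
        (a ^ 2 * ((p ^ (τ u).card)⁻¹ * (p ^ (τ v).card)⁻¹)) * ind (∀ x ∈ τ u ∪ τ v, Y x = true) := by
      funext Y
      simp only [y]
      rw [ind_congr (Finset.forall_mem_union (s := τ u) (t := τ v) (p := fun x => Y x = true)),
        ind_and]
      ring
    rw [e1, Ex_const_mul, Ex_ind_subset, mul_assoc]
    refine mul_le_mul_of_nonneg_left ?_ (by positivity)
    have e2 : (p ^ (τ u).card)⁻¹ * (p ^ (τ v).card)⁻¹ * p ^ (τ u ∪ τ v).card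
        = (p ^ (τ u ∩ τ v).card)⁻¹ := by
      have := Finset.card_union_add_card_inter (τ u) (τ v)
      have e3 : p ^ (τ u).card * p ^ (τ v).card
          = p ^ (τ u ∪ τ v).card * p ^ (τ u ∩ τ v).card := by
        rw [← pow_add, ← pow_add, this]
      field_simp
      linarith
    rw [e2]
    have hs0 : 0 ≤ ∑ w ∈ τ u, ind (w ∈ τ v) := Finset.sum_nonneg fun w _ => ind_nonneg _
    by_cases hne : (τ u ∩ τ v).Nonempty
    · obtain ⟨w, hw⟩ := hne
      have hs1 : 1 ≤ ∑ w ∈ τ u, ind (w ∈ τ v) := by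
        rw [← ind_pos (Finset.mem_inter.1 hw).2]
        exact Finset.single_le_sum (f := fun w => ind (w ∈ τ v)) (fun w _ => ind_nonneg _)
          (Finset.mem_inter.1 hw).1
      have := hinv (τ u ∩ τ v).card
        ((Finset.card_le_card Finset.inter_subset_left).trans (hκ u hu))
      nlinarith
    · rw [Finset.not_nonempty_iff_eq_empty.1 hne]
      simp only [Finset.card_empty, pow_zero, inv_one]
      nlinarith
  have key := oneStep h0.le h1 T τ N y (a * Q) (by positivity) (fun u _ Y => hy0 u Y)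
    (fun u hu Y => ?_) (fun u _ Y hne => ?_) (fun u hu => ?_)
  · refine key.trans (le_of_eq ?_)
    congr 3
    rw [ha]; field_simp
  · simp only [y]
    refine (mul_le_of_le_one_right (by positivity) (ind_le_one _)).trans ?_
    exact mul_le_mul_of_nonneg_left (hinv _ (hκ u hu)) ha0.le
  · by_contra hc
    exact hne (by simp only [y]; rw [ind_neg hc, mul_zero])
  · have h2 : Ex p (fun Y => y u Y - ∑ v ∈ T, y u Y * y v Y)
        ≤ Ex p (fun Y => y u Y * ind (∑ v ∈ T, y v Y ≤ 1)) := by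
      refine Ex_mono h0.le h1 fun Y => ?_
      rw [← Finset.mul_sum]
      have hs : 0 ≤ ∑ v ∈ T, y v Y := Finset.sum_nonneg fun v _ => hy0 v Y
      by_cases hl : ∑ v ∈ T, y v Y ≤ 1
      · rw [ind_pos hl]; nlinarith [hy0 u Y]
      · rw [ind_neg hl]; nlinarith [hy0 u Y]
    rw [Ex_sub, Ex_sum, hmean] at h2
    have h3 : ∑ v ∈ T, Ex p (fun Y => y u Y * y v Y) ≤ a ^ 2 * (T.card + κ * Δ * Q) := by
      refine (Finset.sum_le_sum fun v _ => hpair u hu v).trans ?_
      rw [← Finset.mul_sum, Finset.sum_add_distrib, ← Finset.mul_sum, Finset.sum_comm]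
      refine mul_le_mul_of_nonneg_left ?_ (by positivity)
      have h4 : ∑ w ∈ τ u, ∑ v ∈ T, ind (w ∈ τ v) ≤ κ * Δ := by
        have hΔ0 : 0 ≤ Δ := le_trans (Nat.cast_nonneg _) (hΔ u)
        calc ∑ w ∈ τ u, ∑ v ∈ T, ind (w ∈ τ v) ≤ ∑ w ∈ τ u, Δ :=
              Finset.sum_le_sum fun w _ => by rw [sum_ind_eq_card]; exact hΔ w
          _ = (τ u).card * Δ := by simp
          _ ≤ κ * Δ := by gcongr; exact hκ u hu
      simp only [Finset.sum_const, nsmul_eq_mul, mul_one]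
      nlinarith
    have h5 : a * (T.card + κ * Δ * Q) ≤ 1 / 2 := by
      rw [ha, div_mul_eq_mul_div, div_le_iff₀ hNr]; linarith
    have h6 : N * a = 8 := by rw [ha]; field_simp
    nlinarith

omit [Fintype W] [DecidableEq W] in
lemma matchEv_of_empty (T : Finset W) (τ : W → Finset W) (N : ℕ) (hT : T.card ≤ N)
    (hτ : ∀ u ∈ T, τ u = ∅) (ξ : Fin N × W → Bool) : MatchEv T τ N ξ := by
  classical
  obtain ⟨f⟩ : Nonempty (T ↪ Fin N) :=
    Function.Embedding.nonempty_of_card_le (by simpa using hT)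
  exact ⟨f, f.injective, fun u w hw => by rw [hτ u u.2] at hw; simp at hw⟩

end Crest.Agent.R052.Emb
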