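import Crest.Agent.R052.Frac
import Crest.Agent.Lib.BiasedCube.Hyper

/-!
The signed product kernel vanishing on non-covering pairs, and push-forward of product weights.
-/

set_option autoImplicit false

namespace Crest.Agent.R052

open Finset Crest.FinProb Crest.Agent.Lib.BiasedCube

variable {α : Type*} [Fintype α] [DecidableEq α]

lemma phi_false_sq {t : ℝ} (h0 : 0 < t) (h1 : t < 1) :
    (1 - t) / t * (phi t false * phi t false) = 1 := by
  have hs := sig_pos h0 h1
  have hs2 := sig_sq h0 h1
  simp only [phi, Bool.false_eq_true, if_false]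
  field_simp
  rw [hs2]; ring

lemma kernel_zero {t : ℝ} (h0 : 0 < t) (h1 : t < 1) (S : Finset α) (g₁ g₂ : (α → Bool) → ℝ)
    (h : ∀ a b, g₁ a ≠ 0 → g₂ b ≠ 0 → ∃ x ∈ S, a x = false ∧ b x = false) :
    ∑ T ∈ S.powerset, (-((1 - t) / t)) ^ T.card * (fc t g₁ T * fc t g₂ T) = 0 := by
  have e1 : ∀ a b : α → Bool,
      ∑ T ∈ S.powerset, (-((1 - t) / t)) ^ T.card * ((g₁ a * chi t T a) * (g₂ b * chi t T b))
        = 0 := by
    intro a b
    have : ∑ T ∈ S.powerset, (-((1 - t) / t)) ^ T.card * ((g₁ a * chi t T a) * (g₂ b * chi t T b))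
        = g₁ a * g₂ b * ∏ x ∈ S, (1 + (-((1 - t) / t)) * (phi t (a x) * phi t (b x))) := by
      rw [Finset.prod_one_add, Finset.mul_sum]
      refine Finset.sum_congr rfl fun T _ => ?_
      rw [Finset.prod_mul_distrib, Finset.prod_mul_distrib, Finset.prod_const]
      unfold chi; ring
    rw [this]
    by_cases ha : g₁ a = 0
    · simp [ha]
    by_cases hb : g₂ b = 0
    · simp [hb]
    obtain ⟨x, hx, hax, hbx⟩ := h a b ha hb
    rw [Finset.prod_eq_zero hx, mul_zero]
    rw [hax, hbx]
    have := phi_false_sq h0 h1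
    linarith
  have e2 : ∑ T ∈ S.powerset, (-((1 - t) / t)) ^ T.card * (fc t g₁ T * fc t g₂ T)
      = Ex t (fun a => Ex t (fun b => ∑ T ∈ S.powerset,
        (-((1 - t) / t)) ^ T.card * ((g₁ a * chi t T a) * (g₂ b * chi t T b)))) := by
    simp_rw [Ex_sum, Ex_const_mul]
    refine Finset.sum_congr rfl fun T _ => ?_
    congr 1
    rw [Ex_mul_const]; rfl
  rw [e2]
  simp_rw [e1, Ex_const]

lemma kernel_le {t : ℝ} (h0 : 0 < t) (h1 : t < 1) (S : Finset α) (g₁ g₂ : (α → Bool) → ℝ)
    (h : ∀ a b, g₁ a ≠ 0 → g₂ b ≠ 0 → ∃ x ∈ S, a x = false ∧ b x = false) :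
    Ex t g₁ * Ex t g₂ ≤ ∑ T ∈ S.powerset.erase ∅,
      ((1 - t) / t) ^ T.card * ((fc t g₁ T ^ 2 + fc t g₂ T ^ 2) / 2) := by
  have hz := kernel_zero h0 h1 S g₁ g₂ h
  rw [← Finset.add_sum_erase _ _ (Finset.empty_mem_powerset S), fc_empty, fc_empty] at hz
  simp only [Finset.card_empty, pow_zero, one_mul] at hz
  have hl : 0 ≤ (1 - t) / t := div_nonneg (by linarith) h0.le
  have : - ∑ T ∈ S.powerset.erase ∅, (-((1 - t) / t)) ^ T.card * (fc t g₁ T * fc t g₂ T)
      ≤ ∑ T ∈ S.powerset.erase ∅,
        ((1 - t) / t) ^ T.card * ((fc t g₁ T ^ 2 + fc t g₂ T ^ 2) / 2) := by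
    rw [← Finset.sum_neg_distrib]
    refine Finset.sum_le_sum fun T _ => ?_
    refine (neg_le_abs _).trans ?_
    rw [abs_mul, abs_pow, abs_neg, abs_of_nonneg hl]
    refine mul_le_mul_of_nonneg_left ?_ (by positivity)
    rw [abs_le]
    constructor <;> nlinarith [sq_nonneg (fc t g₁ T + fc t g₂ T), sq_nonneg (fc t g₁ T - fc t g₂ T)]
  linarith

/-- push-forward of a product weight under a coordinatewise map to `Bool` -/
lemma push_Ex {Ω : Type*} [Fintype Ω] (π : Ω → ℝ) (φ : Ω → Bool) (t : ℝ) (h1 : ∑ ω, π ω = 1)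
    (ht : ∑ ω, (if φ ω then π ω else 0) = t) (h : (α → Bool) → ℝ) :
    ∑ τ : α → Ω, pw π τ * h (fun x => φ (τ x)) = Ex t h := by
  have hf : ∑ ω, (if φ ω = false then π ω else 0) = 1 - t := by
    rw [← h1, ← ht, ← Finset.sum_sub_distrib]
    refine Finset.sum_congr rfl fun ω _ => ?_
    cases φ ω <;> simp
  have e1 : ∀ τ : α → Ω, pw π τ * h (fun x => φ (τ x))
      = ∑ y : α → Bool, (∏ x, (fun x ω => if φ ω = y x then π ω else 0) x (τ x)) * h y := by
    intro τ
    rw [Finset.sum_eq_single (fun x => φ (τ x))]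
    · simp [pw]
    · intro y _ hy
      obtain ⟨x, hx⟩ := Function.ne_iff.1 hy
      rw [Finset.prod_eq_zero (mem_univ x), zero_mul]
      exact if_neg (fun h => hx (Eq.symm h))
    · intro h; exact absurd (mem_univ _) h
  simp_rw [e1]
  rw [Finset.sum_comm]
  unfold Ex
  refine Finset.sum_congr rfl fun y _ => ?_
  rw [← Finset.sum_mul, sum_prod_eq (fun x ω => if φ ω = y x then π ω else 0), bw_eq]
  congr 1
  refine Finset.prod_congr rfl fun x _ => ?_
  cases y x
  · simpa using hf
  · simpa using ht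

/-- the set of `true` coordinates -/
def toSet (x : α → Bool) : Finset α := univ.filter (fun i => x i = true)

/-- functions to `Bool` versus finsets -/
def setEquiv : (α → Bool) ≃ Finset α where
  toFun := toSet
  invFun S := fun i => decide (i ∈ S)
  left_inv x := by funext i; simp [toSet]
  right_inv S := by ext i; simp [toSet]

omit [DecidableEq α] in
lemma bw_eq_pow (p : ℝ) (x : α → Bool) :
    bernoulliWeight p x = p ^ (toSet x).card * (1 - p) ^ (Fintype.card α - (toSet x).card) := by
  unfold bernoulliWeight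
  rw [Finset.prod_ite, Finset.prod_const, Finset.prod_const]
  congr 2
  have := Finset.card_filter_add_card_filter_not (s := (univ : Finset α)) (fun i => x i = true)
  rw [Finset.card_univ] at this
  unfold toSet
  omega

lemma sum_mem_eq_Ex (p : ℝ) (D : Finset (Finset α)) :
    ∑ S ∈ D, p ^ S.card * (1 - p) ^ (Fintype.card α - S.card)
      = Ex p (fun x => if toSet x ∈ D then 1 else 0) := by
  unfold Ex
  rw [Fintype.sum_equiv setEquiv (fun x => bernoulliWeight p x * if toSet x ∈ D then 1 else 0)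
    (fun S => if S ∈ D then p ^ S.card * (1 - p) ^ (Fintype.card α - S.card) else 0)]
  · rw [Finset.sum_ite_mem, Finset.univ_inter]
  · intro x
    rw [bw_eq_pow]
    show _ = if toSet x ∈ D then p ^ (toSet x).card * (1 - p) ^ (Fintype.card α - (toSet x).card)
      else 0
    split_ifs <;> simp

theorem convexity (k m : ℕ) (hm : (2 : ℝ) ^ 22 = m) (hk : 3 * m ≤ k) (p : ℝ)
    (hp0 : 0 < p) (hp1 : p < 1) (D : Finset (Finset α))
    (hD : 1 - 1 / (k : ℝ) ≤ ∑ S ∈ D, p ^ S.card * (1 - p) ^ (Fintype.card α - S.card)) :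
    ∃ G : Finset (Finset α),
      (∀ S : Finset α,
        (∀ f : Fin k → Finset α, (∀ i, f i ∈ D) → ¬ S ⊆ Finset.univ.biUnion f) →
          ∃ I ∈ G, I ⊆ S) ∧
      ∑ I ∈ G, p ^ I.card ≤ 1 / 2 := by
  classical
  have hm0 : 0 < m := by
    have : (0 : ℝ) < m := by rw [← hm]; positivity
    exact_mod_cast this
  have hk0 : (0 : ℝ) < k := by exact_mod_cast (by omega : 0 < k)
  set y := (1 - p) ^ m with hy
  have hy0 : 0 < y := pow_pos (by linarith) m
  have hy1 : y < 1 := pow_lt_one₀ (by linarith) (by linarith) hm0.ne'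
  set t := 1 - y with ht
  have ht0 : 0 < t := by linarith
  have ht1 : t < 1 := by linarith
  have hlam : (1 - t) / t * (m * p) ≤ 1 := by
    rw [div_mul_eq_mul_div, div_le_one ht0]
    have a1 : 1 + (m : ℝ) * p ≤ (1 + p) ^ m := one_add_mul_le_pow (by linarith) m
    have a2 : y * (1 + p) ^ m ≤ 1 := by
      rw [hy, ← mul_pow]
      exact pow_le_one₀ (by nlinarith) (by nlinarith)
    nlinarith
  set f' : (α → Bool) → Bool := fun x =>
    decide (∃ h : Fin m → Finset α, (∀ j, h j ∈ D) ∧ toSet x ⊆ univ.biUnion h) with hf'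
  set μ := Ex t (ind f') with hμ
  have hπ1 : ∑ ω : Fin m → Bool, bernoulliWeight p ω = 1 := by
    have := Ex_one (ι := Fin m) p
    simpa [Ex] using this
  have hμ23 : 2 / 3 ≤ μ := by
    have hor : ∑ ω : Fin m → Bool,
        (if (decide (∃ j, ω j = true)) then bernoulliWeight p ω else 0) = t := by
      have : ∀ ω : Fin m → Bool, (if (decide (∃ j, ω j = true)) then bernoulliWeight p ω else 0)
          = bernoulliWeight p ω - if ω = (fun _ => false) then bernoulliWeight p ω else 0 := by
        intro ω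
        by_cases h : ω = fun _ => false
        · subst h; simp
        · obtain ⟨j, hj⟩ := Function.ne_iff.1 h
          have : ∃ j, ω j = true := ⟨j, by simpa using hj⟩
          simp [h, this]
      simp_rw [this]
      rw [Finset.sum_sub_distrib, hπ1, Finset.sum_ite_eq']
      simp [bernoulliWeight, ht, hy]
    have hrow : ∀ j : Fin m, ∑ ω : Fin m → Bool,
        (if ω j then bernoulliWeight p ω else 0) = p := by
      intro j
      have := Ex_split (ι := Fin m) p j (fun ω => if ω j then 1 else 0)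
      simp only [Function.update_self, if_true, Bool.false_eq_true, if_false, mul_one, mul_zero,
        add_zero, Ex_const] at this
      refine Eq.trans ?_ this
      unfold Ex
      refine Finset.sum_congr rfl fun ω _ => ?_
      by_cases h : ω j = true <;> simp [h]
    rw [hμ, ← push_Ex (bernoulliWeight p) (fun ω : Fin m → Bool => decide (∃ j, ω j = true)) t
      hπ1 hor]
    rw [sum_mem_eq_Ex] at hD
    have hj : ∀ j : Fin m, ∑ τ : α → Fin m → Bool, pw (bernoulliWeight p) τ *
        (1 - if toSet (fun x => τ x j) ∈ D then 1 else 0) ≤ 1 / k := by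
      intro j
      rw [push_Ex (bernoulliWeight p) (fun ω : Fin m → Bool => ω j) p hπ1 (hrow j)
        (fun x => 1 - if toSet x ∈ D then 1 else 0), Ex_sub, Ex_const]
      linarith
    have hpt : ∀ τ : α → Fin m → Bool,
        1 - ∑ j : Fin m, (1 - if toSet (fun x => τ x j) ∈ D then (1 : ℝ) else 0)
          ≤ ind f' (fun x => decide (∃ j, τ x j = true)) := by
      intro τ
      have hn : ∀ j ∈ (univ : Finset (Fin m)),
          0 ≤ (1 - if toSet (fun x => τ x j) ∈ D then (1 : ℝ) else 0) :=
        fun j _ => by split_ifs <;> norm_num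
      by_cases hall : ∀ j, toSet (fun x => τ x j) ∈ D
      · have : f' (fun x => decide (∃ j, τ x j = true)) = true := by
          simp only [hf', decide_eq_true_eq]
          refine ⟨fun j => toSet (fun x => τ x j), hall, fun x hx => ?_⟩
          simpa [toSet] using hx
        simp [ind, this, hall]
      · push Not at hall
        obtain ⟨j, hj⟩ := hall
        have := Finset.single_le_sum hn (mem_univ j)
        simp only [hj, if_false, sub_zero] at this
        have h2 : 0 ≤ ind f' (fun x => decide (∃ j, τ x j = true)) := by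
          unfold ind; split_ifs <;> norm_num
        linarith
    have hw0 : ∀ τ : α → Fin m → Bool, 0 ≤ pw (bernoulliWeight p) τ :=
      pw_nonneg (fun ω => bw_nonneg hp0.le hp1.le ω)
    refine le_trans ?_ (Finset.sum_le_sum fun τ _ => mul_le_mul_of_nonneg_left (hpt τ) (hw0 τ))
    simp_rw [mul_sub, Finset.mul_sum, mul_one]
    rw [Finset.sum_sub_distrib, sum_pw _ hπ1, Finset.sum_comm]
    have := Finset.sum_le_sum (s := (univ : Finset (Fin m))) (fun j _ => hj j)
    simp only [Finset.sum_const, Finset.card_univ, Fintype.card_fin, nsmul_eq_mul] at this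
    have h3 : (m : ℝ) * (1 / k) ≤ 1 / 3 := by
      rw [mul_one_div, div_le_div_iff₀ hk0 (by norm_num)]
      have : (3 * m : ℝ) ≤ k := by exact_mod_cast hk
      linarith
    linarith
  have hμ0 : 0 < μ := by linarith
  set F : Finset (Finset α) := univ.filter (fun S =>
    ∀ f : Fin k → Finset α, (∀ i, f i ∈ D) → ¬ S ⊆ Finset.univ.biUnion f) with hF
  have hl0 : 0 ≤ (1 - t) / t := div_nonneg (by linarith) ht0.le
  suffices h : ∃ G : Finset (Finset α), (∀ H ∈ F, ∃ S ∈ G, S ⊆ H) ∧
      ∑ S ∈ G, p ^ S.card ≤ 1 / 2 by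
    obtain ⟨G, hG1, hG2⟩ := h
    exact ⟨G, fun S hS => hG1 S (Finset.mem_filter.2 ⟨mem_univ _, hS⟩), hG2⟩
  refine frac_to_int F
    (fun T => if T = ∅ then 0 else ((1 - t) / t) ^ T.card * fc t (ind f') T ^ 2 / μ ^ 2)
    (fun T => by split_ifs <;> positivity) ?_ (m * p) (by positivity) ?_ p hp0 (by rw [hm])
  · intro S hS
    have hS' := (Finset.mem_filter.1 hS).2
    have hk := kernel_le ht0 ht1 S (ind f') (ind f') (by
      intro a b ha hb
      have ha' : f' a = true := by by_contra h; simp [ind, h] at ha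
      have hb' : f' b = true := by by_contra h; simp [ind, h] at hb
      simp only [hf', decide_eq_true_eq] at ha' hb'
      obtain ⟨ha1, ha2, ha3⟩ := ha'
      obtain ⟨hb1, hb2, hb3⟩ := hb'
      have := hS' (fun i => if h : (i : ℕ) < m then ha1 ⟨i, h⟩ else
        if h' : (i : ℕ) - m < m then hb1 ⟨i - m, h'⟩ else ha1 ⟨0, hm0⟩)
        (fun i => by split_ifs <;> first | exact ha2 _ | exact hb2 _)
      obtain ⟨x, hx, hxn⟩ := Finset.not_subset.1 this
      refine ⟨x, hx, ?_, ?_⟩
      · by_contra h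
        have h' : x ∈ toSet a := by simpa [toSet] using h
        obtain ⟨j, -, hj⟩ := Finset.mem_biUnion.1 (ha3 h')
        refine hxn (Finset.mem_biUnion.2 ⟨⟨j, by have := j.2; omega⟩, mem_univ _, ?_⟩)
        simpa [j.2] using hj
      · by_contra h
        have h' : x ∈ toSet b := by simpa [toSet] using h
        obtain ⟨j, -, hj⟩ := Finset.mem_biUnion.1 (hb3 h')
        refine hxn (Finset.mem_biUnion.2 ⟨⟨j + m, by have := j.2; omega⟩, mem_univ _, ?_⟩)
        simpa [j.2] using hj)
    rw [← hμ] at hk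
    rw [← Finset.add_sum_erase _ _ (Finset.empty_mem_powerset S)]
    simp only [if_true, zero_add]
    rw [Finset.sum_congr rfl (fun T hT => if_neg (Finset.ne_of_mem_erase hT)), ← Finset.sum_div,
      one_le_div (by positivity), sq]
    refine hk.trans (le_of_eq (Finset.sum_congr rfl fun T _ => by ring))
  · rw [← Finset.add_sum_erase _ _ (mem_univ ∅)]
    simp only [if_true, zero_mul, zero_add]
    have hv := var_eq_sum ht0 ht1 f'
    rw [← hμ] at hv
    calc _ ≤ ∑ T ∈ (univ : Finset (Finset α)).erase ∅, fc t (ind f') T ^ 2 / μ ^ 2 := by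
          refine Finset.sum_le_sum fun T hT => ?_
          rw [if_neg (Finset.ne_of_mem_erase hT)]
          have : ((1 - t) / t) ^ T.card * ((m : ℝ) * p) ^ T.card ≤ 1 := by
            rw [← mul_pow]; exact pow_le_one₀ (by positivity) hlam
          have h2 : 0 ≤ fc t (ind f') T ^ 2 / μ ^ 2 := by positivity
          calc _ = (((1 - t) / t) ^ T.card * ((m : ℝ) * p) ^ T.card)
                * (fc t (ind f') T ^ 2 / μ ^ 2) := by ring
            _ ≤ 1 * (fc t (ind f') T ^ 2 / μ ^ 2) := mul_le_mul_of_nonneg_right this h2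
            _ = _ := one_mul _
      _ ≤ 1 / 2 := by
          rw [← Finset.sum_div, ← hv, div_le_iff₀ (by positivity)]
          nlinarith

end Crest.Agent.R052
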