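import Crest.Agent.R052.EmbOneStep
import Crest.Agent.R052.Kernel

/-!
Splitting spread out-sets into two halves, each of which can be matched into a random pool:
linear-programming duality with the signed product kernel, then random rounding.
-/

set_option autoImplicit false

namespace Crest.Agent.R052.Emb

open Finset Crest.FinProb Crest.Agent.Lib.BiasedCube

variable {W : Type*} [Fintype W] [DecidableEq W]

lemma fc_one_of_ne {p : ℝ} (h0 : 0 < p) (h1 : p < 1) {S : Finset W} (hS : S ≠ ∅) :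
    fc p (fun _ => 1) S = 0 := by
  have := Ex_chi_mul_chi h0 h1 (∅ : Finset W) S
  rw [if_neg (Ne.symm hS)] at this
  unfold fc
  simpa [chi] using this

lemma sum_fc_ind_sq {p : ℝ} (h0 : 0 < p) (h1 : p < 1) (A : (W → Bool) → Prop) :
    ∑ S : Finset W, fc p (fun x => ind (A x)) S ^ 2 = Pr p A := by
  rw [← parseval_sq h0 h1]
  unfold Pr
  refine Ex_congr p fun x => ?_
  by_cases h : A x
  · simp [ind_pos h]
  · simp [ind_neg h]

lemma inv_pow_le {p : ℝ} (h0 : 0 < p) (h1 : p ≤ 1) {κ : ℕ} {Q : ℝ} (hQ : 1 ≤ Q * p ^ κ) {j : ℕ}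
    (hj : j ≤ κ) : (p ^ j)⁻¹ ≤ Q := by
  have hQ0 : 0 < Q := by
    by_contra hc
    have : Q * p ^ κ ≤ 0 := mul_nonpos_of_nonpos_of_nonneg (not_lt.1 hc) (by positivity)
    linarith
  rw [inv_le_iff_one_le_mul₀ (by positivity)]
  have : p ^ κ ≤ p ^ j := pow_le_pow_of_le_one h0.le h1 hj
  nlinarith

/-- One vertex at one level. -/
lemma one_level {p : ℝ} (h0 : 0 < p) (h1 : p < 1) (s : Finset W) {κ : ℕ} (hκ : s.card ≤ κ)
    {Q : ℝ} (hQ : 1 ≤ Q * p ^ κ) (A B : (W → Bool) → Prop)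
    (hA : Pr p (fun x => ¬ A x) ≤ 1 / 4) (hB : 16 * Q * Pr p (fun x => ¬ B x) ≤ 1)
    (hno : ∀ a b, A a → B a → A b → B b → ∃ x ∈ s, a x = false ∧ b x = false) :
    1 / 3 ≤ 2 * ∑ S ∈ s.powerset.erase ∅,
      (p ^ S.card)⁻¹ * fc p (fun x => ind (¬ A x)) S ^ 2 := by
  have hQ1 : 1 ≤ Q := by simpa using inv_pow_le h0 h1.le hQ (Nat.zero_le κ)
  set g : (W → Bool) → ℝ := fun x => ind (A x ∧ B x) with hg
  have hgne : ∀ a, g a ≠ 0 → A a ∧ B a := fun a ha => by
    by_contra hc; exact ha (ind_neg hc)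
  have hk := kernel_le h0 h1 s g g fun a b ha hb =>
    hno a b (hgne a ha).1 (hgne a ha).2 (hgne b hb).1 (hgne b hb).2
  have hdec : ∀ x, g x = 1 - ind (¬ A x) - ind (A x ∧ ¬ B x) := by
    intro x
    by_cases ha : A x <;> by_cases hb : B x <;> simp [hg, ind, ha, hb]
  have hPB := Pr_nonneg h0.le h1.le (fun x => ¬ B x)
  have hAB : Pr p (fun x => A x ∧ ¬ B x) ≤ Pr p (fun x => ¬ B x) :=
    Pr_mono h0.le h1.le fun x hx => hx.2
  have hEg : 11 / 16 ≤ Ex p g := by
    rw [Ex_congr p hdec, Ex_sub, Ex_sub, Ex_one]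
    have : Pr p (fun x => ¬ B x) ≤ 1 / 16 := by nlinarith
    unfold Pr at hA hAB this
    linarith
  have hfc : ∀ S : Finset W, S ≠ ∅ → fc p g S
      = - fc p (fun x => ind (¬ A x)) S - fc p (fun x => ind (A x ∧ ¬ B x)) S := by
    intro S hS
    have h := fc_one_of_ne h0 h1 hS
    unfold fc at h ⊢
    rw [Ex_congr p (g := fun x => g x * chi p S x) (h := fun x => 1 * chi p S x
      - ind (¬ A x) * chi p S x - ind (A x ∧ ¬ B x) * chi p S x)
      (fun x => by rw [hdec]; ring), Ex_sub, Ex_sub, h]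
    ring
  have hterm : ∀ S ∈ s.powerset.erase ∅,
      ((1 - p) / p) ^ S.card * ((fc p g S ^ 2 + fc p g S ^ 2) / 2)
        ≤ 2 * ((p ^ S.card)⁻¹ * fc p (fun x => ind (¬ A x)) S ^ 2)
          + 2 * Q * fc p (fun x => ind (A x ∧ ¬ B x)) S ^ 2 := by
    intro S hS
    obtain ⟨hS0, hSs⟩ := Finset.mem_erase.1 hS
    have e1 : ((1 - p) / p) ^ S.card ≤ (p ^ S.card)⁻¹ := by
      rw [← inv_pow]
      refine pow_le_pow_left₀ (div_nonneg (by linarith) h0.le) ?_ _
      rw [← one_div]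
      gcongr; linarith
    have e2 : (p ^ S.card)⁻¹ ≤ Q := inv_pow_le h0 h1.le hQ
      ((Finset.card_le_card (Finset.mem_powerset.1 hSs)).trans hκ)
    rw [hfc S hS0]
    set u := fc p (fun x => ind (¬ A x)) S
    set v := fc p (fun x => ind (A x ∧ ¬ B x)) S
    have e3 : ((-u - v) ^ 2 + (-u - v) ^ 2) / 2 ≤ 2 * u ^ 2 + 2 * v ^ 2 := by
      nlinarith [sq_nonneg (u - v)]
    calc ((1 - p) / p) ^ S.card * (((-u - v) ^ 2 + (-u - v) ^ 2) / 2)
        ≤ (p ^ S.card)⁻¹ * (2 * u ^ 2 + 2 * v ^ 2) := by gcongr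
      _ = 2 * ((p ^ S.card)⁻¹ * u ^ 2) + 2 * (p ^ S.card)⁻¹ * v ^ 2 := by ring
      _ ≤ _ := by gcongr
  have hsum := Finset.sum_le_sum hterm
  rw [Finset.sum_add_distrib, ← Finset.mul_sum, ← Finset.mul_sum] at hsum
  have hpar : ∑ S ∈ s.powerset.erase ∅, fc p (fun x => ind (A x ∧ ¬ B x)) S ^ 2
      ≤ Pr p (fun x => ¬ B x) := by
    refine le_trans ?_ hAB
    rw [← sum_fc_ind_sq h0 h1]
    exact Finset.sum_le_sum_of_subset_of_nonneg (Finset.subset_univ _) fun S _ _ => sq_nonneg _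
  have h5 : 2 * Q * ∑ S ∈ s.powerset.erase ∅, fc p (fun x => ind (A x ∧ ¬ B x)) S ^ 2
      ≤ 1 / 8 := by
    have : 2 * Q * ∑ S ∈ s.powerset.erase ∅, fc p (fun x => ind (A x ∧ ¬ B x)) S ^ 2
      ≤ 2 * Q * Pr p (fun x => ¬ B x) := by gcongr
    linarith
  nlinarith

/-- All vertices at one level. -/
lemma all_level {p : ℝ} (h0 : 0 < p) (h1 : p < 1) (T : Finset W) (σ : W → Finset W) (N κ : ℕ)
    (Q : ℝ) (hκ : ∀ u ∈ T, (σ u).card ≤ κ) (hQ : 1 ≤ Q * p ^ κ) (hT : 1024 * T.card ≤ N)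
    (hspread : ∀ S : Finset W, S.Nonempty →
      ((T.filter (fun u => S ⊆ σ u)).card : ℝ) ≤ N * p ^ S.card / 4096)
    (A : (W → Bool) → Prop) (B : W → (W → Bool) → Prop) (bad : W → Prop)
    (hno : ∀ u ∈ T, bad u → ∀ a b, A a → B u a → A b → B u b →
      ∃ x ∈ σ u, a x = false ∧ b x = false) :
    4 * ∑ u ∈ T, ind (bad u) ≤ N / 64 * Pr p (fun x => ¬ A x)
      + 64 * Q * ∑ u ∈ T, Pr p (fun x => ¬ B u x) := by
  have hQ1 : 1 ≤ Q := by simpa using inv_pow_le h0 h1.le hQ (Nat.zero_le κ)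
  have hPA := Pr_nonneg h0.le h1.le (fun x => ¬ A x)
  have hPB : ∀ u, 0 ≤ Pr p (fun x => ¬ B u x) := fun u => Pr_nonneg h0.le h1.le _
  have hTr : 1024 * (T.card : ℝ) ≤ N := by exact_mod_cast hT
  have hN0 : (0 : ℝ) ≤ N := Nat.cast_nonneg _
  by_cases hA : Pr p (fun x => ¬ A x) ≤ 1 / 4
  · have hu : ∀ u ∈ T, 4 * ind (bad u) ≤ 24 * ∑ S ∈ (σ u).powerset.erase ∅,
        (p ^ S.card)⁻¹ * fc p (fun x => ind (¬ A x)) S ^ 2
          + 64 * Q * Pr p (fun x => ¬ B u x) := by
      intro u hu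
      have hs0 : 0 ≤ ∑ S ∈ (σ u).powerset.erase ∅,
          (p ^ S.card)⁻¹ * fc p (fun x => ind (¬ A x)) S ^ 2 :=
        Finset.sum_nonneg fun S _ => by positivity
      have hb0 : 0 ≤ 64 * Q * Pr p (fun x => ¬ B u x) := mul_nonneg (by linarith) (hPB u)
      by_cases hb : bad u
      · rw [ind_pos hb]
        by_cases hB : 16 * Q * Pr p (fun x => ¬ B u x) ≤ 1
        · have := one_level h0 h1 (σ u) (hκ u hu) hQ A (B u) hA hB (hno u hu hb)
          linarith
        · linarith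
      · rw [ind_neg hb]; linarith
    have h2 := Finset.sum_le_sum hu
    rw [Finset.sum_add_distrib, ← Finset.mul_sum, ← Finset.mul_sum, ← Finset.mul_sum] at h2
    have h3 : ∑ u ∈ T, ∑ S ∈ (σ u).powerset.erase ∅,
        (p ^ S.card)⁻¹ * fc p (fun x => ind (¬ A x)) S ^ 2
          ≤ N / 4096 * Pr p (fun x => ¬ A x) := by
      have e1 : ∀ u, ∑ S ∈ (σ u).powerset.erase ∅,
          (p ^ S.card)⁻¹ * fc p (fun x => ind (¬ A x)) S ^ 2
          = ∑ S : Finset W, ind (S ⊆ σ u) * (ind (S ≠ ∅) *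
            ((p ^ S.card)⁻¹ * fc p (fun x => ind (¬ A x)) S ^ 2)) := by
        intro u
        rw [← Finset.sum_subset (Finset.subset_univ ((σ u).powerset.erase ∅))]
        · refine Finset.sum_congr rfl fun S hS => ?_
          obtain ⟨hS0, hSs⟩ := Finset.mem_erase.1 hS
          rw [ind_pos (Finset.mem_powerset.1 hSs), ind_pos hS0]; ring
        · intro S _ hS
          by_cases hS0 : S = ∅
          · rw [ind_neg (not_not.2 hS0)]; ring
          · rw [ind_neg (fun h => hS (Finset.mem_erase.2 ⟨hS0, Finset.mem_powerset.2 h⟩))]; ring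
      simp_rw [e1]
      rw [Finset.sum_comm, ← sum_fc_ind_sq h0 h1, Finset.mul_sum]
      refine Finset.sum_le_sum fun S _ => ?_
      rw [← Finset.sum_mul, sum_ind_eq_card]
      by_cases hS0 : S = ∅
      · rw [ind_neg (not_not.2 hS0)]
        simp only [zero_mul, mul_zero]
        positivity
      · rw [ind_pos hS0, one_mul, ← mul_assoc]
        refine mul_le_mul_of_nonneg_right ?_ (sq_nonneg _)
        have := hspread S (Finset.nonempty_iff_ne_empty.2 hS0)
        rw [← div_eq_mul_inv, div_le_iff₀ (by positivity)]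
        linarith
    nlinarith
  · have h2 : ∑ u ∈ T, ind (bad u) ≤ T.card := by
      rw [Finset.card_eq_sum_ones, Nat.cast_sum]
      exact Finset.sum_le_sum fun u _ => by simpa using ind_le_one _
    have h3 : 0 ≤ 64 * Q * ∑ u ∈ T, Pr p (fun x => ¬ B u x) :=
      mul_nonneg (by linarith) (Finset.sum_nonneg fun u _ => hPB u)
    nlinarith

/-- The dual inequality: cheap covering pairs exist for all prices. -/
lemma dual_le {p : ℝ} (h0 : 0 < p) (h1 : p < 1) (T : Finset W) (σ : W → Finset W) (N κ : ℕ)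
    (Q : ℝ) (hκ : ∀ u ∈ T, (σ u).card ≤ κ) (hQ : 1 ≤ Q * p ^ κ) (hT : 1024 * T.card ≤ N)
    (hspread : ∀ S : Finset W, S.Nonempty →
      ((T.filter (fun u => S ⊆ σ u)).card : ℝ) ≤ N * p ^ S.card / 4096)
    (α : (W → Bool) → ℝ) (β : W → (W → Bool) → ℝ) (hα : ∀ Y, 0 ≤ α Y) (hβ : ∀ u Y, 0 ≤ β u Y) :
    ∃ o : W → Bool → W → Bool, (∀ u, ∀ x ∈ σ u, o u true x = true ∨ o u false x = true) ∧
      ∑ u ∈ T, ∑ i, (α (o u i) + β u (o u i))
        ≤ N / 64 * Ex p α + 64 * Q * ∑ u ∈ T, Ex p (β u) := by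
  classical
  have hex : ∀ u, ∃ c : Bool → W → Bool, (∀ x ∈ σ u, c true x = true ∨ c false x = true) ∧
      ∀ c' : Bool → W → Bool, (∀ x ∈ σ u, c' true x = true ∨ c' false x = true) →
        ∑ i, (α (c i) + β u (c i)) ≤ ∑ i, (α (c' i) + β u (c' i)) := by
    intro u
    obtain ⟨c, hc, hmin⟩ := Finset.exists_min_image
      (univ.filter (fun c : Bool → W → Bool => ∀ x ∈ σ u, c true x = true ∨ c false x = true))
      (fun c => ∑ i, (α (c i) + β u (c i))) ⟨fun _ _ => true, by simp⟩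
    exact ⟨c, (Finset.mem_filter.1 hc).2, fun c' hc' =>
      hmin c' (Finset.mem_filter.2 ⟨mem_univ _, hc'⟩)⟩
  choose o ho hmin using hex
  refine ⟨o, ho, ?_⟩
  set m : W → ℝ := fun u => ∑ i, (α (o u i) + β u (o u i)) with hm
  have hm0 : ∀ u, 0 ≤ m u := fun u =>
    Finset.sum_nonneg fun i _ => add_nonneg (hα _) (hβ _ _)
  let wt : W ⊕ (W → Bool) ⊕ (W × (W → Bool)) → ℝ := fun z => match z with
    | Sum.inl u => if u ∈ T then 4 else 0
    | Sum.inr (Sum.inl Y) => -(N / 64 * bernoulliWeight p Y)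
    | Sum.inr (Sum.inr z) => if z.1 ∈ T then -(64 * Q * bernoulliWeight p z.2) else 0
  let av : W ⊕ (W → Bool) ⊕ (W × (W → Bool)) → ℝ := fun z => match z with
    | Sum.inl u => m u / 4
    | Sum.inr (Sum.inl Y) => α Y
    | Sum.inr (Sum.inr z) => β z.1 z.2
  have hsum : ∀ φ : ℝ → ℝ, ∑ z, wt z * φ (av z) = 4 * ∑ u ∈ T, φ (m u / 4)
      - N / 64 * Ex p (fun Y => φ (α Y)) - 64 * Q * ∑ u ∈ T, Ex p (fun Y => φ (β u Y)) := by
    intro φ
    rw [Fintype.sum_sum_type, Fintype.sum_sum_type, Fintype.sum_prod_type]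
    simp only [wt, av, ite_mul, zero_mul]
    rw [Finset.sum_ite_mem, Finset.univ_inter, ← Finset.mul_sum]
    have e1 : ∀ u, ∑ Y : W → Bool,
        (if u ∈ T then -(64 * Q * bernoulliWeight p Y) * φ (β u Y) else 0)
        = if u ∈ T then -(64 * Q * Ex p (fun Y => φ (β u Y))) else 0 := by
      intro u
      split_ifs
      · unfold Ex
        rw [Finset.mul_sum, ← Finset.sum_neg_distrib]
        exact Finset.sum_congr rfl fun Y _ => by ring
      · simp
    simp_rw [e1]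
    rw [Finset.sum_ite_mem, Finset.univ_inter, Finset.sum_neg_distrib, ← Finset.mul_sum]
    have e2 : ∑ Y : W → Bool, -(N / 64 * bernoulliWeight p Y) * φ (α Y)
        = -(N / 64 * Ex p (fun Y => φ (α Y))) := by
      unfold Ex
      rw [Finset.mul_sum, ← Finset.sum_neg_distrib]
      exact Finset.sum_congr rfl fun Y _ => by ring
    rw [e2]; ring
  have key := layer_cake univ wt _ av le_rfl ?_ ?_
  · have := hsum id
    simp only [id] at this
    rw [this, ← Finset.sum_div] at key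
    linarith
  · rintro (u | Y | z) _
    · exact div_nonneg (hm0 u) (by norm_num)
    · exact hα Y
    · exact hβ _ _
  · intro t _
    rw [hsum (fun a => ind (t < a))]
    have := all_level h0 h1 T σ N κ Q hκ hQ hT hspread (fun Y => α Y ≤ t)
      (fun u Y => β u Y ≤ t) (fun u => t < m u / 4) ?_
    · simp only [not_le] at this
      unfold Pr at this
      linarith
    · intro u _ hb a b ha1 ha2 hb1 hb2
      by_contra hc
      push Not at hc
      have := hmin u (fun i => if i then a else b) fun x hx => by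
        have := hc x hx
        cases hax : a x <;> cases hbx : b x <;> simp_all
      simp only [Fintype.sum_bool, if_true, Bool.false_eq_true, if_false] at this
      simp only [hm, Fintype.sum_bool] at hb
      linarith

/-- The primal solution: random covering pairs with bounded densities. -/
lemma primal {p : ℝ} (h0 : 0 < p) (h1 : p < 1) (T : Finset W) (σ : W → Finset W) (N κ : ℕ)
    (Q : ℝ) (hκ : ∀ u ∈ T, (σ u).card ≤ κ) (hQ : 1 ≤ Q * p ^ κ) (hT : 1024 * T.card ≤ N)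
    (hspread : ∀ S : Finset W, S.Nonempty →
      ((T.filter (fun u => S ⊆ σ u)).card : ℝ) ≤ N * p ^ S.card / 4096) :
    ∃ (π : Bool → W → Finset W → (W → Bool) → ℝ) (q : W → Finset W → ℝ),
      (∀ i u r Y, 0 ≤ π i u r Y) ∧ (∀ i u r, ∑ Y, π i u r Y = q u r) ∧ (∀ u, ∑ r, q u r = 1) ∧
      (∀ u r, q u r ≠ 0 → r ⊆ σ u) ∧
      (∀ u r Y, π true u r Y ≠ 0 → ∀ x ∈ σ u ∩ r, Y x = true) ∧
      (∀ u r Y, π false u r Y ≠ 0 → ∀ x ∈ σ u \ r, Y x = true) ∧
      (∀ i, ∀ u ∈ T, ∀ Y, ∑ r, π i u r Y ≤ 64 * Q * bernoulliWeight p Y) ∧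
      (∀ i Y, ∑ u ∈ T, ∑ r, π i u r Y ≤ N / 64 * bernoulliWeight p Y) := by
  classical
  let O := {o : W → Bool → W → Bool // ∀ u, ∀ x ∈ σ u, o u true x = true ∨ o u false x = true}
  have : Nonempty O := ⟨⟨fun _ _ _ => true, by simp⟩⟩
  let A : O → Option W × (W → Bool) → ℝ := fun o k => match k.1 with
    | none => ∑ u ∈ T, ∑ i, ind (o.1 u i = k.2) - N / 64 * bernoulliWeight p k.2
    | some u => if u ∈ T then ∑ i, ind (o.1 u i = k.2) - 64 * Q * bernoulliWeight p k.2 else 0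
  have hpt : ∀ (g : (W → Bool) → ℝ) (Z : W → Bool), ∑ Y, g Y * ind (Z = Y) = g Z := by
    intro g Z
    rw [Finset.sum_eq_single Z]
    · rw [ind_pos rfl, mul_one]
    · intro Y _ hY; rw [ind_neg (Ne.symm hY), mul_zero]
    · simp
  obtain ⟨w, hw0, hw1, hw⟩ := minimax A fun y hy => by
    obtain ⟨o, ho, hle⟩ := dual_le h0 h1 T σ N κ Q hκ hQ hT hspread (fun Y => y (none, Y))
      (fun u Y => y (some u, Y)) (fun Y => hy _) (fun u Y => hy _)
    refine ⟨⟨o, ho⟩, ?_⟩
    rw [Fintype.sum_prod_type, Fintype.sum_option]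
    simp only [A]
    have e1 : ∑ Y : W → Bool, y (none, Y) *
        (∑ u ∈ T, ∑ i, ind (o u i = Y) - N / 64 * bernoulliWeight p Y)
        = ∑ u ∈ T, ∑ i, y (none, o u i) - N / 64 * Ex p (fun Y => y (none, Y)) := by
      simp_rw [mul_sub, Finset.mul_sum]
      rw [Finset.sum_sub_distrib, Finset.sum_comm]
      congr 1
      · refine Finset.sum_congr rfl fun u _ => ?_
        rw [Finset.sum_comm]
        exact Finset.sum_congr rfl fun i _ => hpt (fun Y => y (none, Y)) _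
      · unfold Ex
        rw [Finset.mul_sum]
        exact Finset.sum_congr rfl fun Y _ => by ring
    have e2 : ∀ u, ∑ Y : W → Bool, y (some u, Y) *
        (if u ∈ T then ∑ i, ind (o u i = Y) - 64 * Q * bernoulliWeight p Y else 0)
        = if u ∈ T then ∑ i, y (some u, o u i) - 64 * Q * Ex p (fun Y => y (some u, Y))
          else 0 := by
      intro u
      split_ifs
      · simp_rw [mul_sub, Finset.mul_sum]
        rw [Finset.sum_sub_distrib, Finset.sum_comm]
        congr 1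
        · exact Finset.sum_congr rfl fun i _ => hpt (fun Y => y (some u, Y)) _
        · unfold Ex
          rw [Finset.mul_sum]
          exact Finset.sum_congr rfl fun Y _ => by ring
      · simp
    rw [e1]
    simp_rw [e2]
    rw [Finset.sum_ite_mem, Finset.univ_inter, Finset.sum_sub_distrib, ← Finset.mul_sum]
    simp_rw [Finset.sum_add_distrib] at hle
    linarith
  let pat : O → W → Finset W := fun o u => (σ u).filter (fun x => o.1 u true x = true)
  have hmarg : ∀ i u Y, ∑ r, ∑ o, w o * (ind (pat o u = r) * ind (o.1 u i = Y))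
      = ∑ o, w o * ind (o.1 u i = Y) := by
    intro i u Y
    rw [Finset.sum_comm]
    refine Finset.sum_congr rfl fun o _ => ?_
    rw [Finset.sum_eq_single (pat o u)]
    · rw [ind_pos rfl, one_mul]
    · intro r _ hr; rw [ind_neg (Ne.symm hr)]; ring
    · simp
  have hsupp : ∀ i u r Y, ∑ o, w o * (ind (pat o u = r) * ind (o.1 u i = Y)) ≠ 0 →
      ∃ o : O, pat o u = r ∧ o.1 u i = Y := by
    intro i u r Y h
    obtain ⟨o, _, ho⟩ := Finset.exists_ne_zero_of_sum_ne_zero h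
    refine ⟨o, ?_, ?_⟩
    · by_contra hc; rw [ind_neg hc] at ho; simp at ho
    · by_contra hc; rw [ind_neg hc] at ho; simp at ho
  have hsingle : ∀ (o : O) i u Y, ind (o.1 u i = Y) ≤ ∑ i, ind (o.1 u i = Y) := fun o i u Y =>
    Finset.single_le_sum (f := fun i => ind (o.1 u i = Y)) (fun _ _ => ind_nonneg _) (mem_univ i)
  refine ⟨fun i u r Y => ∑ o, w o * (ind (pat o u = r) * ind (o.1 u i = Y)),
    fun u r => ∑ o, w o * ind (pat o u = r), fun i u r Y => ?_, fun i u r => ?_, fun u => ?_,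
    fun u r h => ?_, fun u r Y h => ?_, fun u r Y h => ?_, fun i u hu Y => ?_, fun i Y => ?_⟩
  · exact Finset.sum_nonneg fun o _ => mul_nonneg (hw0 o) (mul_nonneg (ind_nonneg _) (ind_nonneg _))
  · rw [Finset.sum_comm]
    refine Finset.sum_congr rfl fun o _ => ?_
    rw [← Finset.mul_sum, hpt (fun _ => ind (pat o u = r))]
  · rw [Finset.sum_comm, ← hw1]
    refine Finset.sum_congr rfl fun o _ => ?_
    rw [Finset.sum_eq_single (pat o u)]
    · rw [ind_pos rfl, mul_one]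
    · intro r _ hr; rw [ind_neg (Ne.symm hr)]; ring
    · simp
  · obtain ⟨o, _, ho⟩ := Finset.exists_ne_zero_of_sum_ne_zero h
    have : pat o u = r := by
      by_contra hc; rw [ind_neg hc] at ho; simp at ho
    rw [← this]; exact Finset.filter_subset _ _
  · obtain ⟨o, rfl, rfl⟩ := hsupp _ _ _ _ h
    intro x hx
    exact (Finset.mem_filter.1 (Finset.mem_inter.1 hx).2).2
  · obtain ⟨o, rfl, rfl⟩ := hsupp _ _ _ _ h
    intro x hx
    obtain ⟨hx1, hx2⟩ := Finset.mem_sdiff.1 hx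
    rcases o.2 u x hx1 with h | h
    · exact absurd (Finset.mem_filter.2 ⟨hx1, h⟩) hx2
    · exact h
  · rw [hmarg]
    have := hw (some u, Y)
    simp only [A, hu, if_true, mul_sub] at this
    rw [Finset.sum_sub_distrib, ← Finset.sum_mul, hw1] at this
    have h2 : ∑ o, w o * ind (o.1 u i = Y) ≤ ∑ o, w o * ∑ i, ind (o.1 u i = Y) :=
      Finset.sum_le_sum fun o _ => mul_le_mul_of_nonneg_left (hsingle o i u Y) (hw0 o)
    linarith
  · simp_rw [hmarg]
    have := hw (none, Y)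
    simp only [A, mul_sub] at this
    rw [Finset.sum_sub_distrib, ← Finset.sum_mul, hw1] at this
    have h2 : ∑ u ∈ T, ∑ o, w o * ind (o.1 u i = Y)
        ≤ ∑ o, w o * ∑ u ∈ T, ∑ i, ind (o.1 u i = Y) := by
      rw [Finset.sum_comm]
      refine Finset.sum_le_sum fun o _ => ?_
      rw [← Finset.mul_sum]
      exact mul_le_mul_of_nonneg_left (Finset.sum_le_sum fun u _ => hsingle o i u Y) (hw0 o)
    linarith

/-- Method of conditional expectations for a product of independent choices. -/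
lemma greedy {U P Ω : Type*} [DecidableEq U] [Fintype P] [Nonempty P] [Fintype Ω]
    (q : U → P → ℝ) (hq0 : ∀ u r, 0 ≤ q u r) (hq1 : ∀ u, ∑ r, q u r = 1) (F : U → P → Ω → ℝ)
    (T : Finset U) : ∀ μ : Ω → ℝ, ∃ ρ : U → P, (∀ u ∈ T, q u (ρ u) ≠ 0) ∧
      ∑ ω, μ ω * ∏ u ∈ T, F u (ρ u) ω ≤ ∑ ω, μ ω * ∏ u ∈ T, ∑ r, q u r * F u r ω := by
  induction T using Finset.induction_on with
  | empty => exact fun μ => ⟨fun _ => Classical.arbitrary P, by simp, by simp⟩
  | insert a T ha ih =>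
    intro μ
    set G : P → ℝ := fun r => ∑ ω, μ ω * F a r ω * ∏ u ∈ T, ∑ r, q u r * F u r ω with hG
    have hsum : ∑ r, q a r * G r = ∑ ω, μ ω * ∏ u ∈ insert a T, ∑ r, q u r * F u r ω := by
      simp only [hG, Finset.mul_sum, Finset.prod_insert ha]
      rw [Finset.sum_comm]
      refine Finset.sum_congr rfl fun ω _ => ?_
      rw [Finset.sum_mul, Finset.mul_sum]
      exact Finset.sum_congr rfl fun r _ => by ring
    have hex : ∃ r, q a r ≠ 0 ∧ G r ≤ ∑ r, q a r * G r := by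
      by_contra hc
      push Not at hc
      set M := ∑ r, q a r * G r with hM
      have h1 : ∑ r, q a r * M < ∑ r, q a r * G r := by
        refine Finset.sum_lt_sum (fun r _ => ?_) ?_
        · by_cases hr : q a r = 0
          · simp [hr]
          · exact mul_le_mul_of_nonneg_left (hc r hr).le (hq0 a r)
        · obtain ⟨r, _, hr⟩ := Finset.exists_ne_zero_of_sum_ne_zero
            (s := univ) (f := q a) (by rw [hq1]; norm_num)
          exact ⟨r, mem_univ _, mul_lt_mul_of_pos_left (hc r hr)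
            (lt_of_le_of_ne (hq0 a r) (Ne.symm hr))⟩
      rw [← Finset.sum_mul, hq1, one_mul] at h1
      exact lt_irrefl _ h1
    obtain ⟨r, hr, hle⟩ := hex
    obtain ⟨ρ, hρ, hle2⟩ := ih (fun ω => μ ω * F a r ω)
    have hup : ∀ u ∈ T, Function.update ρ a r u = ρ u := fun u hu =>
      Function.update_of_ne (by rintro rfl; exact ha hu) _ _
    refine ⟨Function.update ρ a r, fun u hu => ?_, ?_⟩
    · rcases Finset.mem_insert.1 hu with rfl | hu
      · simpa using hr
      · rw [hup u hu]; exact hρ u hu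
    · rw [← hsum]
      refine le_trans (le_of_eq ?_) (hle2.trans hle)
      refine Finset.sum_congr rfl fun ω _ => ?_
      rw [Finset.prod_insert ha, Function.update_self,
        Finset.prod_congr rfl (fun u hu => by rw [hup u hu]), mul_assoc]

omit [Fintype W] in
/-- Discarding the rare patterns. -/
lemma exists_trim [Fintype W] (s : Finset W) {κ : ℕ} (hκ : s.card ≤ κ) (q : Finset W → ℝ)
    (hq0 : ∀ r, 0 ≤ q r) (hq1 : ∑ r, q r = 1) (hs : ∀ r, q r ≠ 0 → r ⊆ s) :
    ∃ q' : Finset W → ℝ, (∀ r, 0 ≤ q' r) ∧ ∑ r, q' r = 1 ∧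
      ∀ r, q' r ≤ 2 * q r ∧ (q' r ≠ 0 → 1 ≤ 2 * 2 ^ κ * q r) := by
  classical
  set M : ℝ := ∑ r, (if 1 ≤ 2 * 2 ^ κ * q r then q r else 0) with hM
  have hM2 : 1 / 2 ≤ M := by
    have h1 : ∀ r, q r - (if 1 ≤ 2 * 2 ^ κ * q r then q r else 0)
        ≤ if r ∈ s.powerset then 1 / (2 * 2 ^ κ) else 0 := by
      intro r
      by_cases hr : r ∈ s.powerset
      · rw [if_pos hr]
        split_ifs with h
        · rw [sub_self]; positivity
        · rw [sub_zero, le_div_iff₀ (by positivity)]; linarith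
      · have : q r = 0 := by
          by_contra hc; exact hr (Finset.mem_powerset.2 (hs r hc))
        simp [hr, this]
    have h2 := Finset.sum_le_sum (s := univ) fun r _ => h1 r
    rw [Finset.sum_sub_distrib, hq1, Finset.sum_ite_mem, Finset.univ_inter, Finset.sum_const,
      Finset.card_powerset, nsmul_eq_mul] at h2
    have h3 : ((2 ^ s.card : ℕ) : ℝ) * (1 / (2 * 2 ^ κ)) ≤ 1 / 2 := by
      have : ((2 ^ s.card : ℕ) : ℝ) ≤ 2 ^ κ := by
        push_cast; exact pow_le_pow_right₀ (by norm_num) hκ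
      rw [mul_one_div, div_le_iff₀ (by positivity)]; linarith
    linarith
  have hM0 : 0 < M := by linarith
  refine ⟨fun r => (if 1 ≤ 2 * 2 ^ κ * q r then q r else 0) / M, fun r => ?_, ?_, fun r => ⟨?_, ?_⟩⟩
  · refine div_nonneg ?_ hM0.le
    split_ifs
    · exact hq0 r
    · exact le_rfl
  · rw [← Finset.sum_div, ← hM, div_self hM0.ne']
  · rw [div_le_iff₀ hM0]
    have := hq0 r
    split_ifs <;> nlinarith
  · intro h
    by_contra hc
    exact h (by simp only [if_neg hc, zero_div])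

theorem split_match {p : ℝ} (h0 : 0 < p) (h1 : p < 1) (T : Finset W) (σ : W → Finset W)
    (N κ : ℕ) (Q : ℝ) (hN : 0 < N) (hκ : ∀ u ∈ T, (σ u).card ≤ κ) (hQ : 1 ≤ Q * p ^ κ)
    (hT : 1024 * T.card ≤ N)
    (hspread : ∀ S : Finset W, S.Nonempty →
      ((T.filter (fun u => S ⊆ σ u)).card : ℝ) ≤ N * p ^ S.card / 4096)
    (hbig : 512 * Q * 2 ^ κ ≤ Real.exp (N / (2048 * Q * 2 ^ κ))) :
    ∃ ρ : W → Finset W,
      Pr p (fun ξ => ¬ MatchEv T (fun u => σ u ∩ ρ u) N ξ)
        ≤ T.card * Real.exp (-(N / (1024 * Q * 2 ^ κ))) ∧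
      Pr p (fun ξ => ¬ MatchEv T (fun u => σ u \ ρ u) N ξ)
        ≤ T.card * Real.exp (-(N / (1024 * Q * 2 ^ κ))) := by
  classical
  have hQ1 : 1 ≤ Q := by simpa using inv_pow_le h0 h1.le hQ (Nat.zero_le κ)
  have hNr : (0 : ℝ) < N := by exact_mod_cast hN
  obtain ⟨π, q, hπ0, hπq, hq1, hqs, hπ1, hπ2, hu64, hall⟩ :=
    primal h0 h1 T σ N κ Q hκ hQ hT hspread
  have hq0 : ∀ u r, 0 ≤ q u r := fun u r => by
    rw [← hπq true u r]; exact Finset.sum_nonneg fun Y _ => hπ0 _ _ _ _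
  have hex : ∀ u, ∃ q' : Finset W → ℝ, (∀ r, 0 ≤ q' r) ∧ ∑ r, q' r = 1 ∧
      (u ∈ T → ∀ r, q' r ≤ 2 * q u r ∧ (q' r ≠ 0 → 1 ≤ 2 * 2 ^ κ * q u r)) := by
    intro u
    by_cases hu : u ∈ T
    · obtain ⟨q', h1, h2, h3⟩ := exists_trim (σ u) (hκ u hu) (q u) (hq0 u) (hq1 u) (hqs u)
      exact ⟨q', h1, h2, fun _ => h3⟩
    · exact ⟨q u, hq0 u, hq1 u, fun h => absurd h hu⟩
  choose q' hq'0 hq'1 hq' using hex
  have hμ : ∀ Y : W → Bool, 0 < bernoulliWeight p Y := bw_pos h0 h1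
  set a : ℝ := 8 / N with ha
  have ha0 : 0 < a := by positivity
  set η : ℝ := 1024 * Q * 2 ^ κ / N with hη
  have hη0 : 0 < η := by positivity
  set θ : ℝ := 1 / η with hθ
  have hθ0 : 0 < θ := by positivity
  have hθη : θ * η = 1 := by rw [hθ]; field_simp
  let y : Bool → W → Finset W → (W → Bool) → ℝ := fun i u r Y =>
    a * π i u r Y / (q u r * bernoulliWeight p Y)
  have hy0 : ∀ i u r Y, 0 ≤ y i u r Y := fun i u r Y =>
    div_nonneg (mul_nonneg ha0.le (hπ0 _ _ _ _)) (mul_nonneg (hq0 _ _) (hμ Y).le)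
  have hqpos : ∀ u ∈ T, ∀ r, q' u r ≠ 0 → 0 < q u r := by
    intro u hu r hr
    have := (hq' u hu r).2 hr
    by_contra hc
    have : 2 * 2 ^ κ * q u r ≤ 0 := mul_nonpos_of_nonneg_of_nonpos (by positivity) (not_lt.1 hc)
    linarith
  have hyη : ∀ i, ∀ u ∈ T, ∀ r, q' u r ≠ 0 → ∀ Y, y i u r Y ≤ η := by
    intro i u hu r hr Y
    have h2 := (hq' u hu r).2 hr
    have h3 : π i u r Y ≤ 64 * Q * bernoulliWeight p Y :=
      (Finset.single_le_sum (f := fun r => π i u r Y) (fun r _ => hπ0 _ _ _ _)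
        (mem_univ r)).trans (hu64 i u hu Y)
    simp only [y]
    rw [div_le_iff₀ (mul_pos (hqpos u hu r hr) (hμ Y))]
    have e : η * (q u r * bernoulliWeight p Y)
        = a * (64 * Q * bernoulliWeight p Y) * (2 * 2 ^ κ * q u r) := by
      rw [hη, ha]; field_simp; ring
    rw [e]
    have h4 : 0 ≤ a * (64 * Q * bernoulliWeight p Y) := by have := hμ Y; positivity
    calc a * π i u r Y ≤ a * (64 * Q * bernoulliWeight p Y) := by gcongr
      _ ≤ _ := le_mul_of_one_le_right h4 h2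
  have hymean : ∀ i, ∀ u ∈ T, ∀ r, q' u r ≠ 0 → Ex p (y i u r) = a := by
    intro i u hu r hr
    have h2 := hqpos u hu r hr
    unfold Ex
    rw [Finset.sum_congr rfl (g := fun Y => a / q u r * π i u r Y) fun Y _ => by
      simp only [y]; have := hμ Y; field_simp, ← Finset.mul_sum, hπq]
    field_simp
  have hfac : ∀ i, ∀ u ∈ T, ∀ Y, ∑ r, q' u r * Real.exp (θ * y i u r Y)
      ≤ Real.exp (4 * θ * a / bernoulliWeight p Y * ∑ r, π i u r Y) := by
    intro i u hu Y
    have h2 : ∀ r, q' u r * Real.exp (θ * y i u r Y)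
        ≤ q' u r + 4 * θ * a / bernoulliWeight p Y * π i u r Y := by
      intro r
      have hm := hμ Y
      have hp0 := hπ0 i u r Y
      by_cases hr : q' u r = 0
      · rw [hr]; simp only [zero_mul, zero_add]; positivity
      · have h3 := exp_le_one_add (mul_nonneg hθ0.le (hy0 i u r Y))
          ((mul_le_mul_of_nonneg_left (hyη i u hu r hr Y) hθ0.le).trans hθη.le)
        have h4 := hqpos u hu r hr
        have h5 : q u r * y i u r Y = a / bernoulliWeight p Y * π i u r Y := by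
          simp only [y]; field_simp
        have h6 : q' u r * y i u r Y ≤ 2 * q u r * y i u r Y :=
          mul_le_mul_of_nonneg_right (hq' u hu r).1 (hy0 _ _ _ _)
        calc q' u r * Real.exp (θ * y i u r Y) ≤ q' u r * (1 + 2 * (θ * y i u r Y)) :=
              mul_le_mul_of_nonneg_left h3 (hq'0 u r)
          _ = q' u r + 2 * θ * (q' u r * y i u r Y) := by ring
          _ ≤ q' u r + 2 * θ * (2 * q u r * y i u r Y) := by gcongr
          _ = _ := by rw [mul_assoc 2 (q u r), h5]; ring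
    refine (Finset.sum_le_sum fun r _ => h2 r).trans ?_
    rw [Finset.sum_add_distrib, hq'1, ← Finset.mul_sum]
    linarith [Real.add_one_le_exp (4 * θ * a / bernoulliWeight p Y * ∑ r, π i u r Y)]
  obtain ⟨ρ, hρ, hle⟩ := greedy q' hq'0 hq'1
    (fun u r (ω : Bool × (W → Bool)) => Real.exp (θ * y ω.1 u r ω.2)) T
    (fun ω => bernoulliWeight p ω.2)
  have hrhs : ∑ ω : Bool × (W → Bool), bernoulliWeight p ω.2 *
      ∏ u ∈ T, ∑ r, q' u r * Real.exp (θ * y ω.1 u r ω.2) ≤ 2 * Real.exp (θ / 2) := by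
    have h2 : ∀ ω : Bool × (W → Bool),
        ∏ u ∈ T, ∑ r, q' u r * Real.exp (θ * y ω.1 u r ω.2) ≤ Real.exp (θ / 2) := by
      rintro ⟨i, Y⟩
      refine (Finset.prod_le_prod (fun u _ => Finset.sum_nonneg fun r _ =>
        mul_nonneg (hq'0 u r) (Real.exp_pos _).le) (fun u hu => hfac i u hu Y)).trans ?_
      rw [← Real.exp_sum, ← Finset.mul_sum]
      refine Real.exp_le_exp.2 ?_
      have hm := hμ Y
      calc 4 * θ * a / bernoulliWeight p Y * ∑ u ∈ T, ∑ r, π i u r Y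
          ≤ 4 * θ * a / bernoulliWeight p Y * (N / 64 * bernoulliWeight p Y) :=
            mul_le_mul_of_nonneg_left (hall i Y) (by positivity)
        _ = θ / 2 := by rw [ha]; field_simp; ring
    refine (Finset.sum_le_sum fun ω _ => mul_le_mul_of_nonneg_left (h2 ω) (hμ ω.2).le).trans ?_
    rw [← Finset.sum_mul, Fintype.sum_prod_type]
    have h3 : ∑ Y : W → Bool, bernoulliWeight p Y = 1 := by
      have := Ex_one (ι := W) p
      simpa [Ex] using this
    simp [h3]
  have hload : ∀ i, Pr p (fun Y => ¬ ∑ v ∈ T, y i v (ρ v) Y ≤ 1) ≤ 2 * Real.exp (-(θ / 2)) := by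
    intro i
    have h2 : Pr p (fun Y => ¬ ∑ v ∈ T, y i v (ρ v) Y ≤ 1)
        ≤ Ex p (fun Y => Real.exp (-θ) * ∏ u ∈ T, Real.exp (θ * y i u (ρ u) Y)) := by
      refine Ex_mono h0.le h1.le fun Y => ind_le_of (by positivity) fun h => ?_
      rw [← Real.exp_sum, ← Real.exp_add, ← Finset.mul_sum]
      refine Real.one_le_exp ?_
      nlinarith [not_le.1 h]
    have h3 : Ex p (fun Y => ∏ u ∈ T, Real.exp (θ * y i u (ρ u) Y)) ≤ 2 * Real.exp (θ / 2) := by
      refine le_trans ?_ (hle.trans hrhs)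
      rw [Fintype.sum_prod_type]
      exact Finset.single_le_sum (f := fun i => ∑ Y : W → Bool, bernoulliWeight p Y *
        ∏ u ∈ T, Real.exp (θ * y i u (ρ u) Y)) (fun i _ => Finset.sum_nonneg fun Y _ =>
          mul_nonneg (hμ Y).le (by positivity)) (mem_univ i)
    rw [Ex_const_mul] at h2
    calc _ ≤ Real.exp (-θ) * (2 * Real.exp (θ / 2)) := h2.trans (by gcongr)
      _ = 2 * Real.exp (-(θ / 2)) := by
        rw [mul_left_comm, ← Real.exp_add]; congr 2; ring
  have hθN : θ = N / (1024 * Q * 2 ^ κ) := by rw [hθ, hη]; field_simp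
  have half : ∀ (i : Bool) (τ : W → Finset W),
      (∀ u Y, π i u (ρ u) Y ≠ 0 → ∀ x ∈ τ u, Y x = true) →
      Pr p (fun ξ => ¬ MatchEv T τ N ξ) ≤ T.card * Real.exp (-(N / (1024 * Q * 2 ^ κ))) := by
    intro i τ hτ
    rw [← hθN, hθ]
    refine oneStep h0.le h1.le T τ N (fun u => y i u (ρ u)) η hη0 (fun u _ Y => hy0 _ _ _ _)
      (fun u hu Y => hyη i u hu _ (hρ u hu) Y) (fun u _ Y hne => hτ u Y fun h => hne ?_)
      (fun u hu => ?_)
    · simp only [y, h, mul_zero, zero_div]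
    · have h2 : Ex p (fun Y => y i u (ρ u) Y - η * ind (¬ ∑ v ∈ T, y i v (ρ v) Y ≤ 1))
          ≤ Ex p (fun Y => y i u (ρ u) Y * ind (∑ v ∈ T, y i v (ρ v) Y ≤ 1)) := by
        refine Ex_mono h0.le h1.le fun Y => ?_
        by_cases hl : ∑ v ∈ T, y i v (ρ v) Y ≤ 1
        · rw [ind_pos hl, ind_neg (not_not.2 hl)]; simp
        · rw [ind_neg hl, ind_pos hl]; linarith [hyη i u hu _ (hρ u hu) Y]
      rw [Ex_sub, Ex_const_mul, hymean i u hu _ (hρ u hu)] at h2
      have h3 := hload i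
      unfold Pr at h3
      have h4 : θ / 2 = N / (2048 * Q * 2 ^ κ) := by rw [hθN]; field_simp; ring
      have h5 : 512 * Q * 2 ^ κ * Real.exp (-(θ / 2)) ≤ 1 := by
        rw [Real.exp_neg, ← div_eq_mul_inv, div_le_one (Real.exp_pos _), h4]; exact hbig
      have h6 : N * a = 8 := by rw [ha]; field_simp
      have h7 : N * η = 1024 * Q * 2 ^ κ := by rw [hη]; field_simp
      have h8 : N * (η * Ex p fun Y => ind (¬ ∑ v ∈ T, y i v (ρ v) Y ≤ 1))
          ≤ 1024 * Q * 2 ^ κ * (2 * Real.exp (-(θ / 2))) := by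
        rw [← mul_assoc, h7]; gcongr
      have h9 := mul_le_mul_of_nonneg_left h2 hNr.le
      rw [mul_sub, h6] at h9
      linarith
  exact ⟨ρ, half true _ fun u Y h => hπ1 u _ Y h, half false _ fun u Y h => hπ2 u _ Y h⟩

end Crest.Agent.R052.Emb
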