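import Crest.Agent.R052.EmbStarPiece
import Crest.Agent.R052.EmbCover
import Crest.Agent.R052.Split

/-!
The three kinds of pieces: star forests, bounded in-degree pieces and bipartite pieces.
-/

set_option autoImplicit false

namespace Crest.Agent.R052.Emb

open Finset Crest.FinProb Crest.Agent.Lib.BiasedCube Crest.CombinatoricsR.RandomGraph

variable {W : Type*} [Fintype W] [DecidableEq W]

omit [Fintype W] [DecidableEq W] in
lemma exists_classes (s : Finset W) (K m : ℕ) (hK : 0 < K) (hm : 0 < m) (h : s.card ≤ K * m) :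
    ∃ c : W → Fin K, ∀ a, (s.filter (fun w => c w = a)).card ≤ m := by
  obtain ⟨f, hf1, hf2⟩ := exists_injOn_finset s (range (K * m)) (by simpa using h)
  refine ⟨fun w => ⟨f w % K, Nat.mod_lt _ hK⟩, fun a => ?_⟩
  rw [← Finset.card_range m]
  refine Finset.card_le_card_of_injOn (fun w => f w / K) (fun w hw => ?_) (fun w hw w' hw' he => ?_)
  · have := Finset.mem_range.1 (hf1 w (Finset.mem_filter.1 hw).1)
    simp only [Finset.coe_range, Set.mem_Iio]
    exact Nat.div_lt_of_lt_mul this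
  · obtain ⟨h1, h2⟩ := Finset.mem_filter.1 hw
    obtain ⟨h3, h4⟩ := Finset.mem_filter.1 hw'
    have h5 : f w % K = f w' % K := by
      have := h2.trans h4.symm
      simpa using congrArg Fin.val this
    refine hf2 h1 h3 ?_
    rw [← Nat.div_add_mod (f w) K, ← Nat.div_add_mod (f w') K, h5]
    simp only at he
    rw [he]

lemma mul_exp_neg_le_half {a x : ℝ} (hx : 0 ≤ x) (h : 4 * a ≤ x ^ 2) :
    a * Real.exp (-x) ≤ 1 / 2 := by
  have := Real.quadratic_le_exp_of_nonneg hx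
  rw [Real.exp_neg, ← div_eq_mul_inv, div_le_iff₀ (Real.exp_pos _)]
  linarith

omit [Fintype W] [DecidableEq W] in
lemma MatchEv.mono {T : Finset W} {τ τ' : W → Finset W} {N : ℕ} {ξ : Fin N × W → Bool}
    (h : ∀ u ∈ T, τ u ⊆ τ' u) (hm : MatchEv T τ' N ξ) : MatchEv T τ N ξ := by
  obtain ⟨f, hf, hh⟩ := hm
  exact ⟨f, hf, fun u w hw => hh u w (h u u.2 hw)⟩

lemma piece_bip {P : ℝ} (h0 : 0 ≤ P) (h1 : P ≤ 1) (n N : ℕ) (hn : 0 < n) (B T : Finset W)
    (τ : W → Finset W) (hBT : Disjoint B T) (hB : ∀ u ∈ B, τ u = ∅) (hT : ∀ u ∈ T, τ u ⊆ B)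
    (hN : B.card + N ≤ n) :
    Pr P (fun ω => ¬ EmbEv n (B ∪ T) τ ω) ≤ Pr P (fun ξ => ¬ MatchEv T τ N ξ) := by
  have h2 := extend_step h0 h1 n B.card N hN B T τ hBT (fun u hu => by simp [hB u hu]) hT
  have h3 := extend_step h0 h1 n 0 B.card (by omega) ∅ B τ (by simp) (by simp)
    (fun u hu => by simp [hB u hu])
  have h4 : Pr P (fun ω => ¬ EmbLt n 0 (∅ : Finset W) τ ω) = 0 := by
    have : ∀ ω, EmbLt n 0 (∅ : Finset W) τ ω := fun ω =>
      ⟨fun _ => ⟨0, hn⟩, by simp, by simp, by simp⟩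
    unfold Pr
    simp_rw [ind_neg (not_not.2 (this _))]
    rw [Ex_const]
  have h5 : Pr P (fun ξ => ¬ MatchEv B τ B.card ξ) = 0 := by
    unfold Pr
    simp_rw [ind_neg (not_not.2 (matchEv_of_empty B τ B.card le_rfl hB _))]
    rw [Ex_const]
  rw [h4, h5, zero_add, Finset.empty_union] at h3
  have h6 : Pr P (fun ω => ¬ EmbEv n (B ∪ T) τ ω)
      ≤ Pr P (fun ω => ¬ EmbLt n (B.card + N) (B ∪ T) τ ω) := by
    refine Pr_mono h0 h1 fun ω hno hyes => hno ?_
    obtain ⟨f, h1, _, h3⟩ := hyes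
    exact ⟨f, h1, h3⟩
  linarith

lemma piece_indeg {P t : ℝ} (h0 : 0 < P) (h1 : P ≤ 1) (n κ s : ℕ) (ht : 16 ≤ t)
    (htn : t ^ 64 = n) (hκ : (κ : ℝ) ≤ t) (hQ : 1 ≤ t ^ 16 * P ^ κ) (hs : (s : ℝ) ≤ 8192 * t ^ 2)
    (V : Finset W) (τ : W → Finset W) (lay : W → ℕ)
    (hτ : ∀ u ∈ V, ∀ w ∈ τ u, w ∈ V ∧ lay w < lay u) (hlay : ∀ u ∈ V, lay u < s)
    (hcard : ∀ u ∈ V, (τ u).card ≤ κ)
    (hdeg : ∀ w, ((V.filter (fun u => w ∈ τ u)).card : ℝ) ≤ t ^ 40) (hV : 64 * V.card ≤ n) :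
    Pr P (fun ω => ¬ EmbEv n V τ ω) ≤ 1 / 2 := by
  have ht0 : 0 < t := by linarith
  have ht1 : 1 ≤ t := by linarith
  have hn : 0 < n := by
    have : (0 : ℝ) < n := by rw [← htn]; positivity
    exact_mod_cast this
  set g : ℕ := ⌈t ^ 58⌉₊ with hg
  have hg1 : t ^ 58 ≤ g := Nat.le_ceil _
  have hg2 : (g : ℝ) ≤ 2 * t ^ 58 := by
    have := (Nat.ceil_lt_add_one (show 0 ≤ t ^ 58 by positivity)).le
    have h2 : 1 ≤ t ^ 58 := one_le_pow₀ ht1
    linarith
  have hsum : ∑ j ∈ range s, (V.filter (fun u => lay u = j)).card = V.card :=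
    (Finset.card_eq_sum_card_fiberwise (f := lay) (fun u hu => by
      simpa using hlay u hu)).symm
  have hVr : 64 * (V.card : ℝ) ≤ t ^ 64 := by rw [htn]; exact_mod_cast hV
  refine (layered' h0.le h1 n hn V τ lay
    (fun j => 16 * (V.filter (fun u => lay u = j)).card + g) hτ s ?_ hlay).trans ?_
  · rw [Finset.sum_add_distrib, ← Finset.mul_sum, hsum, Finset.sum_const, Finset.card_range,
      smul_eq_mul]
    have h2 : (s : ℝ) * g ≤ t ^ 64 / 2 := by
      have h3 : (16 : ℝ) ^ 4 ≤ t ^ 4 := by gcongr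
      calc (s : ℝ) * g ≤ (8192 * t ^ 2) * (2 * t ^ 58) := by gcongr
        _ = 16384 * t ^ 60 := by ring
        _ ≤ (t ^ 4 / 2) * t ^ 60 := by gcongr; linarith
        _ = t ^ 64 / 2 := by ring
    have h4 : (16 * V.card + s * g : ℝ) ≤ n := by
      rw [← htn]
      have : 0 ≤ t ^ 64 := by positivity
      linarith
    exact_mod_cast h4
  · have h2 : ∀ j ∈ range s, Pr P (fun ξ => ¬ MatchEv (V.filter (fun u => lay u = j)) τ
        (16 * (V.filter (fun u => lay u = j)).card + g) ξ)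
        ≤ (V.filter (fun u => lay u = j)).card * Real.exp (-(t ^ 42 / 8)) := by
      intro j _
      have hgpos : 0 < g := by
        have : (0 : ℝ) < g := lt_of_lt_of_le (by positivity) hg1
        exact_mod_cast this
      refine (match_of_indeg h0 h1 _ τ _ κ (t ^ 40) (t ^ 16) (by omega)
        (fun u hu => hcard u (Finset.mem_filter.1 hu).1) (fun w => ?_) hQ ?_).trans ?_
      · refine le_trans ?_ (hdeg w)
        exact_mod_cast Finset.card_le_card
          (Finset.filter_subset_filter _ (Finset.filter_subset _ _))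
      · push_cast
        have h3 : 16 * (κ * t ^ 40 * t ^ 16) ≤ t ^ 58 := by
          calc 16 * (κ * t ^ 40 * t ^ 16) ≤ t * (t * t ^ 40 * t ^ 16) := by gcongr
            _ = t ^ 58 := by ring
        linarith
      · refine mul_le_mul_of_nonneg_left (Real.exp_le_exp.2 (neg_le_neg ?_)) (Nat.cast_nonneg _)
        rw [div_le_div_iff₀ (by norm_num) (by positivity)]
        push_cast
        have h3 : t ^ 42 * (8 * t ^ 16) = t ^ 58 * 8 := by ring
        have h4 : (0 : ℝ) ≤ (V.filter (fun u => lay u = j)).card := Nat.cast_nonneg _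
        rw [h3]; nlinarith
    refine (Finset.sum_le_sum h2).trans ?_
    rw [← Finset.sum_mul, ← Nat.cast_sum, hsum]
    refine mul_exp_neg_le_half (by positivity) ?_
    have h3 : (16 : ℝ) ^ 20 ≤ t ^ 20 := by gcongr
    calc 4 * (V.card : ℝ) ≤ t ^ 64 * 1 := by
          have : (0 : ℝ) ≤ V.card := Nat.cast_nonneg _
          linarith
      _ ≤ t ^ 64 * (t ^ 20 / 64) := by gcongr; linarith
      _ = _ := by ring

lemma piece_star {P r : ℝ} {n : ℕ} (hn : 64 ≤ n) (h0 : 0 < P) (h1 : P < 1) (hr0 : 0 ≤ r)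
    (hr : 2 ^ 36 * r ≤ P) {H : SimpleGraph W} (hns : ¬ Small n H r)
    (τ : W → Finset W) (T B : Finset W) (hτ : ∀ u, ∀ w ∈ τ u, H.Adj u w ∧ u ∈ T ∧ w ∈ B)
    (hTB : Disjoint T B) (hone : ∀ u, (τ u).card ≤ 1) (hT : 64 * T.card ≤ n)
    (hB : 64 * B.card ≤ n) :
    ∃ V : Finset W, (∀ u, ∀ w ∈ τ u, u ∈ V ∧ w ∈ V) ∧
      Pr P (fun ω => ¬ EmbEv n V τ ω) ≤ 1 / 2 := by
  let X : Finset W := univ.biUnion τ
  let lv : W → Finset W := fun x => univ.filter (fun u => x ∈ τ u)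
  have hlv : ∀ x u, u ∈ lv x ↔ x ∈ τ u := by intro x u; simp [lv]
  have hXm : ∀ x, x ∈ X ↔ ∃ u, x ∈ τ u := by intro x; simp [X]
  have hXB : X ⊆ B := fun x hx => by
    obtain ⟨u, hu⟩ := (hXm x).1 hx
    exact (hτ u x hu).2.2
  have hlvT : ∀ x, lv x ⊆ T := fun x u hu => (hτ u x ((hlv x u).1 hu)).2.1
  have hdisj : ∀ x ∈ X, ∀ x' ∈ X, x ≠ x' → Disjoint (lv x) (lv x') := by
    intro x _ x' _ hne
    rw [Finset.disjoint_left]
    intro u hu hu'
    exact hne (Finset.card_le_one.1 (hone u) x ((hlv x u).1 hu) x' ((hlv x' u).1 hu'))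
  have hX : ∀ x, Disjoint X (lv x) := fun x =>
    Finset.disjoint_of_subset_left hXB (Finset.disjoint_of_subset_right (hlvT x) hTB.symm)
  have hr1 : r ≤ 1 := by nlinarith
  refine ⟨X ∪ X.biUnion lv, fun u w hw => ?_, ?_⟩
  · have hwX : w ∈ X := (hXm w).2 ⟨u, hw⟩
    exact ⟨Finset.mem_union_right _ (Finset.mem_biUnion.2 ⟨w, hwX, (hlv w u).2 hw⟩),
      Finset.mem_union_left _ hwX⟩
  · refine star_piece n hn h0 h1 hr0 hr X lv hdisj (fun x _ => hX x) _ τ subset_rfl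
      (fun u _ w hw => ⟨(hXm w).2 ⟨u, hw⟩, (hlv w u).2 hw⟩) ?_ ?_ (fun x hx => ?_) (fun d _ => ?_)
    · have := Finset.card_le_card hXB; omega
    · rw [← Finset.card_biUnion (fun x hx x' hx' hne => hdisj x hx x' hx' hne)]
      have : (X.biUnion lv).card ≤ T.card :=
        Finset.card_le_card (Finset.biUnion_subset.2 fun x _ => hlvT x)
      omega
    · obtain ⟨u, hu⟩ := (hXm x).1 hx
      exact ⟨u, (hlv x u).2 hu⟩
    · exact stars_count hr0 hr1 hns _ lv d (fun x hx => (Finset.mem_filter.1 hx).2)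
        (fun x _ => Finset.disjoint_of_subset_left (Finset.filter_subset _ _) (hX x))
        (fun x _ u hu => (hτ u x ((hlv x u).1 hu)).1.symm)

/-- The split of a bipartite piece in the dense case. -/
lemma piece_split {P r t : ℝ} {n κ : ℕ} (h0 : 0 < P) (h1 : P < 1) (hr0 : 0 ≤ r)
    (hr : 2 ^ 36 * r ≤ P) (ht : 16 ≤ t) (htn : t ^ 64 = n) (hκ : (κ : ℝ) ≤ t)
    (hκ2 : (2 : ℝ) ^ κ ≤ 2 * t) (hQ : 1 ≤ t ^ 16 * r ^ κ)
    {H : SimpleGraph W} (hns : ¬ Small n H r) (T : Finset W) (σ : W → Finset W)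
    (hσ : ∀ u ∈ T, ∀ w ∈ σ u, H.Adj u w) (hcard : ∀ u ∈ T, (σ u).card ≤ κ)
    (hT : 1024 * T.card ≤ n / 2) :
    ∃ ρ : W → Finset W,
      Pr P (fun ξ => ¬ MatchEv T (fun u => σ u ∩ ρ u) (n / 2) ξ) ≤ 1 / 2 ∧
      Pr P (fun ξ => ¬ MatchEv T (fun u => σ u \ ρ u) (n / 2) ξ) ≤ 1 / 2 := by
  have ht0 : 0 < t := by linarith
  have ht1 : 1 ≤ t := by linarith
  have hr1 : r ≤ 1 := by nlinarith
  have hrP : r ≤ P := by nlinarith
  have hn2 : 2 ≤ n := by
    have h2 : t ^ 1 ≤ t ^ 64 := pow_le_pow_right₀ ht1 (by norm_num)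
    have : (2 : ℝ) ≤ n := by rw [← htn]; linarith
    exact_mod_cast this
  have hN : t ^ 64 / 4 ≤ ((n / 2 : ℕ) : ℝ) := by
    have h2 : n ≤ 4 * (n / 2) := by omega
    have h3 : (n : ℝ) ≤ 4 * ((n / 2 : ℕ) : ℝ) := by exact_mod_cast h2
    rw [htn]; linarith
  have h30 : (2 : ℝ) ^ 30 ≤ t ^ 30 := pow_le_pow_left₀ (by norm_num) (by linarith) 30
  have hx : t ^ 47 / 8192 ≤ ((n / 2 : ℕ) : ℝ) / (1024 * t ^ 16 * 2 ^ κ) := by
    rw [le_div_iff₀ (by positivity)]
    calc t ^ 47 / 8192 * (1024 * t ^ 16 * 2 ^ κ) ≤ t ^ 47 / 8192 * (1024 * t ^ 16 * (2 * t)) := by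
          gcongr
      _ = t ^ 64 / 4 := by ring
      _ ≤ _ := hN
  have hsm := split_match h0 h1 T σ (n / 2) κ (t ^ 16) (by omega) hcard
    (hQ.trans (by gcongr)) hT (fun S hS => ?_) ?_
  · obtain ⟨ρ, hρ1, hρ2⟩ := hsm
    have key : (T.card : ℝ) * Real.exp (-(((n / 2 : ℕ) : ℝ) / (1024 * t ^ 16 * 2 ^ κ)))
        ≤ 1 / 2 := by
      refine mul_exp_neg_le_half (by positivity) ?_
      have h2 : (T.card : ℝ) ≤ t ^ 64 := by
        rw [htn]
        have : T.card ≤ n := by omega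
        exact_mod_cast this
      calc 4 * (T.card : ℝ) ≤ t ^ 64 * 4 := by linarith
        _ ≤ t ^ 64 * (t ^ 30 / 8192 ^ 2) := by gcongr; linarith
        _ = (t ^ 47 / 8192) ^ 2 := by ring
        _ ≤ _ := by gcongr
    exact ⟨ρ, hρ1.trans key, hρ2.trans key⟩
  · by_cases hSκ : S.card ≤ κ
    · have h2 := codeg_count (by omega) hr0 hr1 hns S (T.filter (fun u => S ⊆ σ u))
        (fun u hu x hx => hσ u (Finset.mem_filter.1 hu).1 x ((Finset.mem_filter.1 hu).2 hx)) ?_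
      · refine h2.trans ?_
        have h3 : r ^ S.card ≤ P ^ S.card / 2 ^ 36 := by
          calc r ^ S.card ≤ (P * (1 / 2 ^ 36)) ^ S.card := by gcongr; linarith
            _ = P ^ S.card * (1 / 2 ^ 36) ^ S.card := mul_pow _ _ _
            _ ≤ P ^ S.card * (1 / 2 ^ 36) ^ 1 := by
                refine mul_le_mul_of_nonneg_left ?_ (by positivity)
                exact pow_le_pow_of_le_one (by norm_num) (by norm_num) hS.card_pos
            _ = _ := by ring
        have h4 : 0 ≤ P ^ S.card := by positivity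
        rw [← htn]
        calc 9 * t ^ 64 * r ^ S.card ≤ 9 * t ^ 64 * (P ^ S.card / 2 ^ 36) := by gcongr
          _ = (t ^ 64 / 4) * P ^ S.card * (36 / 2 ^ 36) := by ring
          _ ≤ ((n / 2 : ℕ) : ℝ) * P ^ S.card * (1 / 4096) :=
              mul_le_mul (by gcongr) (by norm_num) (by norm_num) (by positivity)
          _ = _ := by ring
      · have h3 : t ^ 48 ≤ n * r ^ S.card := by
          rw [← htn]
          calc t ^ 48 = t ^ 48 * 1 := (mul_one _).symm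
            _ ≤ t ^ 48 * (t ^ 16 * r ^ κ) := by gcongr
            _ = t ^ 64 * r ^ κ := by ring
            _ ≤ t ^ 64 * r ^ S.card :=
                mul_le_mul_of_nonneg_left (pow_le_pow_of_le_one hr0 hr1 hSκ) (by positivity)
        have h4 : (n : ℝ) ^ S.card ≤ Real.exp (64 * t ^ 2) := by
          rw [← htn]
          have h5 : t ≤ Real.exp t := by linarith [Real.add_one_le_exp t]
          have h6 : (S.card : ℝ) ≤ t := le_trans (by exact_mod_cast hSκ) hκ
          calc (t ^ 64) ^ S.card ≤ (Real.exp t ^ 64) ^ S.card := by gcongr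
            _ = Real.exp (S.card * (64 * t)) := by
                rw [← Real.exp_nat_mul, ← Real.exp_nat_mul]; norm_num
            _ ≤ _ := Real.exp_le_exp.2 (by nlinarith)
        have h5 : 64 * t ^ 2 + 1 ≤ t ^ 48 := by
          have h6 : (16 : ℝ) ^ 2 ≤ t ^ 2 := by gcongr
          have h7 : t ^ 4 ≤ t ^ 48 := pow_le_pow_right₀ ht1 (by norm_num)
          nlinarith
        have h6 : 2 ≤ Real.exp 1 := by linarith [Real.add_one_le_exp (1 : ℝ)]
        calc 2 * (n : ℝ) ^ S.card ≤ Real.exp 1 * Real.exp (64 * t ^ 2) := by gcongr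
          _ = Real.exp (64 * t ^ 2 + 1) := by rw [← Real.exp_add, add_comm]
          _ ≤ _ := Real.exp_le_exp.2 (h5.trans h3)
    · have : T.filter (fun u => S ⊆ σ u) = ∅ :=
        Finset.filter_eq_empty_iff.2 fun u hu h =>
          hSκ ((Finset.card_le_card h).trans (hcard u hu))
      rw [this]; simp only [Finset.card_empty, Nat.cast_zero]; positivity
  · have h2 : ((n / 2 : ℕ) : ℝ) / (2048 * t ^ 16 * 2 ^ κ)
        = (((n / 2 : ℕ) : ℝ) / (1024 * t ^ 16 * 2 ^ κ)) / 2 := by field_simp; ring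
    have h3 := Real.add_one_le_exp (((n / 2 : ℕ) : ℝ) / (2048 * t ^ 16 * 2 ^ κ))
    have h4 : 512 * t ^ 16 * 2 ^ κ ≤ t ^ 47 / 8192 / 2 := by
      calc 512 * t ^ 16 * 2 ^ κ ≤ 512 * t ^ 16 * (2 * t) := by gcongr
        _ = t ^ 17 * 1024 := by ring
        _ ≤ t ^ 17 * (t ^ 30 / 16384) := by gcongr; linarith
        _ = _ := by ring
    linarith

end Crest.Agent.R052.Emb
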