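import Crest.Agent.R052.EmbStars

/-!
The numerical part of the star forest embedding.
-/

set_option autoImplicit false

namespace Crest.Agent.R052.Emb

open Finset Crest.FinProb Crest.Agent.Lib.BiasedCube Crest.CombinatoricsR.RandomGraph

variable {W : Type*} [DecidableEq W]

lemma star_ratio {P r : ℝ} (n d : ℕ) (h0 : 0 < P) (hr0 : 0 ≤ r) (hr : 2 ^ 36 * r ≤ P)
    (hd : 1 ≤ d) (hdn : 64 * d ≤ n) (hsmall : ((n / 4 : ℕ) : ℝ) * P < 8 * d) :
    (n.choose d : ℝ) * r ^ d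
      ≤ (1 / 64 * (1 / 2) ^ d) * (((n / 4).choose d : ℝ) * (P ^ d * (1 - P) ^ (n / 4))) := by
  set M := n / 4 with hM
  have hM1 : 16 * d ≤ M := by omega
  have hM2 : n ≤ 10 * (M + 1 - d) := by omega
  have hdr : (1 : ℝ) ≤ d := by exact_mod_cast hd
  have hM1r : (16 : ℝ) * d ≤ M := by exact_mod_cast hM1
  have hP : P ≤ 1 / 2 := by nlinarith
  have h2 : Real.exp (-(16 * d)) ≤ (1 - P) ^ M := by
    calc Real.exp (-(16 * d)) ≤ Real.exp (M * (-(2 * P))) := Real.exp_le_exp.2 (by linarith)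
      _ = Real.exp (-(2 * P)) ^ M := by rw [← Real.exp_nat_mul]
      _ ≤ (1 - P) ^ M := by
          gcongr
          have := exp_neg_le (x := 2 * P) (by linarith) (by linarith)
          linarith
  have h3 : (1 / 3 ^ 16 : ℝ) ^ d ≤ Real.exp (-(16 * d)) := by
    have h4 : Real.exp (-(16 * d)) = (Real.exp 1 ^ 16)⁻¹ ^ d := by
      rw [← Real.exp_nat_mul, ← Real.exp_neg, ← Real.exp_nat_mul]; congr 1; push_cast; ring
    rw [h4, one_div]
    gcongr
    exact Real.exp_one_lt_three.le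
  have h5 : (n.choose d : ℝ) ≤ 10 ^ d * (M.choose d : ℝ) := by
    have h6 : (n.choose d : ℝ) ≤ (n : ℝ) ^ d / d.factorial := Nat.choose_le_pow_div d n
    have h7 : (((M + 1 - d : ℕ) : ℝ)) ^ d / d.factorial ≤ M.choose d := Nat.pow_le_choose d M
    have h8 : (n : ℝ) ≤ 10 * ((M + 1 - d : ℕ) : ℝ) := by exact_mod_cast hM2
    calc (n.choose d : ℝ) ≤ (n : ℝ) ^ d / d.factorial := h6
      _ ≤ (10 * ((M + 1 - d : ℕ) : ℝ)) ^ d / d.factorial := by gcongr
      _ = 10 ^ d * ((((M + 1 - d : ℕ) : ℝ)) ^ d / d.factorial) := by rw [mul_pow]; ring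
      _ ≤ _ := by gcongr
  have h9 : r ^ d ≤ (P / 2 ^ 36) ^ d := by
    gcongr
    rw [le_div_iff₀ (by positivity)]; linarith
  have h10 : (10 : ℝ) ^ d * (P / 2 ^ 36) ^ d
      ≤ (1 / 64 * (1 / 2) ^ d) * (P ^ d * (1 / 3 ^ 16) ^ d) := by
    have h11 : (1 / 64 : ℝ) ^ d ≤ 1 / 64 := by
      calc (1 / 64 : ℝ) ^ d ≤ (1 / 64) ^ 1 :=
            pow_le_pow_of_le_one (by norm_num) (by norm_num) hd
        _ = 1 / 64 := pow_one _
    calc (10 : ℝ) ^ d * (P / 2 ^ 36) ^ d = (10 * (P / 2 ^ 36)) ^ d := by rw [mul_pow]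
      _ ≤ ((1 / 64) * ((1 / 2) * (P * (1 / 3 ^ 16)))) ^ d := by
          refine pow_le_pow_left₀ (by positivity) ?_ d
          nlinarith
      _ = (1 / 64) ^ d * ((1 / 2) ^ d * (P ^ d * (1 / 3 ^ 16) ^ d)) := by
          rw [mul_pow, mul_pow, mul_pow]
      _ ≤ (1 / 64) * ((1 / 2) ^ d * (P ^ d * (1 / 3 ^ 16) ^ d)) := by gcongr
      _ = _ := by ring
  calc (n.choose d : ℝ) * r ^ d ≤ (10 ^ d * (M.choose d : ℝ)) * (P / 2 ^ 36) ^ d := by gcongr
    _ = (M.choose d : ℝ) * (10 ^ d * (P / 2 ^ 36) ^ d) := by ring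
    _ ≤ (M.choose d : ℝ) * ((1 / 64 * (1 / 2) ^ d) * (P ^ d * (1 / 3 ^ 16) ^ d)) := by gcongr
    _ ≤ (M.choose d : ℝ) * ((1 / 64 * (1 / 2) ^ d) * (P ^ d * (1 - P) ^ M)) := by
        gcongr
        exact h3.trans h2
    _ = _ := by ring

theorem star_piece {P r : ℝ} (n : ℕ) (hn : 64 ≤ n) (h0 : 0 < P) (h1 : P < 1) (hr0 : 0 ≤ r)
    (hr : 2 ^ 36 * r ≤ P) (X : Finset W) (lv : W → Finset W)
    (hdisj : ∀ x ∈ X, ∀ x' ∈ X, x ≠ x' → Disjoint (lv x) (lv x'))
    (hX : ∀ x ∈ X, Disjoint X (lv x))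
    (V : Finset W) (τ : W → Finset W) (hV : V ⊆ X ∪ X.biUnion lv)
    (hτ : ∀ u ∈ V, ∀ w ∈ τ u, w ∈ X ∧ u ∈ lv w)
    (hXc : 32 * X.card ≤ n) (hlv : 64 * ∑ x ∈ X, (lv x).card ≤ n)
    (hne : ∀ x ∈ X, (lv x).Nonempty)
    (hm : ∀ d, 1 ≤ d →
      ((X.filter (fun x => (lv x).card = d)).card : ℝ) ≤ 6 * n * (n.choose d * r ^ d)) :
    Pr P (fun ω => ¬ EmbEv n V τ ω) ≤ 1 / 2 := by
  refine (star_embed P h0.le h1.le n (n / 2) (n - n / 2) (by omega) X lv hX V τ hV hτ).trans ?_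
  have : Nonempty (Fin (n / 2)) := ⟨⟨0, by omega⟩⟩
  have : Nonempty (Fin (n - n / 2)) := ⟨⟨0, by omega⟩⟩
  set M := n / 4 with hM
  have hdle : ∀ x ∈ X, 64 * (lv x).card ≤ n := fun x hx =>
    le_trans (Nat.mul_le_mul_left _ (Finset.single_le_sum (f := fun x => (lv x).card)
      (fun _ _ => Nat.zero_le _) hx)) hlv
  let b : ℕ → ℝ := fun d => (M.choose d : ℝ) * (P ^ d * (1 - P) ^ M)
  have hb : ∀ d, 64 * d ≤ n → 0 < b d := by
    intro d hd
    have : 0 < M.choose d := Nat.choose_pos (by omega)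
    have h2 : 0 < 1 - P := by linarith
    simp only [b]; positivity
  let s : W → ℝ := fun x => if (8 : ℝ) * (lv x).card ≤ M * P then 1 / 2 else b (lv x).card
  let u : ℕ → ℝ := fun d => if (8 : ℝ) * d ≤ M * P then 0 else 1 / b d
  have key := star_fail (A := Fin (n / 2)) (Z := Fin (n - n / 2)) h0.le h1.le X lv hdisj M s
    (fun x hx => ?_) (fun x hx Z'' hZ => ?_) univ X univ subset_rfl ?_
  · refine key.trans ?_
    have h2 : ∑ x ∈ X, 1 / s x ≤ ∑ x ∈ X, (2 + u (lv x).card) := by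
      refine Finset.sum_le_sum fun x hx => ?_
      simp only [s, u]
      split_ifs
      · norm_num
      · linarith
    have h3 : ∑ x ∈ X, u (lv x).card
        ≤ ∑ d ∈ range (n / 64 + 1), (6 * n * (1 / 64 * (1 / 2) ^ d) : ℝ) := by
      rw [← Finset.sum_fiberwise_of_maps_to (s := X) (t := range (n / 64 + 1))
        (g := fun x => (lv x).card) (fun x hx => by
          have := hdle x hx
          simp only [Finset.mem_range]; omega)]
      refine Finset.sum_le_sum fun d hd => ?_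
      have hd' : 64 * d ≤ n := by simp only [Finset.mem_range] at hd; omega
      rw [Finset.sum_congr rfl (g := fun _ => u d)
        (fun x hx => by rw [(Finset.mem_filter.1 hx).2]), Finset.sum_const, nsmul_eq_mul]
      rcases Nat.eq_zero_or_pos d with rfl | hd1
      · have : X.filter (fun x => (lv x).card = 0) = ∅ := by
          refine Finset.filter_eq_empty_iff.2 fun x hx h => ?_
          exact (hne x hx).ne_empty (Finset.card_eq_zero.1 h)
        rw [this]; simp only [Finset.card_empty, Nat.cast_zero, zero_mul]; positivity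
      · simp only [u]
        split_ifs with hc
        · rw [mul_zero]; positivity
        · rw [mul_one_div, div_le_iff₀ (hb d hd')]
          refine (hm d hd1).trans ?_
          rw [mul_assoc (6 * (n : ℝ))]
          exact mul_le_mul_of_nonneg_left
            (star_ratio n d h0 hr0 hr hd1 hd' (not_le.1 hc)) (by positivity)
    rw [← Finset.mul_sum, ← Finset.mul_sum] at h3
    have h4 := sum_geometric_two_le (n / 64 + 1)
    rw [Finset.sum_add_distrib, Finset.sum_const, nsmul_eq_mul] at h2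
    have h5 : (32 : ℝ) * X.card ≤ n := by exact_mod_cast hXc
    have h6 : (n : ℝ) ≤ 2 * (((n / 2 : ℕ) : ℝ) + 1) := by
      have : n ≤ 2 * (n / 2 + 1) := by omega
      exact_mod_cast this
    have h7 : (0 : ℝ) ≤ n := Nat.cast_nonneg _
    rw [Finset.card_univ, Fintype.card_fin, div_le_iff₀ (by positivity)]
    nlinarith
  · simp only [s]
    split_ifs
    · norm_num
    · exact hb _ (hdle x hx)
  · simp only [s]
    split_ifs with hc
    · exact tail_big h0.le h1.le M _ (hne x hx).card_pos hc Z'' hZ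
    · exact tail_small h0.le h1.le M _ Z'' hZ
  · rw [Finset.card_univ, Fintype.card_fin]; omega

end Crest.Agent.R052.Emb
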