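import Crest.Agent.R052.EmbLayers

/-!
Embedding star forests: candidate centres are tested one after the other.
-/

set_option autoImplicit false

namespace Crest.Agent.R052.Emb

open Finset Crest.FinProb Crest.Agent.Lib.BiasedCube Crest.CombinatoricsR.RandomGraph

variable {W : Type*} [DecidableEq W]

lemma exists_injOn_finset {α β : Type*} [Nonempty β] (s : Finset α) (t : Finset β)
    (h : s.card ≤ t.card) : ∃ f : α → β, (∀ a ∈ s, f a ∈ t) ∧ Set.InjOn f s := by
  obtain ⟨f, h1, h2⟩ := (s.finite_toSet).exists_injOn_of_encard_le (t := (t : Set β))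
    (by rw [Set.encard_coe_eq_coe_finsetCard, Set.encard_coe_eq_coe_finsetCard]; exact_mod_cast h)
  exact ⟨f, fun a ha => h1 ha, h2⟩

section Seq

variable {A Z : Type*} [Fintype A] [DecidableEq A] [Fintype Z] [DecidableEq Z]

/-- The stars with centres in `X` and leaf sets `lv x` embed with centres in the rows `C` and
leaves in the columns `Z'`. -/
def StarEv (C : Finset A) (X : Finset W) (lv : W → Finset W) (Z' : Finset Z)
    (ξ : A × Z → Bool) : Prop :=
  ∃ (h : W → A) (g : W → Z), Set.InjOn h X ∧ Set.InjOn g (X.biUnion lv) ∧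
    ∀ x ∈ X, h x ∈ C ∧ ∀ u ∈ lv x, g u ∈ Z' ∧ ξ (h x, g u) = true

omit [Fintype A] [DecidableEq A] [Fintype Z] [DecidableEq Z] in
lemma starEv_empty [Nonempty A] [Nonempty Z] (C : Finset A) (lv : W → Finset W) (Z' : Finset Z)
    (ξ : A × Z → Bool) : StarEv C ∅ lv Z' ξ :=
  ⟨fun _ => Classical.arbitrary _, fun _ => Classical.arbitrary _, by simp, by simp, by simp⟩

lemma star_fail [Nonempty A] [Nonempty Z] {p : ℝ} (h0 : 0 ≤ p) (h1 : p ≤ 1) (X0 : Finset W)
    (lv : W → Finset W) (hdisj : ∀ x ∈ X0, ∀ x' ∈ X0, x ≠ x' → Disjoint (lv x) (lv x'))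
    (M : ℕ) (s : W → ℝ) (hs0 : ∀ x ∈ X0, 0 < s x)
    (hs : ∀ x ∈ X0, ∀ Z'' : Finset Z, M ≤ Z''.card →
      s x ≤ Pr p (fun row : Z → Bool => (lv x).card ≤ (Z''.filter (fun z => row z = true)).card))
    (C : Finset A) : ∀ (X : Finset W) (Z' : Finset Z), X ⊆ X0 →
      M + ∑ x ∈ X, (lv x).card ≤ Z'.card →
      Pr p (fun ξ => ¬ StarEv C X lv Z' ξ) ≤ (∑ x ∈ X, 1 / s x) / (C.card + 1) := by
  classical
  have hR0 : ∀ X : Finset W, X ⊆ X0 → 0 ≤ ∑ x ∈ X, 1 / s x := fun X hX =>
    Finset.sum_nonneg fun x hx => (one_div_pos.2 (hs0 x (hX hx))).le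
  have hempty : ∀ (C : Finset A) (Z' : Finset Z),
      Pr p (fun ξ => ¬ StarEv C (∅ : Finset W) lv Z' ξ) ≤ 0 := by
    intro C Z'
    unfold Pr
    simp_rw [ind_neg (not_not.2 (starEv_empty C lv Z' _))]
    rw [Ex_const]
  induction C using Finset.induction_on with
  | empty =>
    intro X Z' hX hZ
    rcases X.eq_empty_or_nonempty with rfl | ⟨x, hx⟩
    · simpa using hempty ∅ Z'
    · refine (Pr_le_one h0 h1 _).trans ?_
      simp only [Finset.card_empty, Nat.cast_zero, zero_add, div_one]
      have h2 : s x ≤ 1 := (hs x (hX hx) Z' (by omega)).trans (Pr_le_one h0 h1 _)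
      refine le_trans ?_ (Finset.single_le_sum (f := fun x => 1 / s x)
        (fun x hx => (one_div_pos.2 (hs0 x (hX hx))).le) hx)
      rw [le_div_iff₀ (hs0 x (hX hx))]; linarith
  | insert a C ha ih =>
    intro X Z' hX hZ
    rcases X.eq_empty_or_nonempty with rfl | ⟨x, hx⟩
    · simpa using hempty (insert a C) Z'
    rw [Finset.card_insert_of_notMem ha]
    set R := ∑ x ∈ X, 1 / s x with hR
    set c : ℝ := (C.card : ℝ) with hc
    have hc0 : 0 ≤ c := Nat.cast_nonneg _
    have hsx := hs0 x (hX hx)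
    by_cases hbig : c + 2 ≤ R
    · refine (Pr_le_one h0 h1 _).trans ?_
      push_cast
      rw [le_div_iff₀ (by linarith)]; linarith
    let J : Finset (A × Z) := univ.filter (fun z => z.1 = a)
    let good : (Z → Bool) → Prop := fun row =>
      (lv x).card ≤ (Z'.filter (fun z => row z = true)).card
    have hinner : ∀ y : A × Z → Bool,
        Ex p (fun ξ => ind (¬ StarEv (insert a C) X lv Z' (J.piecewise y ξ)))
          ≤ R / (c + 1) - (1 / (s x * (c + 1))) * ind (good (fun z => y (a, z))) := by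
      intro y
      have hpw : ∀ (ξ : A × Z → Bool) (b : A) (z : Z), b ∈ C →
          J.piecewise y ξ (b, z) = ξ (b, z) := by
        intro ξ b z hb
        refine Finset.piecewise_eq_of_notMem _ _ _ ?_
        simp only [J, Finset.mem_filter, Finset.mem_univ, true_and]
        rintro rfl; exact ha hb
      by_cases hg : good (fun z => y (a, z))
      · rw [ind_pos hg, mul_one]
        obtain ⟨e, he1, he2⟩ := exists_injOn_finset _ _ hg
        have hcard : M + ∑ x' ∈ X.erase x, (lv x').card ≤ (Z' \ (lv x).image e).card := by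
          have h2 := Finset.add_sum_erase X (fun x => (lv x).card) hx
          have h3 := Finset.le_card_sdiff ((lv x).image e) Z'
          have h4 : ((lv x).image e).card ≤ (lv x).card := Finset.card_image_le
          omega
        have h5 := ih (X.erase x) _ ((Finset.erase_subset _ _).trans hX) hcard
        have h6 : ∑ x' ∈ X.erase x, 1 / s x' = R - 1 / s x := by
          rw [hR, ← Finset.add_sum_erase X (fun x => 1 / s x) hx]; ring
        rw [h6] at h5
        have h6' : (R - 1 / s x) / (c + 1) = R / (c + 1) - 1 / (s x * (c + 1)) := by field_simp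
        rw [h6'] at h5
        refine le_trans ?_ h5
        refine Ex_mono h0 h1 fun ξ => ind_mono fun hno hyes => hno ?_
        obtain ⟨h, g, hh, hg', hall⟩ := hyes
        have hdl : ∀ u ∈ (X.erase x).biUnion lv, u ∉ lv x := by
          intro u hu hux
          obtain ⟨x', hx', hu'⟩ := Finset.mem_biUnion.1 hu
          exact Finset.disjoint_left.1 (hdisj x' (hX (Finset.mem_of_mem_erase hx')) x (hX hx)
            (Finset.ne_of_mem_erase hx')) hu' hux
        have hgZ : ∀ u ∈ (X.erase x).biUnion lv, g u ∉ (lv x).image e := by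
          intro u hu
          obtain ⟨x', hx', hu'⟩ := Finset.mem_biUnion.1 hu
          exact (Finset.mem_sdiff.1 ((hall x' hx').2 u hu').1).2
        have hsplit : ∀ u ∈ X.biUnion lv, u ∉ lv x → u ∈ (X.erase x).biUnion lv := by
          intro u hu hux
          obtain ⟨x', hx', hu'⟩ := Finset.mem_biUnion.1 hu
          exact Finset.mem_biUnion.2 ⟨x', Finset.mem_erase.2 ⟨by rintro rfl; exact hux hu', hx'⟩,
            hu'⟩
        refine ⟨Function.update h x a, fun u => if u ∈ lv x then e u else g u, ?_, ?_, ?_⟩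
        · intro x1 hx1 x2 hx2 he
          by_cases e1 : x1 = x <;> by_cases e2 : x2 = x
          · rw [e1, e2]
          · rw [e1, Function.update_self, Function.update_of_ne e2] at he
            exact absurd (he ▸ (hall x2 (Finset.mem_erase.2 ⟨e2, hx2⟩)).1) ha
          · rw [e2, Function.update_self, Function.update_of_ne e1] at he
            exact absurd (he ▸ (hall x1 (Finset.mem_erase.2 ⟨e1, hx1⟩)).1) ha
          · rw [Function.update_of_ne e1, Function.update_of_ne e2] at he
            exact hh (Finset.mem_erase.2 ⟨e1, hx1⟩) (Finset.mem_erase.2 ⟨e2, hx2⟩) he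
        · intro u1 hu1 u2 hu2 he
          by_cases e1 : u1 ∈ lv x <;> by_cases e2 : u2 ∈ lv x
          · simp only [e1, e2, if_true] at he; exact he2 e1 e2 he
          · simp only [e1, e2, if_true, if_false] at he
            exact absurd (he ▸ Finset.mem_image_of_mem e e1) (hgZ u2 (hsplit u2 hu2 e2))
          · simp only [e1, e2, if_true, if_false] at he
            exact absurd (he ▸ Finset.mem_image_of_mem e e2) (hgZ u1 (hsplit u1 hu1 e1))
          · simp only [e1, e2, if_false] at he
            exact hg' (hsplit u1 hu1 e1) (hsplit u2 hu2 e2) he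
        · intro x' hx'
          by_cases e1 : x' = x
          · subst e1
            rw [Function.update_self]
            refine ⟨Finset.mem_insert_self _ _, fun u hu => ?_⟩
            beta_reduce
            rw [if_pos hu]
            have h7 := Finset.mem_filter.1 (he1 u hu)
            refine ⟨h7.1, ?_⟩
            rw [Finset.piecewise_eq_of_mem _ _ _ (by simp [J])]
            exact h7.2
          · have hx'e : x' ∈ X.erase x := Finset.mem_erase.2 ⟨e1, hx'⟩
            rw [Function.update_of_ne e1]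
            refine ⟨Finset.mem_insert_of_mem (hall x' hx'e).1, fun u hu => ?_⟩
            have h7 : u ∉ lv x := hdl u (Finset.mem_biUnion.2 ⟨x', hx'e, hu⟩)
            beta_reduce
            rw [if_neg h7]
            have h8 := (hall x' hx'e).2 u hu
            exact ⟨(Finset.mem_sdiff.1 h8.1).1, by rw [hpw ξ _ _ (hall x' hx'e).1]; exact h8.2⟩
      · rw [ind_neg hg, mul_zero, sub_zero]
        refine le_trans ?_ (ih X Z' hX hZ)
        refine Ex_mono h0 h1 fun ξ => ind_mono fun hno hyes => hno ?_
        obtain ⟨h, g, hh, hg', hall⟩ := hyes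
        exact ⟨h, g, hh, hg', fun x' hx' => ⟨Finset.mem_insert_of_mem (hall x' hx').1,
          fun u hu => ⟨((hall x' hx').2 u hu).1,
            by rw [hpw ξ _ _ (hall x' hx').1]; exact ((hall x' hx').2 u hu).2⟩⟩⟩
    unfold Pr
    rw [← Ex_Ex_piecewise p J, Ex_swap]
    refine (Ex_mono h0 h1 hinner).trans ?_
    rw [Ex_sub, Ex_const, Ex_const_mul,
      Ex_comp_inj p (fun z : Z => ((a, z) : A × Z)) (fun z z' h => by simpa using h)
        (fun row => ind (good row))]
    have h9 : s x ≤ Ex p (fun row => ind (good row)) := hs x (hX hx) Z' (by omega)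
    have h10 : 1 / (c + 1) ≤ 1 / (s x * (c + 1)) * Ex p (fun row => ind (good row)) := by
      rw [div_mul_eq_mul_div, one_mul, div_le_div_iff₀ (by linarith) (by positivity)]
      nlinarith
    have h11 : R / (c + 1) - 1 / (c + 1) ≤ R / (c + 1 + 1) := by
      rw [← sub_div, div_le_div_iff₀ (by linarith) (by linarith)]
      nlinarith
    push_cast
    linarith

lemma tail_big {p : ℝ} (h0 : 0 ≤ p) (h1 : p ≤ 1) (M d : ℕ) (hd : 1 ≤ d) (hdM : 8 * d ≤ M * p)
    (Z'' : Finset Z) (hZ : M ≤ Z''.card) :
    1 / 2 ≤ Pr p (fun row : Z → Bool => d ≤ (Z''.filter (fun z => row z = true)).card) := by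
  have h2 := Pr_not p (fun row : Z → Bool => d ≤ (Z''.filter (fun z => row z = true)).card)
  have h3 : Pr p (fun row : Z → Bool => ¬ d ≤ (Z''.filter (fun z => row z = true)).card)
      ≤ Ex p (fun row : Z → Bool => 2 ^ d * ∏ z,
        (fun z b => if z ∈ Z'' then (if b = true then (1 / 2 : ℝ) else 1) else 1) z (row z)) := by
    refine Ex_mono h0 h1 fun row => ?_
    have e1 : ∏ z, (fun z b => if z ∈ Z'' then (if b = true then (1 / 2 : ℝ) else 1) else 1) z
        (row z) = (1 / 2) ^ (Z''.filter (fun z => row z = true)).card := by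
      simp only
      rw [Finset.prod_ite_mem, Finset.univ_inter, Finset.prod_ite]
      simp
    rw [e1]
    refine ind_le_of (by positivity) fun h => ?_
    rw [one_div, inv_pow, ← div_eq_mul_inv, le_div_iff₀ (by positivity), one_mul]
    exact pow_le_pow_right₀ (by norm_num) (by omega)
  rw [Ex_const_mul, Ex_prod p
    (fun z b => if z ∈ Z'' then (if b = true then (1 / 2 : ℝ) else 1) else 1)] at h3
  have e2 : ∀ z, p * (if z ∈ Z'' then (if true = true then (1 / 2 : ℝ) else 1) else 1)
      + (1 - p) * (if z ∈ Z'' then (if false = true then (1 / 2 : ℝ) else 1) else 1)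
      = if z ∈ Z'' then 1 - p / 2 else 1 := by
    intro z; by_cases hz : z ∈ Z'' <;> simp [hz]; ring
  rw [Finset.prod_congr rfl (fun z _ => e2 z), Finset.prod_ite_mem, Finset.univ_inter,
    Finset.prod_const] at h3
  have h4 : (1 - p / 2) ^ Z''.card ≤ Real.exp (-(4 * d)) := by
    calc (1 - p / 2) ^ Z''.card ≤ (1 - p / 2) ^ M :=
          pow_le_pow_of_le_one (by linarith) (by linarith) hZ
      _ ≤ Real.exp (-(p / 2)) ^ M := by
          gcongr
          · linarith
          · linarith [Real.add_one_le_exp (-(p / 2))]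
      _ = Real.exp (M * (-(p / 2))) := by rw [← Real.exp_nat_mul]
      _ ≤ _ := Real.exp_le_exp.2 (by linarith)
  have h5 : (2 : ℝ) ^ d ≤ Real.exp d := by
    calc (2 : ℝ) ^ d ≤ Real.exp 1 ^ d := by
          gcongr; linarith [Real.add_one_le_exp (1 : ℝ)]
      _ = Real.exp d := by rw [← Real.exp_nat_mul, mul_one]
  have h6 : (2 : ℝ) ^ d * (1 - p / 2) ^ Z''.card ≤ 1 / 2 := by
    have hd' : (1 : ℝ) ≤ d := by exact_mod_cast hd
    calc (2 : ℝ) ^ d * (1 - p / 2) ^ Z''.card ≤ Real.exp d * Real.exp (-(4 * d)) := by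
          gcongr
          exact pow_nonneg (by linarith) _
      _ = Real.exp (-(3 * d)) := by rw [← Real.exp_add]; congr 1; ring
      _ ≤ Real.exp (-1) := Real.exp_le_exp.2 (by linarith)
      _ ≤ 1 / 2 := by have := exp_neg_le (x := 1) (by norm_num) le_rfl; linarith
  linarith

lemma tail_small {p : ℝ} (h0 : 0 ≤ p) (h1 : p ≤ 1) (M d : ℕ)
    (Z'' : Finset Z) (hZ : M ≤ Z''.card) :
    (M.choose d : ℝ) * (p ^ d * (1 - p) ^ M)
      ≤ Pr p (fun row : Z → Bool => d ≤ (Z''.filter (fun z => row z = true)).card) := by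
  obtain ⟨Z0, hZ0, hcard⟩ := Finset.exists_subset_card_eq hZ
  have h2 : Ex p (fun row : Z → Bool => ∑ S ∈ Z0.powersetCard d,
      ind (Z0.filter (fun z => row z = true) = S))
      ≤ Pr p (fun row : Z → Bool => d ≤ (Z''.filter (fun z => row z = true)).card) := by
    refine Ex_mono h0 h1 fun row => ?_
    by_cases hm : Z0.filter (fun z => row z = true) ∈ Z0.powersetCard d
    · rw [Finset.sum_eq_single_of_mem _ hm (fun S _ hS => ind_neg (Ne.symm hS)), ind_pos rfl,
        ind_pos]
      rw [← (Finset.mem_powersetCard.1 hm).2]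
      exact Finset.card_le_card (Finset.filter_subset_filter _ hZ0)
    · rw [Finset.sum_eq_zero (fun S hS => ind_neg (by rintro rfl; exact hm hS))]
      exact ind_nonneg _
  refine le_trans ?_ h2
  rw [Ex_sum, ← hcard, ← Finset.card_powersetCard, ← nsmul_eq_mul]
  refine Finset.card_nsmul_le_sum _ _ _ fun S hS => ?_
  obtain ⟨hSZ, hSd⟩ := Finset.mem_powersetCard.1 hS
  have e1 : (fun row : Z → Bool => ind (Z0.filter (fun z => row z = true) = S))
      = fun row => ∏ z, (fun z b => if z ∈ S then (if b = true then (1 : ℝ) else 0)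
        else if z ∈ Z0 then (if b = true then 0 else 1) else 1) z (row z) := by
    funext row
    by_cases h : Z0.filter (fun z => row z = true) = S
    · rw [ind_pos h]
      refine (Finset.prod_eq_one fun z _ => ?_).symm
      by_cases hz : z ∈ S
      · have := (Finset.mem_filter.1 (h ▸ hz)).2
        simp [hz, this]
      · by_cases hz0 : z ∈ Z0
        · have : ¬ row z = true := fun hr => hz (h ▸ Finset.mem_filter.2 ⟨hz0, hr⟩)
          simp [hz, hz0, this]
        · simp [hz, hz0]
    · rw [ind_neg h]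
      have : ∃ z, ¬ (z ∈ Z0.filter (fun z => row z = true) ↔ z ∈ S) := by
        by_contra hc; push Not at hc; exact h (Finset.ext hc)
      obtain ⟨z, hz⟩ := this
      refine (Finset.prod_eq_zero (mem_univ z) ?_).symm
      by_cases hzS : z ∈ S
      · have : ¬ row z = true := fun hr =>
          hz (iff_of_true (Finset.mem_filter.2 ⟨hSZ hzS, hr⟩) hzS)
        simp [hzS, this]
      · have h3 : z ∈ Z0.filter (fun z => row z = true) := by
          by_contra hc; exact hz (iff_of_false hc hzS)
        obtain ⟨h4, h5⟩ := Finset.mem_filter.1 h3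
        simp [hzS, h4, h5]
  rw [e1, Ex_prod p (fun z b => if z ∈ S then (if b = true then (1 : ℝ) else 0)
        else if z ∈ Z0 then (if b = true then 0 else 1) else 1)]
  have e2 : p ^ d * (1 - p) ^ Z0.card
      = ∏ z, ((if z ∈ S then p else 1) * (if z ∈ Z0 then 1 - p else 1)) := by
    rw [Finset.prod_mul_distrib, Finset.prod_ite_mem, Finset.prod_ite_mem]
    simp [hSd]
  rw [e2]
  refine Finset.prod_le_prod (fun z _ => ?_) fun z _ => ?_
  · refine mul_nonneg ?_ ?_ <;> split_ifs <;> linarith
  · by_cases hz : z ∈ S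
    · simp only [hz, hSZ hz, if_true, Bool.false_eq_true, if_false]; nlinarith
    · by_cases hz0 : z ∈ Z0 <;> simp [hz, hz0]

end Seq

lemma star_embed (p : ℝ) (h0 : 0 ≤ p) (h1 : p ≤ 1) (n c z : ℕ) (hcz : c + z ≤ n)
    (X : Finset W) (lv : W → Finset W) (hX : ∀ x ∈ X, Disjoint X (lv x))
    (V : Finset W) (τ : W → Finset W) (hV : V ⊆ X ∪ X.biUnion lv)
    (hτ : ∀ u ∈ V, ∀ w ∈ τ u, w ∈ X ∧ u ∈ lv w) :
    Pr p (fun ω => ¬ EmbEv n V τ ω)
      ≤ Pr p (fun ξ : Fin c × Fin z → Bool => ¬ StarEv univ X lv univ ξ) := by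
  let g1 : Fin c → Fin n := fun i => ⟨i, by omega⟩
  let g2 : Fin z → Fin n := fun j => ⟨c + j, by omega⟩
  have hg : ∀ i j, g1 i ≠ g2 j := by
    intro i j h
    have h2 : (g1 i : ℕ) = g2 j := congrArg _ h
    simp only [g1, g2] at h2
    omega
  have hg1 : Function.Injective g1 := fun i i' h => by
    have h2 : (g1 i : ℕ) = g1 i' := congrArg _ h
    exact Fin.ext h2
  have hg2 : Function.Injective g2 := fun i i' h => by
    have h2 : (g2 i : ℕ) = g2 i' := congrArg _ h
    simp only [g2] at h2
    exact Fin.ext (by omega)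
  let φ : Fin c × Fin z → EdgeSlot n := fun q => mkSlot (g1 q.1) (g2 q.2) (hg _ _)
  have hφ : Function.Injective φ := by
    rintro ⟨v, w⟩ ⟨v', w'⟩ h
    have h2 : s(g1 v, g2 w) = s(g1 v', g2 w') := congrArg Subtype.val h
    rw [Sym2.eq_iff] at h2
    rcases h2 with ⟨h3, h4⟩ | ⟨h3, _⟩
    · exact Prod.ext (hg1 h3) (hg2 h4)
    · exact absurd h3 (hg v w')
  rw [← Pr_comp_inj p φ hφ]
  refine Pr_mono h0 h1 fun ω hno hyes => hno ?_
  obtain ⟨h, g, hh, hg', hall⟩ := hyes
  refine ⟨fun w => if w ∈ X then g1 (h w) else g2 (g w), ?_, ?_⟩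
  · intro u hu u' hu' he
    by_cases e1 : u ∈ X <;> by_cases e2 : u' ∈ X
    · simp only [e1, e2, if_true] at he; exact hh e1 e2 (hg1 he)
    · simp only [e1, e2, if_true, if_false] at he; exact absurd he (hg _ _)
    · simp only [e1, e2, if_true, if_false] at he; exact absurd he.symm (hg _ _)
    · simp only [e1, e2, if_false] at he
      exact hg' ((Finset.mem_union.1 (hV hu)).resolve_left e1)
        ((Finset.mem_union.1 (hV hu')).resolve_left e2) (hg2 he)
  · intro u hu w hw
    obtain ⟨hwX, hul⟩ := hτ u hu w hw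
    have huX : u ∉ X := fun h' => Finset.disjoint_left.1 (hX w hwX) h' hul
    simp only [huX, hwX, if_true, if_false]
    refine SimpleGraph.Adj.symm ((graphOf_adj _ _ _).2 ⟨hg _ _, ?_⟩)
    exact ((hall w hwX).2 u hul).2

end Crest.Agent.R052.Emb
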