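import Crest.Agent.R052.Selector

/-!
Fractional covers give integral covers at a constant factor smaller density.
-/

set_option autoImplicit false

namespace Crest.Agent.R052

open Finset

variable {α : Type*} [Fintype α] [DecidableEq α]

lemma exists_labels {p : ℝ} (hp : 0 < p) :
    ∃ (s : ℕ) (π : Fin (s + 1) → ℝ), (∀ j, 0 ≤ π j) ∧ ∑ j, π j = 1 ∧
      (∀ j : Fin (s + 1), (j : ℕ) < s → 36 * p ≤ π j * (gam j * gam j)) ∧
      ∑ j, π j * (4096 * (1 / 8) ^ (j : ℕ)) ≤ 294912 * p := by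
  have hex : ∃ s : ℕ, 1 < ∑ j ∈ range (s + 1), 36 * 4 ^ j * p := by
    obtain ⟨s, hs⟩ := pow_unbounded_of_one_lt (1 / p) (by norm_num : (1 : ℝ) < 4)
    refine ⟨s, ?_⟩
    have := Finset.single_le_sum (f := fun j => 36 * (4 : ℝ) ^ j * p)
      (fun j _ => by positivity) (Finset.self_mem_range_succ s)
    rw [div_lt_iff₀ hp] at hs
    have h2 : 0 < (4 : ℝ) ^ s * p := by positivity
    linarith
  classical
  set s := Nat.find hex with hs
  have h1 : 1 < ∑ j ∈ range (s + 1), 36 * 4 ^ j * p := Nat.find_spec hex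
  have h2 : ∑ j ∈ range s, 36 * 4 ^ j * p ≤ 1 := by
    rcases Nat.eq_zero_or_pos s with h | h
    · rw [h]; simp
    · have := Nat.find_min hex (m := s - 1) (by omega)
      push Not at this
      rwa [show s - 1 + 1 = s by omega] at this
  rw [Finset.sum_range_succ] at h1
  set π : Fin (s + 1) → ℝ := fun j =>
    if (j : ℕ) < s then 36 * 4 ^ (j : ℕ) * p else 1 - ∑ j ∈ range s, 36 * 4 ^ j * p with hπ
  have hup : ∀ j : Fin (s + 1), π j ≤ 36 * 4 ^ (j : ℕ) * p := by
    intro j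
    simp only [hπ]
    split_ifs with h
    · exact le_rfl
    · have : (j : ℕ) = s := by have := j.2; omega
      rw [this]; linarith
  refine ⟨s, π, ?_, ?_, ?_, ?_⟩
  · intro j
    simp only [hπ]
    split_ifs
    · positivity
    · linarith
  · rw [Fin.sum_univ_castSucc]
    simp only [hπ, Fin.val_castSucc, Fin.is_lt, if_true, Fin.val_last, lt_self_iff_false, if_false]
    rw [Fin.sum_univ_eq_sum_range (fun j => 36 * (4 : ℝ) ^ j * p) s]
    ring
  · intro j hj
    simp only [hπ, hj, if_true, gam]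
    have : (4 : ℝ) ^ (j : ℕ) * ((1 / 2) ^ (j : ℕ) * (1 / 2) ^ (j : ℕ)) = 1 := by
      rw [← mul_pow, ← mul_pow]; norm_num
    nlinarith
  · calc ∑ j, π j * (4096 * (1 / 8) ^ (j : ℕ))
        ≤ ∑ j : Fin (s + 1), 147456 * p * gam j := by
          refine Finset.sum_le_sum fun j _ => ?_
          refine (mul_le_mul_of_nonneg_right (hup j) (by positivity)).trans (le_of_eq ?_)
          have : (4 : ℝ) ^ (j : ℕ) * (1 / 8) ^ (j : ℕ) = gam j := by
            rw [← mul_pow, gam]; norm_num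
          rw [← this]; ring
      _ ≤ _ := by
          rw [← Finset.mul_sum, Fin.sum_univ_eq_sum_range gam (s + 1)]
          have := sum_gam_le (s + 1)
          nlinarith

omit [Fintype α] [DecidableEq α] in
lemma prod_ge_one_sub (T : Finset α) (hT : T ≠ ∅) (τ : α → ℕ) :
    1 - (∑ x ∈ T, (τ x : ℝ)) / (4 * T.card) ≤ ∏ x ∈ T, (4096 * (1 / 8 : ℝ) ^ τ x) := by
  have hc : (0 : ℝ) < T.card := by
    exact_mod_cast Finset.card_pos.2 (Finset.nonempty_iff_ne_empty.2 hT)
  by_cases h : ∑ x ∈ T, τ x ≤ 4 * T.card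
  · have e : ∏ x ∈ T, (4096 * (1 / 8 : ℝ) ^ τ x)
        = 8 ^ (4 * T.card) * (1 / 8) ^ (∑ x ∈ T, τ x) := by
      rw [Finset.prod_mul_distrib, Finset.prod_const, Finset.prod_pow_eq_pow_sum, pow_mul]
      norm_num
    have h1 : (1 / 8 : ℝ) ^ (4 * T.card) ≤ (1 / 8) ^ (∑ x ∈ T, τ x) :=
      pow_le_pow_of_le_one (by norm_num) (by norm_num) h
    have h2 : (8 : ℝ) ^ (4 * T.card) * (1 / 8) ^ (4 * T.card) = 1 := by
      rw [← mul_pow]; norm_num
    have h3 : 0 ≤ (∑ x ∈ T, (τ x : ℝ)) / (4 * T.card) := by positivity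
    have h4 : (8 : ℝ) ^ (4 * T.card) * (1 / 8) ^ (4 * T.card)
        ≤ 8 ^ (4 * T.card) * (1 / 8) ^ (∑ x ∈ T, τ x) :=
      mul_le_mul_of_nonneg_left h1 (by positivity)
    rw [e]; linarith
  · push Not at h
    have h1 : (4 * T.card : ℝ) ≤ ∑ x ∈ T, (τ x : ℝ) := by exact_mod_cast h.le
    have h2 : 1 ≤ (∑ x ∈ T, (τ x : ℝ)) / (4 * T.card) := by
      rw [one_le_div (by positivity)]; exact h1
    have h3 : 0 ≤ ∏ x ∈ T, (4096 * (1 / 8 : ℝ) ^ τ x) :=
      Finset.prod_nonneg fun x _ => by positivity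
    linarith

theorem frac_to_int (F : Finset (Finset α)) (g : Finset α → ℝ) (hg : ∀ S, 0 ≤ g S)
    (hcov : ∀ H ∈ F, 1 ≤ ∑ S ∈ H.powerset, g S) (r : ℝ) (hr : 0 ≤ r)
    (hcost : ∑ S : Finset α, g S * r ^ S.card ≤ 1 / 2) (p : ℝ) (hp : 0 < p)
    (hpr : 2 ^ 22 * p ≤ r) :
    ∃ G : Finset (Finset α), (∀ H ∈ F, ∃ S ∈ G, S ⊆ H) ∧ ∑ S ∈ G, p ^ S.card ≤ 1 / 2 := by
  classical
  obtain ⟨s, π, h0, h1, hlow, hup⟩ := exists_labels hp
  set GS : Finset α → ℝ := fun S => ∑ T ∈ S.powerset.erase ∅, g T with hGS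
  have hg0 : g ∅ ≤ 1 / 2 := by
    have := Finset.single_le_sum (f := fun S : Finset α => g S * r ^ S.card)
      (fun S _ => mul_nonneg (hg S) (by positivity)) (mem_univ ∅)
    simp only [Finset.card_empty, pow_zero, mul_one] at this
    linarith
  have hG : ∀ S ∈ F, 1 / 2 ≤ GS S := by
    intro S hS
    have := hcov S hS
    rw [← Finset.add_sum_erase _ _ (Finset.empty_mem_powerset S)] at this
    simp only [hGS]; linarith
  set w : Finset α → α → ℝ := fun S x =>
    ∑ T ∈ S.powerset.erase ∅, if x ∈ T then g T / (GS S * T.card) else 0 with hw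
  have hwa : ∀ S, ∀ a : α → ℝ, ∑ x ∈ S, w S x * a x
      = ∑ T ∈ S.powerset.erase ∅, g T / (GS S * T.card) * ∑ x ∈ T, a x := by
    intro S a
    simp only [hw, Finset.sum_mul]
    rw [Finset.sum_comm]
    refine Finset.sum_congr rfl fun T hT => ?_
    have hTS : T ⊆ S := Finset.mem_powerset.1 (Finset.mem_of_mem_erase hT)
    simp only [ite_mul, zero_mul]
    rw [Finset.sum_ite_mem, Finset.inter_eq_right.2 hTS, Finset.mul_sum]
  have hw0 : ∀ S ∈ F, ∀ x ∈ S, 0 ≤ w S x := by
    intro S hS x _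
    refine Finset.sum_nonneg fun T _ => ?_
    have := hG S hS
    have := hg T
    split_ifs
    · positivity
    · exact le_rfl
  have hw1 : ∀ S ∈ F, ∑ x ∈ S, w S x = 1 := by
    intro S hS
    have h := hwa S (fun _ => 1)
    simp only [mul_one, Finset.sum_const, nsmul_eq_mul] at h
    rw [h]
    have hpos : GS S ≠ 0 := by have := hG S hS; linarith
    have : ∀ T ∈ S.powerset.erase ∅, g T / (GS S * T.card) * T.card = g T / GS S := by
      intro T hT
      have : (T.card : ℝ) ≠ 0 := by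
        have := Finset.card_pos.2 (Finset.nonempty_iff_ne_empty.2 (Finset.ne_of_mem_erase hT))
        exact_mod_cast this.ne'
      field_simp
    rw [Finset.sum_congr rfl this, ← Finset.sum_div]
    exact div_self hpos
  refine selector hw0 hw1 hp.le h0 h1 hlow ?_
  set Y : (α → Fin (s + 1)) → ℝ := fun τ =>
    ∑ T ∈ (univ : Finset (Finset α)).erase ∅, g T * ∏ x ∈ T, (4096 * (1 / 8 : ℝ) ^ (τ x : ℕ))
    with hY
  have hY0 : ∀ τ, 0 ≤ Y τ := fun τ => Finset.sum_nonneg fun T _ =>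
    mul_nonneg (hg T) (Finset.prod_nonneg fun x _ => by positivity)
  have hYgood : ∀ τ, ¬ Bad F w s τ → 1 / 4 ≤ Y τ := by
    intro τ hτ
    unfold Bad at hτ
    push Not at hτ
    obtain ⟨S, hS, hle⟩ := hτ
    rw [hwa] at hle
    have hGpos := hG S hS
    have a1 : ∑ T ∈ S.powerset.erase ∅,
        g T * (1 - (∑ x ∈ T, ((τ x : ℕ) : ℝ)) / (4 * T.card)) ≤ Y τ := by
      refine le_trans (Finset.sum_le_sum fun T hT => mul_le_mul_of_nonneg_left
        (prod_ge_one_sub T (Finset.ne_of_mem_erase hT) (fun x => τ x)) (hg T)) ?_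
      refine Finset.sum_le_sum_of_subset_of_nonneg
        (Finset.erase_subset_erase _ (Finset.subset_univ _)) fun T _ _ =>
        mul_nonneg (hg T) (Finset.prod_nonneg fun x _ => by positivity)
    have a2 : ∑ T ∈ S.powerset.erase ∅, g T * (1 - (∑ x ∈ T, ((τ x : ℕ) : ℝ)) / (4 * T.card))
        = GS S - GS S / 4 * ∑ T ∈ S.powerset.erase ∅,
          g T / (GS S * T.card) * ∑ x ∈ T, ((τ x : ℕ) : ℝ) := by
      rw [Finset.mul_sum]
      conv_rhs => enter [1]; simp only [hGS]
      rw [← Finset.sum_sub_distrib]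
      refine Finset.sum_congr rfl fun T hT => ?_
      have : (T.card : ℝ) ≠ 0 := by
        have := Finset.card_pos.2 (Finset.nonempty_iff_ne_empty.2 (Finset.ne_of_mem_erase hT))
        exact_mod_cast this.ne'
      have : GS S ≠ 0 := by linarith
      field_simp
    rw [a2] at a1
    nlinarith
  have hEY : ∑ τ : α → Fin (s + 1), pw π τ * Y τ ≤ 1 / 16 := by
    simp only [hY, Finset.mul_sum]
    rw [Finset.sum_comm]
    have e : ∀ T ∈ (univ : Finset (Finset α)).erase ∅,
        ∑ τ : α → Fin (s + 1), pw π τ * (g T * ∏ x ∈ T, (4096 * (1 / 8 : ℝ) ^ (τ x : ℕ)))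
          ≤ 1 / 8 * (g T * r ^ T.card) := by
      intro T hT
      have b1 : ∀ τ : α → Fin (s + 1),
          pw π τ * (g T * ∏ x ∈ T, (4096 * (1 / 8 : ℝ) ^ (τ x : ℕ)))
          = g T * ∏ x, (fun x j => π j * if x ∈ T then 4096 * (1 / 8 : ℝ) ^ (j : ℕ) else 1)
            x (τ x) := by
        intro τ
        simp only [pw]
        rw [Finset.prod_mul_distrib (s := univ), Finset.prod_ite_mem, Finset.univ_inter]; ring
      simp_rw [b1]
      rw [← Finset.mul_sum,
        sum_prod_eq (fun x j => π j * if x ∈ T then 4096 * (1 / 8 : ℝ) ^ (j : ℕ) else 1)]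
      have b2 : ∏ x, ∑ j, π j * (if x ∈ T then 4096 * (1 / 8 : ℝ) ^ (j : ℕ) else 1)
          ≤ ∏ x, if x ∈ T then r / 8 else 1 := by
        refine Finset.prod_le_prod (fun x _ => Finset.sum_nonneg fun j _ => ?_) fun x _ => ?_
        · have := h0 j; split_ifs <;> positivity
        · split_ifs
          · linarith
          · simp [h1]
      rw [Finset.prod_ite_mem, Finset.univ_inter, Finset.prod_const] at b2
      have hc : 1 ≤ T.card :=
        Finset.card_pos.2 (Finset.nonempty_iff_ne_empty.2 (Finset.ne_of_mem_erase hT))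
      have b3 : (r / 8) ^ T.card ≤ 1 / 8 * r ^ T.card := by
        rw [div_eq_mul_one_div, mul_pow, mul_comm]
        refine mul_le_mul_of_nonneg_right ?_ (by positivity)
        calc (1 / 8 : ℝ) ^ T.card ≤ (1 / 8) ^ 1 :=
              pow_le_pow_of_le_one (by norm_num) (by norm_num) hc
          _ = 1 / 8 := by norm_num
      have := mul_le_mul_of_nonneg_left (b2.trans b3) (hg T)
      linarith
    refine (Finset.sum_le_sum e).trans ?_
    rw [← Finset.mul_sum]
    have : ∑ T ∈ (univ : Finset (Finset α)).erase ∅, g T * r ^ T.card ≤ 1 / 2 :=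
      le_trans (Finset.sum_le_sum_of_subset_of_nonneg (Finset.subset_univ _)
        fun T _ _ => mul_nonneg (hg T) (by positivity)) hcost
    linarith
  have hsplit := Finset.sum_filter_add_sum_filter_not (univ : Finset (α → Fin (s + 1)))
    (fun τ => Bad F w s τ) (fun τ => pw π τ)
  rw [sum_pw π h1] at hsplit
  have hnb : ∑ τ ∈ univ.filter (fun τ => ¬ Bad F w s τ), pw π τ * (1 / 4)
      ≤ ∑ τ : α → Fin (s + 1), pw π τ * Y τ := by
    refine le_trans (Finset.sum_le_sum fun τ hτ => mul_le_mul_of_nonneg_left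
      (hYgood τ (Finset.mem_filter.1 hτ).2) (pw_nonneg h0 τ)) ?_
    exact Finset.sum_le_sum_of_subset_of_nonneg (Finset.subset_univ _)
      fun τ _ _ => mul_nonneg (pw_nonneg h0 τ) (hY0 τ)
  rw [← Finset.sum_mul] at hnb
  linarith

end Crest.Agent.R052
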