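import Mathlib

/-!
The pivot construction for the multi-level selector argument (deterministic part).
-/

set_option autoImplicit false

namespace Crest.Agent.R052

open Finset

variable {α : Type*} [DecidableEq α]

/-- level weight -/
noncomputable def gam (i : ℕ) : ℝ := (1 / 2 : ℝ) ^ i

lemma gam_pos (i : ℕ) : 0 < gam i := by unfold gam; positivity

lemma gam_anti {i j : ℕ} (h : i ≤ j) : gam j ≤ gam i :=
  pow_le_pow_of_le_one (by norm_num) (by norm_num) h

lemma sum_gam_le (s : ℕ) : ∑ i ∈ range s, gam i ≤ 2 := sum_geometric_two_le s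

/-- truncated deficit functional -/
noncomputable def Fval (w : α → ℝ) (s : ℕ) (S : Finset α) (τ : α → ℕ) (c : ℝ) : ℝ :=
  ∑ i ∈ range s, ∑ x ∈ S, min (w x) (c * gam i) * (gam i - if i < τ x then 1 else 0)

/-- breakpoints -/
noncomputable def brk (w : α → ℝ) (s : ℕ) (S : Finset α) : Finset ℝ :=
  insert 0 ((S ×ˢ range s).image (fun z => w z.1 / gam z.2))

omit [DecidableEq α] in
lemma Fval_zero (w : α → ℝ) (s : ℕ) (S : Finset α) (hw : ∀ x ∈ S, 0 ≤ w x) (τ : α → ℕ) :
    Fval w s S τ 0 = 0 := by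
  unfold Fval
  refine Finset.sum_eq_zero fun i _ => Finset.sum_eq_zero fun x hx => ?_
  rw [zero_mul, min_eq_right (hw x hx), zero_mul]

omit [DecidableEq α] in
lemma exists_piv (w : α → ℝ) (s : ℕ) (S : Finset α) (τ : α → ℕ) :
    ∃ ε : ℝ, (∀ x ∈ S, 0 ≤ w x) → ε ∈ brk w s S ∧ 0 ≤ Fval w s S τ ε ∧
      ∀ c ∈ brk w s S, 0 ≤ Fval w s S τ c → c ≤ ε := by
  by_cases hw : ∀ x ∈ S, 0 ≤ w x
  · have hne : ((brk w s S).filter (fun c => 0 ≤ Fval w s S τ c)).Nonempty :=
      ⟨0, Finset.mem_filter.2 ⟨Finset.mem_insert_self _ _, (Fval_zero w s S hw τ).ge⟩⟩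
    obtain ⟨ε, hε, hmax⟩ := Finset.exists_max_image _ id hne
    exact ⟨ε, fun _ => ⟨(Finset.mem_filter.1 hε).1, (Finset.mem_filter.1 hε).2,
      fun c hc h => hmax c (Finset.mem_filter.2 ⟨hc, h⟩)⟩⟩
  · exact ⟨0, fun h => absurd h hw⟩

/-- the pivot -/
noncomputable def piv (w : α → ℝ) (s : ℕ) (S : Finset α) (τ : α → ℕ) : ℝ :=
  Classical.choose (exists_piv w s S τ)

omit [DecidableEq α] in
lemma piv_spec {w : α → ℝ} (s : ℕ) {S : Finset α} (hw : ∀ x ∈ S, 0 ≤ w x) (τ : α → ℕ) :
    piv w s S τ ∈ brk w s S ∧ 0 ≤ Fval w s S τ (piv w s S τ) ∧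
      ∀ c ∈ brk w s S, 0 ≤ Fval w s S τ c → c ≤ piv w s S τ :=
  Classical.choose_spec (exists_piv w s S τ) hw

omit [DecidableEq α] in
lemma piv_nonneg {w : α → ℝ} (s : ℕ) {S : Finset α} (hw : ∀ x ∈ S, 0 ≤ w x) (τ : α → ℕ) :
    0 ≤ piv w s S τ :=
  (piv_spec s hw τ).2.2 0 (Finset.mem_insert_self _ _) (Fval_zero w s S hw τ).ge

/-- heavy set at level `i` -/
noncomputable def heavy (w : α → ℝ) (S : Finset α) (ε : ℝ) (i : ℕ) : Finset α :=
  S.filter (fun x => ε * gam i < w x)

omit [DecidableEq α] in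
lemma heavy_mono {w : α → ℝ} {S : Finset α} {ε ε' : ℝ} {i j : ℕ} (hε : 0 ≤ ε) (h : ε ≤ ε')
    (hij : i ≤ j) : heavy w S ε' i ⊆ heavy w S ε j := by
  intro x hx
  simp only [heavy, Finset.mem_filter] at hx ⊢
  refine ⟨hx.1, lt_of_le_of_lt ?_ hx.2⟩
  exact mul_le_mul h (gam_anti hij) (gam_pos j).le (hε.trans h)

/-- the level-`i` defect -/
noncomputable def Dset (w : α → ℝ) (s : ℕ) (S : Finset α) (τ : α → ℕ) (i : ℕ) : Finset α :=
  (heavy w S (piv w s S τ) i).filter (fun x => i < τ x)

/-- the repaired labelling -/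
noncomputable def fixl (w : α → ℝ) (s : ℕ) (S : Finset α) (τ : α → ℕ) (x : α) : ℕ :=
  Nat.find (p := fun j => τ x ≤ j ∨ x ∈ heavy w S (piv w s S τ) j) ⟨τ x, Or.inl le_rfl⟩

lemma lt_fixl_iff {w : α → ℝ} (s : ℕ) {S : Finset α} (hw : ∀ x ∈ S, 0 ≤ w x) (τ : α → ℕ)
    (x : α) (i : ℕ) :
    i < fixl w s S τ x ↔ i < τ x ∧ x ∉ heavy w S (piv w s S τ) i := by
  unfold fixl
  rw [Nat.lt_find_iff]
  constructor
  · intro h
    have := h i le_rfl
    push Not at this
    exact this
  · rintro ⟨h1, h2⟩ m hm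
    push Not
    exact ⟨by omega, fun h => h2 (heavy_mono (piv_nonneg s hw τ) le_rfl hm h)⟩

lemma fixl_le (w : α → ℝ) (s : ℕ) (S : Finset α) (τ : α → ℕ) (x : α) :
    fixl w s S τ x ≤ τ x := Nat.find_min' _ (Or.inl le_rfl)

lemma mem_Dset_iff {w : α → ℝ} (s : ℕ) {S : Finset α} (hw : ∀ x ∈ S, 0 ≤ w x) (τ : α → ℕ)
    (x : α) (i : ℕ) : x ∈ Dset w s S τ i ↔ fixl w s S τ x ≤ i ∧ i < τ x := by
  rw [← not_lt, lt_fixl_iff s hw]
  simp only [Dset, Finset.mem_filter]
  tauto

/-- weighted size of the defects -/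
noncomputable def delta (w : α → ℝ) (s : ℕ) (S : Finset α) (τ : α → ℕ) : ℝ :=
  ∑ i ∈ range s, gam i * (Dset w s S τ i).card

omit [DecidableEq α] in
lemma sum_ite_lt (s t : ℕ) (h : t ≤ s) : ∑ i ∈ range s, (if i < t then (1 : ℝ) else 0) = t := by
  rw [← Finset.sum_filter]
  have : (range s).filter (fun i => i < t) = range t := by
    ext i; simp only [Finset.mem_filter, Finset.mem_range]; omega
  simp [this]

omit [DecidableEq α] in
/-- the slope at the pivot is negative when `S` is not good -/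
lemma slope {w : α → ℝ} (s : ℕ) {S : Finset α} (hw : ∀ x ∈ S, 0 ≤ w x) (hw1 : ∑ x ∈ S, w x = 1)
    (τ : α → ℕ) (hτ : ∀ x, τ x ≤ s) (hbad : 2 < ∑ x ∈ S, w x * τ x) :
    ∑ i ∈ range s, gam i * gam i * (heavy w S (piv w s S τ) i).card < delta w s S τ := by
  obtain ⟨h1, h2, h3⟩ := piv_spec s hw τ
  set ε := piv w s S τ with hε
  have hb : ∀ x ∈ S, ∀ i ∈ range s, w x / gam i ∈ brk w s S := fun x hx i hi =>
    Finset.mem_insert_of_mem (Finset.mem_image.2 ⟨(x, i), Finset.mem_product.2 ⟨hx, hi⟩, rfl⟩)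
  obtain ⟨cm, hcm, hcmax⟩ := Finset.exists_max_image (brk w s S) id ⟨0, Finset.mem_insert_self _ _⟩
  have hFm : Fval w s S τ cm < 0 := by
    have : Fval w s S τ cm = ∑ i ∈ range s, gam i - ∑ x ∈ S, w x * τ x := by
      unfold Fval
      have e : ∀ i ∈ range s, ∑ x ∈ S, min (w x) (cm * gam i) * (gam i - if i < τ x then 1 else 0)
          = gam i - ∑ x ∈ S, w x * (if i < τ x then 1 else 0) := by
        intro i hi
        have : ∀ x ∈ S, min (w x) (cm * gam i) * (gam i - if i < τ x then 1 else 0)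
            = w x * gam i - w x * (if i < τ x then 1 else 0) := by
          intro x hx
          have := hcmax _ (hb x hx i hi)
          simp only [id] at this
          rw [div_le_iff₀ (gam_pos i)] at this
          rw [min_eq_left this]; ring
        rw [Finset.sum_congr rfl this, Finset.sum_sub_distrib, ← Finset.sum_mul, hw1, one_mul]
      rw [Finset.sum_congr rfl e, Finset.sum_sub_distrib, Finset.sum_comm]
      congr 1
      refine Finset.sum_congr rfl fun x _ => ?_
      rw [← Finset.mul_sum, sum_ite_lt s _ (hτ x)]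
    have := sum_gam_le s
    linarith
  have hlt : ε < cm := by
    have := hcmax ε h1
    simp only [id] at this
    rcases this.lt_or_eq with h | h
    · exact h
    · rw [h] at h2; linarith
  obtain ⟨cp, hcp, hcpmin⟩ := Finset.exists_min_image ((brk w s S).filter (fun c => ε < c)) id
    ⟨cm, Finset.mem_filter.2 ⟨hcm, hlt⟩⟩
  obtain ⟨hcp1, hcp2⟩ := Finset.mem_filter.1 hcp
  have hFp : Fval w s S τ cp < 0 := by
    by_contra h
    push Not at h
    exact absurd (h3 cp hcp1 h) (not_le.2 hcp2)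
  have hdiff : Fval w s S τ cp - Fval w s S τ ε = (cp - ε) *
      (∑ i ∈ range s, gam i * gam i * (heavy w S ε i).card - delta w s S τ) := by
    unfold Fval delta
    rw [← Finset.sum_sub_distrib, ← Finset.sum_sub_distrib, Finset.mul_sum]
    refine Finset.sum_congr rfl fun i hi => ?_
    rw [← Finset.sum_sub_distrib]
    have e : ∀ x ∈ S, min (w x) (cp * gam i) * (gam i - if i < τ x then 1 else 0)
        - min (w x) (ε * gam i) * (gam i - if i < τ x then 1 else 0)
        = (cp - ε) * (gam i * gam i * (if ε * gam i < w x then 1 else 0)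
          - gam i * (if ε * gam i < w x ∧ i < τ x then 1 else 0)) := by
      intro x hx
      by_cases hh : ε * gam i < w x
      · have a1 : ε < w x / gam i := by rw [lt_div_iff₀ (gam_pos i)]; exact hh
        have a2 := hcpmin _ (Finset.mem_filter.2 ⟨hb x hx i hi, a1⟩)
        simp only [id] at a2
        rw [le_div_iff₀ (gam_pos i)] at a2
        rw [min_eq_right a2, min_eq_right hh.le]
        by_cases ht : i < τ x <;> simp [hh, ht] <;> ring
      · push Not at hh
        have a2 : w x ≤ cp * gam i :=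
          hh.trans (mul_le_mul_of_nonneg_right hcp2.le (gam_pos i).le)
        rw [min_eq_left a2, min_eq_left hh]
        simp [not_lt.2 hh]
    rw [Finset.sum_congr rfl e, ← Finset.mul_sum, Finset.sum_sub_distrib, ← Finset.mul_sum,
      ← Finset.mul_sum]
    simp only [Dset, heavy, ← hε, Finset.filter_filter, Finset.card_filter]
    push_cast
    rfl
  have hpos : 0 < cp - ε := by linarith
  have : (cp - ε) * (∑ i ∈ range s, gam i * gam i * (heavy w S ε i).card - delta w s S τ) < 0 := by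
    linarith
  have := (mul_neg_iff.1 this).resolve_right (fun h => by linarith [h.1])
  linarith [this.2]

/-- comparison of pivots -/
lemma piv_le_piv {w w' : α → ℝ} (s : ℕ) {S S' : Finset α} (hw : ∀ x ∈ S, 0 ≤ w x)
    (hw' : ∀ x ∈ S', 0 ≤ w' x) (σ τ : α → ℕ)
    (hfix : ∀ x, fixl w s S σ x = fixl w' s S' τ x) (hδ : delta w' s S' τ ≤ delta w s S σ) :
    piv w s S σ ≤ piv w s S τ := by
  obtain ⟨h1, h2, -⟩ := piv_spec s hw σ
  have h0 := piv_nonneg s hw σ
  set ε := piv w s S σ with hε
  refine (piv_spec s hw τ).2.2 ε h1 (h2.trans ?_)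
  have key : ε * (delta w s S σ - delta w' s S' τ) ≤ Fval w s S τ ε - Fval w s S σ ε := by
    unfold Fval delta
    rw [← Finset.sum_sub_distrib, ← Finset.sum_sub_distrib, Finset.mul_sum]
    refine Finset.sum_le_sum fun i _ => ?_
    rw [← Finset.sum_sub_distrib]
    have e : ∀ x ∈ S, (if x ∈ Dset w s S σ i then ε * gam i else 0)
        - (if x ∈ Dset w' s S' τ i then ε * gam i else 0)
        ≤ min (w x) (ε * gam i) * (gam i - if i < τ x then 1 else 0)
          - min (w x) (ε * gam i) * (gam i - if i < σ x then 1 else 0) := by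
      intro x hx
      have a1 := mem_Dset_iff s hw σ x i
      have a2 := mem_Dset_iff s hw' τ x i
      have a3 := fixl_le w s S σ x
      have a4 := fixl_le w' s S' τ x
      have a5 := hfix x
      have m1 : min (w x) (ε * gam i) ≤ ε * gam i := min_le_right _ _
      have m0 : 0 ≤ min (w x) (ε * gam i) := le_min (hw x hx) (mul_nonneg h0 (gam_pos i).le)
      by_cases b1 : x ∈ Dset w s S σ i
      · have b1' := a1.1 b1
        have m2 : min (w x) (ε * gam i) = ε * gam i := by
          simp only [Dset, heavy, Finset.mem_filter, ← hε] at b1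
          exact min_eq_right b1.1.2.le
        by_cases b2 : x ∈ Dset w' s S' τ i
        · have b2' := a2.1 b2
          simp [b1, b2, b1'.2, b2'.2]
        · have : ¬ i < τ x := fun h => b2 (a2.2 ⟨by omega, h⟩)
          simp only [b1, b2, b1'.2, this, if_true, if_false, m2]
          linarith
      · by_cases b2 : x ∈ Dset w' s S' τ i
        · have b2' := a2.1 b2
          have : ¬ i < σ x := fun h => b1 (a1.2 ⟨by omega, h⟩)
          simp only [b1, b2, b2'.2, this, if_true, if_false]
          linarith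
        · have : i < σ x ↔ i < τ x := by
            rw [a1] at b1; rw [a2] at b2; omega
          simp [b1, b2, this]
    refine le_trans ?_ (Finset.sum_le_sum e)
    rw [Finset.sum_sub_distrib, ← Finset.sum_filter, ← Finset.sum_filter, Finset.sum_const,
      Finset.sum_const, nsmul_eq_mul, nsmul_eq_mul]
    have c1 : S.filter (fun x => x ∈ Dset w s S σ i) = Dset w s S σ i := by
      ext x
      simp only [Finset.mem_filter, and_iff_right_iff_imp]
      intro h
      simp only [Dset, heavy, Finset.mem_filter] at h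
      exact h.1.1
    have c2 : ((S.filter (fun x => x ∈ Dset w' s S' τ i)).card : ℝ) ≤ (Dset w' s S' τ i).card := by
      have : (S.filter (fun x => x ∈ Dset w' s S' τ i)) ⊆ Dset w' s S' τ i :=
        fun x hx => (Finset.mem_filter.1 hx).2
      exact_mod_cast Finset.card_le_card this
    rw [c1]
    have := mul_le_mul_of_nonneg_right c2 (mul_nonneg h0 (gam_pos i).le)
    nlinarith
  have : 0 ≤ ε * (delta w s S σ - delta w' s S' τ) := mul_nonneg h0 (by linarith)
  linarith

end Crest.Agent.R052
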