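import Crest.Agent.R052.Pivot

/-!
The multi-level selector theorem: if with probability at least `3/4` no member of `F` has small
weighted average label, then `F` is `p`-small.
-/

set_option autoImplicit false

namespace Crest.Agent.R052

open Finset

variable {α : Type*} [Fintype α] [DecidableEq α]

/-- product weight -/
noncomputable def pw {Ω : Type*} (π : Ω → ℝ) (τ : α → Ω) : ℝ := ∏ x, π (τ x)

lemma sum_prod_eq {Ω : Type*} [Fintype Ω] (h : α → Ω → ℝ) :
    ∑ τ : α → Ω, ∏ x, h x (τ x) = ∏ x, ∑ ω, h x ω := by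
  rw [Finset.prod_univ_sum, Fintype.piFinset_univ]

lemma sum_pw {Ω : Type*} [Fintype Ω] (π : Ω → ℝ) (h1 : ∑ ω, π ω = 1) :
    ∑ τ : α → Ω, pw π τ = 1 := by
  unfold pw
  rw [sum_prod_eq (fun _ ω => π ω)]
  simp [h1]

omit [DecidableEq α] in
lemma pw_nonneg {Ω : Type*} {π : Ω → ℝ} (h0 : ∀ ω, 0 ≤ π ω) (τ : α → Ω) : 0 ≤ pw π τ :=
  Finset.prod_nonneg fun _ _ => h0 _

section

variable (F : Finset (Finset α)) (w : Finset α → α → ℝ) (s : ℕ)

/-- no member is good -/
def Bad (τ : α → Fin (s + 1)) : Prop := ∀ S ∈ F, 2 < ∑ x ∈ S, w S x * ((τ x : ℕ) : ℝ)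

/-- where two labellings differ -/
def diff (τ τ' : α → Fin (s + 1)) : Finset α := univ.filter (fun x => τ' x ≠ τ x)

/-- total defect -/
noncomputable def dsum (S : Finset α) (τ : α → Fin (s + 1)) : ℕ :=
  ∑ i ∈ range s, (Dset (w S) s S (fun x => τ x) i).card

/-- the fragment -/
noncomputable def Uset (S : Finset α) (τ : α → Fin (s + 1)) : Finset α :=
  univ.filter (fun x => fixl (w S) s S (fun x => τ x) x ≠ τ x)

/-- `τ'` is a minimal repair of `τ` -/
def Rel (τ τ' : α → Fin (s + 1)) : Prop :=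
  ∃ S' ∈ F, (∀ x, (τ' x : ℕ) = fixl (w S') s S' (fun x => τ x) x) ∧
    ∀ S'' ∈ F, Uset w s S'' τ ⊆ Uset w s S' τ → dsum w s S' τ ≤ dsum w s S'' τ

variable {F w s}

lemma diff_eq_Uset {S : Finset α} {τ τ' : α → Fin (s + 1)}
    (h : ∀ x, (τ' x : ℕ) = fixl (w S) s S (fun x => τ x) x) : diff s τ τ' = Uset w s S τ := by
  ext x
  simp only [diff, Uset, Finset.mem_filter, Finset.mem_univ, true_and, ← h x, ne_eq, Fin.val_inj]

lemma mem_Dset_of_mem_Uset {S : Finset α} (hw : ∀ x ∈ S, 0 ≤ w S x) {τ : α → Fin (s + 1)} {x : α}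
    (hx : x ∈ Uset w s S τ) :
    x ∈ Dset (w S) s S (fun x => τ x) (fixl (w S) s S (fun x => τ x) x) ∧
      fixl (w S) s S (fun x => τ x) x < s := by
  simp only [Uset, Finset.mem_filter, Finset.mem_univ, true_and] at hx
  have h1 := fixl_le (w S) s S (fun x => τ x) x
  have h2 := (τ x).2
  rw [mem_Dset_iff s hw]
  exact ⟨⟨le_rfl, by omega⟩, by omega⟩

lemma Dset_subset_Uset {S : Finset α} (hw : ∀ x ∈ S, 0 ≤ w S x) (τ : α → Fin (s + 1)) (i : ℕ) :
    Dset (w S) s S (fun x => τ x) i ⊆ Uset w s S τ := by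
  intro x hx
  rw [mem_Dset_iff s hw] at hx
  simp only [Uset, Finset.mem_filter, Finset.mem_univ, true_and]
  omega

lemma Uset_subset {S : Finset α} (hw : ∀ x ∈ S, 0 ≤ w S x) (τ : α → Fin (s + 1)) :
    Uset w s S τ ⊆ S := by
  intro x hx
  have := (mem_Dset_of_mem_Uset hw hx).1
  simp only [Dset, heavy, Finset.mem_filter] at this
  exact this.1.1

lemma exists_rel (hw : ∀ S ∈ F, ∀ x ∈ S, 0 ≤ w S x) (τ : α → Fin (s + 1)) {S : Finset α}
    (hS : S ∈ F) : ∃ τ', Rel F w s τ τ' ∧ diff s τ τ' ⊆ S := by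
  obtain ⟨S', hS', hmin⟩ := Finset.exists_min_image (F.filter (fun S' => Uset w s S' τ ⊆ S))
    (fun S' => dsum w s S' τ) ⟨S, Finset.mem_filter.2 ⟨hS, Uset_subset (hw S hS) τ⟩⟩
  obtain ⟨h1, h2⟩ := Finset.mem_filter.1 hS'
  let τ' : α → Fin (s + 1) := fun x => ⟨fixl (w S') s S' (fun x => τ x) x,
    lt_of_le_of_lt (fixl_le _ _ _ _ x) (τ x).2⟩
  have hτ' : ∀ x, (τ' x : ℕ) = fixl (w S') s S' (fun x => τ x) x := fun x => rfl
  refine ⟨τ', ⟨S', h1, hτ', fun S'' hS'' hsub => ?_⟩, ?_⟩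
  · exact hmin S'' (Finset.mem_filter.2 ⟨hS'', hsub.trans h2⟩)
  · rw [diff_eq_Uset hτ']; exact h2

lemma delta_le {S : Finset α} (hw : ∀ x ∈ S, 0 ≤ w S x) (τ : α → Fin (s + 1)) :
    delta (w S) s S (fun x => τ x) ≤ 2 * (Uset w s S τ).card := by
  unfold delta
  calc ∑ i ∈ range s, gam i * ((Dset (w S) s S (fun x => τ x) i).card : ℝ)
      ≤ ∑ i ∈ range s, gam i * ((Uset w s S τ).card : ℝ) := by
        refine Finset.sum_le_sum fun i _ => mul_le_mul_of_nonneg_left ?_ (gam_pos i).le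
        exact_mod_cast Finset.card_le_card (Dset_subset_Uset hw τ i)
    _ ≤ _ := by
        rw [← Finset.sum_mul]
        exact mul_le_mul_of_nonneg_right (sum_gam_le s) (by positivity)

lemma slope' (hw : ∀ S ∈ F, ∀ x ∈ S, 0 ≤ w S x) (hw1 : ∀ S ∈ F, ∑ x ∈ S, w S x = 1)
    {τ : α → Fin (s + 1)} (hb : Bad F w s τ) {S : Finset α} (hS : S ∈ F) :
    ∑ i ∈ range s, gam i * gam i * (heavy (w S) S (piv (w S) s S (fun x => τ x)) i).card
      < 2 * (Uset w s S τ).card :=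
  (slope s (hw S hS) (hw1 S hS) (fun x => τ x) (fun x => Nat.lt_succ_iff.1 (τ x).2)
    (hb S hS)).trans_le (delta_le (hw S hS) τ)

lemma diff_card_pos (hw : ∀ S ∈ F, ∀ x ∈ S, 0 ≤ w S x) (hw1 : ∀ S ∈ F, ∑ x ∈ S, w S x = 1)
    {τ τ' : α → Fin (s + 1)} (hb : Bad F w s τ) (hr : Rel F w s τ τ') :
    1 ≤ (diff s τ τ').card := by
  obtain ⟨S', hS', h1, -⟩ := hr
  rw [diff_eq_Uset h1]
  have h := slope' hw hw1 hb hS'
  have h0 : 0 ≤ ∑ i ∈ range s, gam i * gam i
      * ((heavy (w S') S' (piv (w S') s S' (fun x => τ x)) i).card : ℝ) :=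
    Finset.sum_nonneg fun i _ => by have := gam_pos i; positivity
  have : (0 : ℝ) < (Uset w s S' τ).card := by linarith
  exact_mod_cast this

lemma key_container (hw : ∀ S ∈ F, ∀ x ∈ S, 0 ≤ w S x) (hw1 : ∀ S ∈ F, ∑ x ∈ S, w S x = 1)
    (τ' : α → Fin (s + 1)) (M : ℕ) :
    ∃ A : Finset α, ∑ x ∈ A, gam (τ' x) * gam (τ' x) ≤ 2 * M ∧ (∀ x ∈ A, (τ' x : ℕ) < s) ∧
      ∀ τ, Bad F w s τ → Rel F w s τ τ' → (diff s τ τ').card = M → diff s τ τ' ⊆ A := by
  classical
  set P : Finset (Finset α × (α → Fin (s + 1))) := (F ×ˢ univ).filter (fun z => Bad F w s z.2 ∧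
    (∀ x, (τ' x : ℕ) = fixl (w z.1) s z.1 (fun x => z.2 x) x) ∧ (diff s z.2 τ').card = M) with hP
  have hmemP : ∀ S τ, (S, τ) ∈ P ↔ S ∈ F ∧ Bad F w s τ ∧
      (∀ x, (τ' x : ℕ) = fixl (w S) s S (fun x => τ x) x) ∧ (diff s τ τ').card = M := by
    intro S τ; simp [hP]
  by_cases hne : P.Nonempty
  swap
  · refine ⟨∅, by simp, by simp, fun τ hb hr hM => ?_⟩
    obtain ⟨S', hS', h1, -⟩ := hr
    exact absurd ⟨(S', τ), (hmemP _ _).2 ⟨hS', hb, h1, hM⟩⟩ hne
  obtain ⟨⟨S, σ⟩, hz, hmax⟩ := Finset.exists_max_image P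
    (fun z => delta (w z.1) s z.1 (fun x => z.2 x)) hne
  obtain ⟨hS, hbσ, hfσ, hMσ⟩ := (hmemP _ _).1 hz
  set ε := piv (w S) s S (fun x => σ x) with hε
  have hε0 : 0 ≤ ε := piv_nonneg s (hw S hS) _
  refine ⟨univ.filter (fun x => (τ' x : ℕ) < s ∧ x ∈ heavy (w S) S ε (τ' x)), ?_, ?_, ?_⟩
  · have h := slope' hw hw1 hbσ hS
    rw [← diff_eq_Uset hfσ, hMσ, ← hε] at h
    refine le_trans ?_ h.le
    calc ∑ x ∈ univ.filter (fun x => (τ' x : ℕ) < s ∧ x ∈ heavy (w S) S ε (τ' x)),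
          gam (τ' x) * gam (τ' x)
        ≤ ∑ x : α, ∑ i ∈ range s, if x ∈ heavy (w S) S ε i then gam i * gam i else 0 := by
          rw [Finset.sum_filter]
          refine Finset.sum_le_sum fun x _ => ?_
          have hn : ∀ i ∈ range s, 0 ≤ if x ∈ heavy (w S) S ε i then gam i * gam i else 0 :=
            fun i _ => by have := gam_pos i; split_ifs <;> positivity
          split_ifs with hx
          · have := Finset.single_le_sum hn (Finset.mem_range.2 hx.1)
            simpa [hx.2] using this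
          · exact Finset.sum_nonneg hn
      _ = _ := by
          rw [Finset.sum_comm]
          refine Finset.sum_congr rfl fun i _ => ?_
          rw [Finset.sum_ite_mem, Finset.univ_inter, Finset.sum_const, nsmul_eq_mul, mul_comm]
  · intro x hx
    exact (Finset.mem_filter.1 hx).2.1
  · intro τ hb hr hM
    obtain ⟨S', hS', h1, h2⟩ := hr
    have hδ := hmax (S', τ) ((hmemP _ _).2 ⟨hS', hb, h1, hM⟩)
    have hpiv : ε ≤ piv (w S) s S (fun x => τ x) :=
      piv_le_piv s (hw S hS) (hw S' hS') _ _ (fun x => by rw [← hfσ x, ← h1 x]) hδ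
    have hheavy : ∀ i, Dset (w S) s S (fun x => τ x) i ⊆ heavy (w S) S ε i := fun i x hx =>
      heavy_mono hε0 hpiv le_rfl (Finset.mem_filter.1 hx).1
    have hsub : ∀ i, Dset (w S) s S (fun x => τ x) i ⊆ Dset (w S') s S' (fun x => τ x) i := by
      intro i x hx
      rw [mem_Dset_iff s (hw S' hS'), ← h1 x, hfσ x]
      refine ⟨?_, (Finset.mem_filter.1 hx).2⟩
      by_contra hc
      push Not at hc
      exact ((lt_fixl_iff s (hw S hS) _ x i).1 hc).2 (hheavy i hx)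
    have hU : Uset w s S τ ⊆ Uset w s S' τ := fun x hx =>
      Dset_subset_Uset (hw S' hS') τ _ (hsub _ (mem_Dset_of_mem_Uset (hw S hS) hx).1)
    have hle := h2 S hS hU
    have heq : ∀ i ∈ range s, Dset (w S) s S (fun x => τ x) i
        = Dset (w S') s S' (fun x => τ x) i := by
      have hcard := (Finset.sum_eq_sum_iff_of_le (s := range s)
        (f := fun i => (Dset (w S) s S (fun x => τ x) i).card)
        (g := fun i => (Dset (w S') s S' (fun x => τ x) i).card)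
        (fun i _ => Finset.card_le_card (hsub i))).1
        (le_antisymm (Finset.sum_le_sum fun i _ => Finset.card_le_card (hsub i)) hle)
      intro i hi
      exact Finset.eq_of_subset_of_card_le (hsub i) (hcard i hi).ge
    intro x hx
    rw [diff_eq_Uset h1] at hx
    obtain ⟨a1, a2⟩ := mem_Dset_of_mem_Uset (hw S' hS') hx
    rw [← h1 x] at a1 a2
    rw [← heq _ (Finset.mem_range.2 a2)] at a1
    exact Finset.mem_filter.2 ⟨mem_univ _, a2, hheavy _ a1⟩

open Classical in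
lemma sum_level_le (hw : ∀ S ∈ F, ∀ x ∈ S, 0 ≤ w S x) (hw1 : ∀ S ∈ F, ∑ x ∈ S, w S x = 1)
    {p : ℝ} (hp : 0 ≤ p) {π : Fin (s + 1) → ℝ} (h0 : ∀ j, 0 ≤ π j) (h1 : ∑ j, π j = 1)
    (hlow : ∀ j : Fin (s + 1), (j : ℕ) < s → 36 * p ≤ π j * (gam j * gam j))
    (τ' : α → Fin (s + 1)) (M : ℕ) :
    ∑ τ ∈ univ.filter (fun τ => Bad F w s τ ∧ Rel F w s τ τ' ∧ (diff s τ τ').card = M),
      pw π τ * p ^ M ≤ pw π τ' * (1 / 6) ^ M := by
  obtain ⟨A, hA1, hA2, hA3⟩ := key_container hw hw1 τ' M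
  set h : α → Fin (s + 1) → ℝ := fun x j =>
    if j = τ' x then π j else if x ∈ A then 18 * p * π j else 0 with hh
  have hh0 : ∀ x j, 0 ≤ h x j := by
    intro x j; simp only [hh]; have := h0 j; split_ifs <;> positivity
  have e1 : ∀ τ ∈ univ.filter (fun τ => Bad F w s τ ∧ Rel F w s τ τ' ∧ (diff s τ τ').card = M),
      pw π τ * (18 * p) ^ M = ∏ x, h x (τ x) := by
    intro τ hτ
    obtain ⟨-, b1, b2, b3⟩ := Finset.mem_filter.1 hτ
    have hsub := hA3 τ b1 b2 b3
    have : (18 * p) ^ M = ∏ x, if τ' x ≠ τ x then 18 * p else 1 := by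
      rw [← Finset.prod_filter, Finset.prod_const, ← b3]; rfl
    rw [this, pw, ← Finset.prod_mul_distrib]
    refine Finset.prod_congr rfl fun x _ => ?_
    simp only [hh]
    by_cases hx : τ x = τ' x
    · simp [hx]
    · have hx' : τ' x ≠ τ x := fun h => hx h.symm
      have : x ∈ A := hsub (Finset.mem_filter.2 ⟨mem_univ _, hx'⟩)
      simp [hx, hx', this, mul_comm]
  have e2 : ∀ x, ∑ j, h x j ≤ π (τ' x) *
      Real.exp (if x ∈ A then gam (τ' x) * gam (τ' x) / 2 else 0) := by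
    intro x
    by_cases hx : x ∈ A
    · simp only [hx, if_true]
      have a1 : ∑ j, h x j ≤ ∑ j, ((if j = τ' x then π j else 0) + 18 * p * π j) := by
        refine Finset.sum_le_sum fun j _ => ?_
        simp only [hh, hx, if_true]
        have := h0 j
        split_ifs
        · have : 0 ≤ 18 * p * π j := by positivity
          linarith
        · simp
      rw [Finset.sum_add_distrib, ← Finset.mul_sum, h1] at a1
      simp only [Finset.sum_ite_eq', Finset.mem_univ, if_true, mul_one] at a1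
      have a2 := hlow (τ' x) (hA2 x hx)
      have a3 := Real.add_one_le_exp (gam (τ' x) * gam (τ' x) / 2)
      have a4 := mul_le_mul_of_nonneg_left a3 (h0 (τ' x))
      nlinarith
    · simp [hh, hx]
  have e3 : ∏ x, ∑ j, h x j ≤ pw π τ' * 3 ^ M := by
    refine (Finset.prod_le_prod (fun x _ => Finset.sum_nonneg fun j _ => hh0 x j)
      (fun x _ => e2 x)).trans ?_
    rw [Finset.prod_mul_distrib, ← Real.exp_sum]
    refine mul_le_mul_of_nonneg_left ?_ (pw_nonneg h0 τ')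
    rw [Finset.sum_ite_mem, Finset.univ_inter, ← Finset.sum_div]
    calc Real.exp ((∑ x ∈ A, gam (τ' x) * gam (τ' x)) / 2) ≤ Real.exp (M * 1) :=
          Real.exp_le_exp.2 (by linarith)
      _ = Real.exp 1 ^ M := by rw [Real.exp_nat_mul]
      _ ≤ 3 ^ M := pow_le_pow_left₀ (Real.exp_pos 1).le
          (by have := Real.exp_one_lt_d9; linarith) M
  have e4 : ∑ τ ∈ univ.filter (fun τ => Bad F w s τ ∧ Rel F w s τ τ' ∧ (diff s τ τ').card = M),
      pw π τ * (18 * p) ^ M ≤ pw π τ' * 3 ^ M := by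
    rw [Finset.sum_congr rfl e1]
    refine le_trans (Finset.sum_le_sum_of_subset_of_nonneg (Finset.subset_univ _)
      fun τ _ _ => Finset.prod_nonneg fun x _ => hh0 x _) ?_
    rw [sum_prod_eq]; exact e3
  have e5 : ∀ τ : α → Fin (s + 1), pw π τ * p ^ M = (1 / 18) ^ M * (pw π τ * (18 * p) ^ M) := by
    intro τ
    rw [mul_pow, mul_left_comm, ← mul_assoc ((1 / 18 : ℝ) ^ M), ← mul_pow]; norm_num
  simp_rw [e5]
  rw [← Finset.mul_sum]
  calc (1 / 18 : ℝ) ^ M * _ ≤ (1 / 18) ^ M * (pw π τ' * 3 ^ M) :=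
        mul_le_mul_of_nonneg_left e4 (by positivity)
    _ = pw π τ' * (1 / 6) ^ M := by
        rw [mul_left_comm, ← mul_pow]; norm_num

open Classical in
/-- The selector theorem. -/
theorem selector (hw : ∀ S ∈ F, ∀ x ∈ S, 0 ≤ w S x) (hw1 : ∀ S ∈ F, ∑ x ∈ S, w S x = 1)
    {p : ℝ} (hp : 0 ≤ p) {π : Fin (s + 1) → ℝ} (h0 : ∀ j, 0 ≤ π j) (h1 : ∑ j, π j = 1)
    (hlow : ∀ j : Fin (s + 1), (j : ℕ) < s → 36 * p ≤ π j * (gam j * gam j))
    (hbad : 3 / 4 ≤ ∑ τ ∈ univ.filter (fun τ => Bad F w s τ), pw π τ) :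
    ∃ G : Finset (Finset α), (∀ S ∈ F, ∃ U ∈ G, U ⊆ S) ∧ ∑ U ∈ G, p ^ U.card ≤ 1 / 2 := by
  set cost : (α → Fin (s + 1)) → ℝ := fun τ =>
    ∑ τ' ∈ univ.filter (fun τ' => Rel F w s τ τ'), p ^ (diff s τ τ').card with hcost
  have total : ∑ τ ∈ univ.filter (fun τ => Bad F w s τ), pw π τ * cost τ ≤ 1 / 5 := by
    have e1 : ∑ τ ∈ univ.filter (fun τ => Bad F w s τ), pw π τ * cost τ
        = ∑ τ' : α → Fin (s + 1), ∑ τ ∈ univ.filter (fun τ => Bad F w s τ ∧ Rel F w s τ τ'),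
          pw π τ * p ^ (diff s τ τ').card := by
      simp only [hcost, Finset.mul_sum, Finset.sum_filter]
      rw [Finset.sum_comm]
      refine Finset.sum_congr rfl fun τ _ => ?_
      by_cases hb : Bad F w s τ <;> simp [hb]
    rw [e1]
    have e2 : ∀ τ' : α → Fin (s + 1),
        ∑ τ ∈ univ.filter (fun τ => Bad F w s τ ∧ Rel F w s τ τ'),
          pw π τ * p ^ (diff s τ τ').card ≤ pw π τ' * (1 / 5) := by
      intro τ'
      rw [← Finset.sum_fiberwise_of_maps_to (t := Finset.Ico 1 (Fintype.card α + 1))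
        (g := fun τ => (diff s τ τ').card)]
      · calc _ ≤ ∑ M ∈ Finset.Ico 1 (Fintype.card α + 1), pw π τ' * (1 / 6) ^ M := by
              refine Finset.sum_le_sum fun M _ => ?_
              refine le_trans (le_of_eq ?_) (sum_level_le hw hw1 hp h0 h1 hlow τ' M)
              rw [Finset.filter_filter]
              refine Finset.sum_congr (by ext τ; simp [and_assoc]) fun τ hτ => ?_
              rw [(Finset.mem_filter.1 hτ).2.2.2]
          _ ≤ _ := by
              rw [← Finset.mul_sum]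
              refine mul_le_mul_of_nonneg_left ?_ (pw_nonneg h0 τ')
              refine (geom_sum_Ico_le_of_lt_one (by norm_num) (by norm_num)).trans ?_
              norm_num
      · intro τ hτ
        obtain ⟨-, b1, b2⟩ := Finset.mem_filter.1 hτ
        exact Finset.mem_Ico.2 ⟨diff_card_pos hw hw1 b1 b2,
          Nat.lt_succ_of_le (Finset.card_le_univ _)⟩
    refine (Finset.sum_le_sum fun τ' _ => e2 τ').trans ?_
    rw [← Finset.sum_mul, sum_pw π h1]; norm_num
  have hex : ∃ τ, cost τ ≤ 1 / 2 := by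
    by_contra hc
    push Not at hc
    have : ∑ τ ∈ univ.filter (fun τ => Bad F w s τ), pw π τ * (1 / 2)
        ≤ ∑ τ ∈ univ.filter (fun τ => Bad F w s τ), pw π τ * cost τ :=
      Finset.sum_le_sum fun τ _ => mul_le_mul_of_nonneg_left (hc τ).le (pw_nonneg h0 τ)
    rw [← Finset.sum_mul] at this
    linarith
  obtain ⟨τ, hτ⟩ := hex
  refine ⟨(univ.filter (fun τ' => Rel F w s τ τ')).image (diff s τ), ?_, ?_⟩
  · intro S hS
    obtain ⟨τ', a1, a2⟩ := exists_rel hw τ hS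
    exact ⟨_, Finset.mem_image_of_mem _ (Finset.mem_filter.2 ⟨mem_univ _, a1⟩), a2⟩
  · refine le_trans ?_ hτ
    exact Finset.sum_image_le_of_nonneg (fun U _ => by positivity)

end

end Crest.Agent.R052
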